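import Vale.Agent.P139Z.ODefs
import Vale.Agent.P139Z.Alg.Seq

/-! Algebra of the level recursion: sign of the real part, large real part. -/

open Set Filter Topology MeasureTheory Complex
open scoped NNReal ENNReal ComplexConjugate ContDiff

namespace Vale.Agent.P139Z

theorem Lev.unique {A : ℂ} {B : ℕ} {Z : ℝ} {P Y P' Y' : ℕ → ℂ} (h : Lev A B Z P Y)
    (h' : Lev A B Z P' Y') (hP : P 0 = P' 0) (hY : Y 0 = Y' 0) : P = P' ∧ Y = Y' := by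
  have key : ∀ n, P n = P' n ∧ Y n = Y' n := by
    intro n
    induction n with
    | zero => exact ⟨hP, hY⟩
    | succ n ih => rw [h.recP, h.recY, h'.recP, h'.recY, ih.1, ih.2]; exact ⟨rfl, rfl⟩
  exact ⟨funext fun n => (key n).1, funext fun n => (key n).2⟩

namespace Alg

/-- The shift `b = (B-1)/2`. -/
noncomputable def bb (B : ℕ) : ℝ := ((B : ℝ) - 1) / 2

/-- The shifted momentum `p = P + bY`. -/
noncomputable def pp (B : ℕ) (P Y : ℕ → ℂ) (n : ℕ) : ℂ := P n + (bb B : ℂ) * Y n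

/-- The shifted parameter `a = A + n - b`. -/
noncomputable def aa (A : ℂ) (B n : ℕ) : ℂ := A + n - (bb B : ℂ)

theorem aa_re (A : ℂ) (B n : ℕ) : (aa A B n).re = A.re + n - bb B := by simp [aa]

theorem aa_im (A : ℂ) (B n : ℕ) : (aa A B n).im = A.im := by simp [aa]

theorem bb_coe (B : ℕ) : ((bb B : ℝ) : ℂ) = ((B : ℂ) - 1) / 2 := by
  simp [bb]

theorem rec_y {A : ℂ} {B : ℕ} {Z : ℝ} {P Y : ℕ → ℂ} (h : Lev A B Z P Y) (n : ℕ) :
    Y (n + 1) = pp B P Y n + aa A B n * Y n := by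
  rw [h.recY, pp, aa]
  ring

theorem rec_p {A : ℂ} {B : ℕ} {Z : ℝ} {P Y : ℕ → ℂ} (h : Lev A B Z P Y) (n : ℕ) :
    pp B P Y (n + 1) + I * Z * Y (n + 1)
      = aa A B n * pp B P Y n + (bb B : ℂ) ^ 2 * Y n := by
  simp only [pp, aa, h.recY, h.recP, bb_coe]
  ring

theorem X_eq (B : ℕ) (P Y : ℕ → ℂ) (n : ℕ) : (conj (Y n) * pp B P Y n).re
    = (conj (Y n) * P n).re + ((B : ℝ) - 1) / 2 * ‖Y n‖ ^ 2 := by
  rw [pp, ← bb, Complex.sq_norm, Complex.normSq_apply]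
  simp only [mul_re, add_re, add_im, mul_im, conj_re, conj_im, ofReal_re, ofReal_im]
  ring

theorem J_eq (B : ℕ) (P Y : ℕ → ℂ) (n : ℕ) :
    (conj (Y n) * pp B P Y n).im = (conj (Y n) * P n).im := by
  rw [pp]
  simp only [mul_re, add_re, add_im, mul_im, conj_re, conj_im, ofReal_re, ofReal_im]
  ring

theorem X_alg {p y p' y' a : ℂ} {b Z : ℝ} (h1 : y' = p + a * y)
    (h2 : p' + I * Z * y' = a * p + (b : ℂ) ^ 2 * y) :
    (conj y' * p').re = (‖a‖ ^ 2 + b ^ 2) * (conj y * p).re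
      + a.re * (‖p‖ ^ 2 + b ^ 2 * ‖y‖ ^ 2) := by
  have h3 : p' = a * p + (b : ℂ) ^ 2 * y - I * Z * y' := by rw [← h2]; ring
  rw [h3, h1]
  simp only [Complex.sq_norm, Complex.normSq_apply, pow_two (b : ℂ), mul_re, add_re, add_im, mul_im,
    sub_re, sub_im, conj_re, conj_im, ofReal_re, ofReal_im, I_re, I_im]
  ring

theorem J_alg {p y p' y' a : ℂ} {b Z : ℝ} (h1 : y' = p + a * y)
    (h2 : p' + I * Z * y' = a * p + (b : ℂ) ^ 2 * y) :
    (conj y' * p').im + Z * ‖y'‖ ^ 2 = (‖a‖ ^ 2 - b ^ 2) * (conj y * p).im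
      + a.im * (‖p‖ ^ 2 - b ^ 2 * ‖y‖ ^ 2) := by
  have h3 : p' = a * p + (b : ℂ) ^ 2 * y - I * Z * y' := by rw [← h2]; ring
  rw [h3, h1]
  simp only [Complex.sq_norm, Complex.normSq_apply, pow_two (b : ℂ), mul_re, add_re, add_im, mul_im,
    sub_re, sub_im, conj_re, conj_im, ofReal_re, ofReal_im, I_re, I_im]
  ring

theorem X_succ {A : ℂ} {B : ℕ} {Z : ℝ} {P Y : ℕ → ℂ} (h : Lev A B Z P Y) (n : ℕ) :
    (conj (Y (n + 1)) * pp B P Y (n + 1)).re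
      = (‖aa A B n‖ ^ 2 + bb B ^ 2) * (conj (Y n) * pp B P Y n).re
        + (aa A B n).re * (‖pp B P Y n‖ ^ 2 + bb B ^ 2 * ‖Y n‖ ^ 2) :=
  X_alg (rec_y h n) (rec_p h n)

theorem J_succ {A : ℂ} {B : ℕ} {Z : ℝ} {P Y : ℕ → ℂ} (h : Lev A B Z P Y) (n : ℕ) :
    (conj (Y (n + 1)) * pp B P Y (n + 1)).im + Z * ‖Y (n + 1)‖ ^ 2
      = (‖aa A B n‖ ^ 2 - bb B ^ 2) * (conj (Y n) * pp B P Y n).im
        + (aa A B n).im * (‖pp B P Y n‖ ^ 2 - bb B ^ 2 * ‖Y n‖ ^ 2) :=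
  J_alg (rec_y h n) (rec_p h n)

theorem flux_eq (B : ℕ) (Z : ℝ) (P Y : ℕ → ℂ) (n : ℕ) :
    flux Z (P n) (Y n) = (conj (Y n) * pp B P Y n).im + Z / 2 * ‖Y n‖ ^ 2 := by
  rw [J_eq, flux]

theorem conj_mul_eq {p y : ℂ} (hy : y ≠ 0) :
    conj y * p = ((‖y‖ ^ 2 : ℝ) : ℂ) * (p / y) := by
  rw [ofReal_pow, ← Complex.conj_mul' y]
  field_simp

theorem no_pos {p y a : ℕ → ℂ} {b Z ν₀ om : ℝ} (hZ : 0 < Z) (hν : 0 ≤ ν₀) (hb : 0 < b)
    (hre : ∀ k : ℕ, (a k).re = ν₀ + k) (him : ∀ k : ℕ, (a k).im = om)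
    (h1 : ∀ k, y (k + 1) = p k + a k * y k)
    (h2 : ∀ k, p (k + 1) + I * Z * y (k + 1) = a k * p k + (b : ℂ) ^ 2 * y k)
    (hf : ∀ k, 0 ≤ (conj (y (k + 1)) * p (k + 1)).im + Z / 2 * ‖y (k + 1)‖ ^ 2) :
    (conj (y 0) * p 0).re ≤ 0 := by
  by_contra hpos
  push Not at hpos
  have hX : ∀ k, 0 < (conj (y k) * p k).re := by
    intro k
    induction k with
    | zero => exact hpos
    | succ k ih =>
      rw [X_alg (h1 k) (h2 k), hre]
      have : 0 < (‖a k‖ ^ 2 + b ^ 2) * (conj (y k) * p k).re := by positivity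
      have : 0 ≤ (ν₀ + k) * (‖p k‖ ^ 2 + b ^ 2 * ‖y k‖ ^ 2) := by positivity
      linarith
  have hy : ∀ k, y k ≠ 0 := by
    intro k hk
    have := hX k
    rw [hk] at this
    simp at this
  have hn : ∀ k, 0 < ‖y k‖ ^ 2 := fun k => by have := norm_pos_iff.2 (hy k); positivity
  obtain ⟨κ, hκ⟩ : ∃ κ : ℕ → ℂ, ∀ k, κ k = p k / y k := ⟨_, fun _ => rfl⟩
  have hp : ∀ k, p k = κ k * y k := fun k => by rw [hκ]; field_simp [hy k]
  have eX : ∀ k, (conj (y k) * p k).re = ‖y k‖ ^ 2 * (κ k).re := fun k => by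
    rw [conj_mul_eq (hy k), re_ofReal_mul, hκ]
  have eJ : ∀ k, (conj (y k) * p k).im = ‖y k‖ ^ 2 * (κ k).im := fun k => by
    rw [conj_mul_eq (hy k), im_ofReal_mul, hκ]
  have eP : ∀ k, ‖p k‖ ^ 2 = ((κ k).re ^ 2 + (κ k).im ^ 2) * ‖y k‖ ^ 2 := fun k => by
    rw [hp k, norm_mul, mul_pow, Complex.sq_norm (κ k), Complex.normSq_apply]
    ring
  have eA : ∀ k, ‖a k‖ ^ 2 = (ν₀ + k) ^ 2 + om ^ 2 := fun k => by
    rw [Complex.sq_norm, Complex.normSq_apply, hre, him]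
    ring
  have eY : ∀ k, ‖y (k + 1)‖ ^ 2
      = (((κ k).re + (ν₀ + k)) ^ 2 + ((κ k).im + om) ^ 2) * ‖y k‖ ^ 2 := fun k => by
    have : y (k + 1) = (κ k + a k) * y k := by rw [h1, hp k]; ring
    rw [this, norm_mul, mul_pow, Complex.sq_norm (κ k + a k), Complex.normSq_apply, add_re, add_im,
      hre, him]
    ring
  refine no_seq (x := fun k => (κ k).re) (s := fun k => (κ k).im) (ν₀ := ν₀) (om := om) (b := b) hZ
    ?_ ?_ ?_ ?_
  · intro k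
    have := hX k
    rw [eX] at this
    exact (pos_iff_pos_of_mul_pos this).1 (hn k)
  · intro k
    have := hf k
    rw [eJ] at this
    refine le_of_mul_le_mul_left ?_ (hn (k + 1))
    linarith
  · intro k
    have := X_alg (h1 k) (h2 k)
    rw [eX, eX, eP, eA, eY, hre] at this
    refine mul_left_cancel₀ (hn k).ne' ?_
    linarith
  · intro k
    have := J_alg (h1 k) (h2 k)
    rw [eJ, eJ, eP, eA, eY, him] at this
    refine mul_left_cancel₀ (hn k).ne' ?_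
    linarith

theorem bb_ge {B : ℕ} (hB : 6 ≤ B) : 5 / 2 ≤ bb B := by
  have : (6 : ℝ) ≤ B := by exact_mod_cast hB
  rw [bb]
  linarith

theorem X_le {A : ℂ} {B : ℕ} {Z : ℝ} {P Y : ℕ → ℂ} (h : Lev A B Z P Y) (hB : 6 ≤ B)
    (hZ : 0 < Z) (n : ℕ) (hn : bb B ≤ A.re + n) : (conj (Y n) * pp B P Y n).re ≤ 0 := by
  have hb := bb_ge hB
  refine no_pos (p := fun k => pp B P Y (n + k)) (y := fun k => Y (n + k))
    (a := fun k => aa A B (n + k)) (b := bb B) (ν₀ := A.re + n - bb B) (om := A.im) hZ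
    (by linarith) (by linarith) ?_ ?_ ?_ ?_ ?_
  · intro k
    rw [aa_re]
    push_cast
    ring
  · intro k
    rw [aa_im]
  · intro k
    exact rec_y h (n + k)
  · intro k
    exact rec_p h (n + k)
  · intro k
    rw [← flux_eq]
    refine h.flux_nonneg _ ?_
    have : (0 : ℝ) ≤ k := Nat.cast_nonneg k
    rw [bb] at hn
    push_cast
    linarith

end Alg

theorem Lev.X_nonpos {A : ℂ} {B : ℕ} {Z : ℝ} {P Y : ℕ → ℂ} (h : Lev A B Z P Y) (hB : 6 ≤ B)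
    (hZ : 0 < Z) (n : ℕ) (hn : ((B : ℝ) - 1) / 2 ≤ A.re + n) :
    (conj (Y n) * P n).re + ((B : ℝ) - 1) / 2 * ‖Y n‖ ^ 2 ≤ 0 := by
  rw [← Alg.X_eq]
  exact Alg.X_le h hB hZ n hn

theorem NoEigAt.conj {β Z : ℝ} {l : ℕ} {lam : ℂ} (h : NoEigAt β Z l lam) :
    NoEigAt β Z l (conj lam) := by
  intro P Y P' Y' h1 h2 hY hP
  rw [Complex.conj_conj] at h2
  have e1 : Y' 0 + (starRingEnd ℂ) (Y 0) = 0 := by
    have := congrArg (starRingEnd ℂ) hY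
    rw [map_add, Complex.conj_conj, map_zero] at this
    rw [add_comm]
    exact this
  have e2 : P' 0 - (starRingEnd ℂ) (P 0) = 0 := by
    have := congrArg (starRingEnd ℂ) hP
    rw [map_sub, Complex.conj_conj, map_zero] at this
    rw [← neg_sub, this, neg_zero]
  obtain ⟨a, b⟩ := h P' Y' P Y h2 h1 e1 e2
  rw [a, map_zero, sub_zero] at hP
  rw [b, map_zero, add_zero] at hY
  exact ⟨hP, hY⟩

theorem noEig_large_re (β : ℝ) {Z : ℝ} (hZ : 0 < Z) (l : ℕ) {lam : ℂ} (h : 5 / 2 ≤ lam.re) :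
    NoEigAt β Z l lam := by
  intro P Y P' Y' h1 h2 hY hP
  have hB : 6 ≤ 6 + l := by omega
  have hb := Alg.bb_ge hB
  have hbb : Alg.bb (6 + l) = (5 + l) / 2 := by rw [Alg.bb]; push_cast; ring
  have hA : ((l : ℂ) / 2 + lam - I * β).re = l / 2 + lam.re := by simp
  have hA' : ((l : ℂ) / 2 + conj lam - I * β).re = l / 2 + lam.re := by simp
  have x0 := h1.X_nonpos hB hZ 0 (by rw [hA]; push_cast; linarith)
  have x0' := h2.X_nonpos hB hZ 0 (by rw [hA']; push_cast; linarith)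
  have eY : Y' 0 = -conj (Y 0) := by
    have := congrArg conj hY
    rw [map_add, Complex.conj_conj, map_zero] at this
    linear_combination this
  have eP : P' 0 = conj (P 0) := by
    have := congrArg conj hP
    rw [map_sub, Complex.conj_conj, map_zero] at this
    linear_combination -this
  have e3 : (conj (Y' 0) * P' 0).re = -(conj (Y 0) * P 0).re := by
    rw [eY, eP]
    simp
  have e4 : ‖Y' 0‖ = ‖Y 0‖ := by rw [eY, norm_neg, Complex.norm_conj]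
  rw [e3, e4] at x0'
  rw [← Alg.bb] at x0 x0'
  have hY0 : Y 0 = 0 := by
    have h3 : Alg.bb (6 + l) * ‖Y 0‖ ^ 2 ≤ 0 := by linarith
    have h4 : ‖Y 0‖ ^ 2 ≤ 0 := by nlinarith [sq_nonneg ‖Y 0‖]
    have h5 : ‖Y 0‖ ^ 2 = 0 := le_antisymm h4 (sq_nonneg _)
    exact norm_eq_zero.1 (pow_eq_zero_iff two_ne_zero |>.1 h5)
  refine ⟨?_, hY0⟩
  have x2 := Alg.X_le h1 hB hZ (0 + 1 + 1) (by rw [hA, hbb]; push_cast; linarith)
  have y1 : Y (0 + 1) = P 0 := by rw [h1.recY, hY0]; ring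
  have x1 : 0 ≤ (conj (Y (0 + 1)) * Alg.pp (6 + l) P Y (0 + 1)).re := by
    rw [Alg.X_succ h1, hY0, Alg.aa_re, hA, hbb]
    have : 0 ≤ (l : ℝ) / 2 + lam.re + (0 : ℕ) - (5 + l) / 2 := by push_cast; linarith
    simp only [map_zero, zero_mul, zero_re, mul_zero, zero_add]
    positivity
  rw [Alg.X_succ h1, Alg.aa_re, hA] at x2
  have h3 : 1 ≤ (l : ℝ) / 2 + lam.re + (0 + 1 : ℕ) - Alg.bb (6 + l) := by
    rw [hbb]; push_cast; linarith
  have h4 : 0 ≤ (‖Alg.aa ((l : ℂ) / 2 + lam - I * β) (6 + l) (0 + 1)‖ ^ 2 + Alg.bb (6 + l) ^ 2)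
      * (conj (Y (0 + 1)) * Alg.pp (6 + l) P Y (0 + 1)).re := by positivity
  have h5 : 0 ≤ ‖Alg.pp (6 + l) P Y (0 + 1)‖ ^ 2 + Alg.bb (6 + l) ^ 2 * ‖Y (0 + 1)‖ ^ 2 := by
    positivity
  have h6 : ‖Alg.pp (6 + l) P Y (0 + 1)‖ ^ 2 + Alg.bb (6 + l) ^ 2 * ‖Y (0 + 1)‖ ^ 2 ≤ 0 := by
    nlinarith
  have h7 : Alg.bb (6 + l) ^ 2 * ‖Y (0 + 1)‖ ^ 2 ≤ 0 := by
    nlinarith [sq_nonneg ‖Alg.pp (6 + l) P Y (0 + 1)‖]
  have h8 : 0 < Alg.bb (6 + l) ^ 2 := by positivity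
  have h9 : ‖Y (0 + 1)‖ ^ 2 ≤ 0 := by nlinarith [sq_nonneg ‖Y (0 + 1)‖]
  have h10 : ‖Y (0 + 1)‖ ^ 2 = 0 := le_antisymm h9 (sq_nonneg _)
  rw [← y1]
  exact norm_eq_zero.1 (pow_eq_zero_iff two_ne_zero |>.1 h10)

end Vale.Agent.P139Z
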