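import Vale.Agent.P139Z.Alg
import Vale.Agent.P139Z.AlgL.Step

/-! No eigenvalue for large angular momentum. -/

open Set Filter Topology MeasureTheory Complex
open scoped NNReal ENNReal ComplexConjugate ContDiff

namespace Vale.Agent.P139Z

namespace AlgL

variable {A : ℂ} {B : ℕ} {Z b : ℝ} {P Y : ℕ → ℂ}

theorem chain1 (h : Lev A B Z P Y) (H : Par A B Z b (14 / 100) (2 / 21) 441)
    (h0 : Inv A b P Y 0 0) : 0 < XX b (P 8) (Y 8) := by
  have h1 := step h H 0 (γ' := 285 / 100) (ν := -250 / 100) h0 (by norm_num) (by norm_num)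
    (by norm_num) (by norm_num) (by norm_num) (by norm_num) (by norm_num) (by norm_num)
  have h2 := step h H 1 (γ' := 496 / 100) (ν := -150 / 100) h1 (by norm_num) (by norm_num)
    (by norm_num) (by norm_num) (by norm_num) (by norm_num) (by norm_num) (by norm_num)
  have h3 := step h H 2 (γ' := 623 / 100) (ν := -50 / 100) h2 (by norm_num) (by norm_num)
    (by norm_num) (by norm_num) (by norm_num) (by norm_num) (by norm_num) (by norm_num)
  have h4 := step h H 3 (γ' := 673 / 100) (ν := 49 / 100) h3 (by norm_num) (by norm_num)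
    (by norm_num) (by norm_num) (by norm_num) (by norm_num) (by norm_num) (by norm_num)
  have h5 := step h H 4 (γ' := 662 / 100) (ν := 144 / 100) h4 (by norm_num) (by norm_num)
    (by norm_num) (by norm_num) (by norm_num) (by norm_num) (by norm_num) (by norm_num)
  have h6 := step h H 5 (γ' := 566 / 100) (ν := 236 / 100) h5 (by norm_num) (by norm_num)
    (by norm_num) (by norm_num) (by norm_num) (by norm_num) (by norm_num) (by norm_num)
  have h7 := step h H 6 (γ' := 333 / 100) (ν := 323 / 100) h6 (by norm_num) (by norm_num)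
    (by norm_num) (by norm_num) (by norm_num) (by norm_num) (by norm_num) (by norm_num)
  exact last h H 7 (ν := 405 / 100) h7 (by norm_num) (by norm_num) (by norm_num) (by norm_num)

theorem chain2 (h : Lev A B Z P Y) (H : Par A B Z b (31 / 100) (1 / 40) 1700)
    (h0 : Inv A b P Y 0 0) : 0 < XX b (P 11) (Y 11) := by
  have h1 := step h H 0 (γ' := 328 / 100) (ν := -250 / 100) h0 (by norm_num) (by norm_num)
    (by norm_num) (by norm_num) (by norm_num) (by norm_num) (by norm_num) (by norm_num)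
  have h2 := step h H 1 (γ' := 627 / 100) (ν := -150 / 100) h1 (by norm_num) (by norm_num)
    (by norm_num) (by norm_num) (by norm_num) (by norm_num) (by norm_num) (by norm_num)
  have h3 := step h H 2 (γ' := 887 / 100) (ν := -50 / 100) h2 (by norm_num) (by norm_num)
    (by norm_num) (by norm_num) (by norm_num) (by norm_num) (by norm_num) (by norm_num)
  have h4 := step h H 3 (γ' := 1101 / 100) (ν := 49 / 100) h3 (by norm_num) (by norm_num)
    (by norm_num) (by norm_num) (by norm_num) (by norm_num) (by norm_num) (by norm_num)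
  have h5 := step h H 4 (γ' := 1262 / 100) (ν := 148 / 100) h4 (by norm_num) (by norm_num)
    (by norm_num) (by norm_num) (by norm_num) (by norm_num) (by norm_num) (by norm_num)
  have h6 := step h H 5 (γ' := 1358 / 100) (ν := 246 / 100) h5 (by norm_num) (by norm_num)
    (by norm_num) (by norm_num) (by norm_num) (by norm_num) (by norm_num) (by norm_num)
  have h7 := step h H 6 (γ' := 1371 / 100) (ν := 342 / 100) h6 (by norm_num) (by norm_num)
    (by norm_num) (by norm_num) (by norm_num) (by norm_num) (by norm_num) (by norm_num)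
  have h8 := step h H 7 (γ' := 1272 / 100) (ν := 437 / 100) h7 (by norm_num) (by norm_num)
    (by norm_num) (by norm_num) (by norm_num) (by norm_num) (by norm_num) (by norm_num)
  have h9 := step h H 8 (γ' := 1015 / 100) (ν := 530 / 100) h8 (by norm_num) (by norm_num)
    (by norm_num) (by norm_num) (by norm_num) (by norm_num) (by norm_num) (by norm_num)
  have h10 := step h H 9 (γ' := 539 / 100) (ν := 620 / 100) h9 (by norm_num) (by norm_num)
    (by norm_num) (by norm_num) (by norm_num) (by norm_num) (by norm_num) (by norm_num)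
  exact last h H 10 (ν := 708 / 100) h10 (by norm_num) (by norm_num) (by norm_num) (by norm_num)

theorem not_pos (h : Lev A B Z P Y) {e τ₀ q₀ : ℝ} (H : Par A B Z b e τ₀ q₀) (hZ : 0 < Z) {n : ℕ}
    (hn : 3 ≤ n) : ¬0 < XX b (P n) (Y n) := by
  have hb := H.hb
  have h10 := H.b10
  have hlo := H.lo
  have hB : 6 ≤ B := by
    have : (6 : ℝ) ≤ B := by linarith
    exact_mod_cast this
  have hn' : (3 : ℝ) ≤ n := by exact_mod_cast hn
  have := h.X_nonpos hB hZ n (by linarith)
  rw [show ((B : ℝ) - 1) / 2 = b by linarith] at this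
  exact not_lt.2 this

/-- If both components exclude `X₀ ≥ 0`, there is no eigenvalue. -/
theorem noEig_of {β : ℝ} {l : ℕ} {lam : ℂ}
    (H : ∀ μ : ℂ, μ = lam ∨ μ = conj lam → ∀ P Y : ℕ → ℂ, Lev (l / 2 + μ - I * β) (6 + l) Z P Y →
      ¬Inv (l / 2 + μ - I * β) (((l : ℝ) + 5) / 2) P Y 0 0) : NoEigAt β Z l lam := by
  intro P Y P' Y' h h' b₁ b₂
  by_contra hne
  have hb : (0 : ℝ) < ((l : ℝ) + 5) / 2 := by positivity
  have e₁ : Y' 0 = -conj (Y 0) := by
    have := congrArg conj b₁
    simp only [map_add, conj_conj, map_zero] at this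
    linear_combination this
  have e₂ : P' 0 = conj (P 0) := by
    have := congrArg conj b₂
    simp only [map_sub, conj_conj, map_zero] at this
    linear_combination -this
  have hne' : ¬(P' 0 = 0 ∧ Y' 0 = 0) := by
    rw [e₁, e₂]
    simpa using hne
  have hsum : XX (((l : ℝ) + 5) / 2) (P 0) (Y 0) + XX (((l : ℝ) + 5) / 2) (P' 0) (Y' 0)
      = ((l : ℝ) + 5) * ‖Y 0‖ ^ 2 := by
    rw [e₁, e₂]
    unfold XX
    simp only [map_neg, conj_conj, norm_neg, norm_conj, neg_mul, neg_re, mul_re, conj_re, conj_im]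
    ring
  have h0 : 0 ≤ ((l : ℝ) + 5) * ‖Y 0‖ ^ 2 := by positivity
  rcases le_total 0 (XX (((l : ℝ) + 5) / 2) (P 0) (Y 0)) with hX | hX
  · refine H lam (Or.inl rfl) P Y h ⟨NN_pos hb hne, ?_⟩
    simp only [mul_zero, zero_mul, neg_zero]
    positivity
  · have hX' : 0 ≤ XX (((l : ℝ) + 5) / 2) (P' 0) (Y' 0) := by linarith
    refine H (conj lam) (Or.inr rfl) P' Y' h' ⟨NN_pos hb hne', ?_⟩
    simp only [mul_zero, zero_mul, neg_zero]
    positivity

theorem re_A (l : ℕ) (μ : ℂ) (β : ℝ) : ((l : ℂ) / 2 + μ - I * β).re = (l : ℝ) / 2 + μ.re := by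
  simp

theorem im_A (l : ℕ) (μ : ℂ) (β : ℝ) : ((l : ℂ) / 2 + μ - I * β).im = μ.im - β := by
  simp

end AlgL

open AlgL

theorem noEig_l37 {β Z : ℝ} (hZ : InZ Z) {l : ℕ} (hl : 37 ≤ l) {lam : ℂ} (h0 : 0 ≤ lam.re) :
    NoEigAt β Z l lam := by
  have hZ1 : (2.7048 : ℝ) ≤ Z := hZ.1
  have hZ2 : Z ≤ (2.7054 : ℝ) := hZ.2
  have hZ0 : 0 < Z := by linarith
  rcases le_total (5 / 2) lam.re with h1 | h1
  · exact noEig_large_re β hZ0 l h1
  have hl' : (37 : ℝ) ≤ l := by exact_mod_cast hl
  refine noEig_of fun μ hμ P Y h hI => ?_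
  have hre : μ.re = lam.re := by rcases hμ with rfl | rfl <;> simp
  have H : Par (l / 2 + μ - I * β) (6 + l) Z (((l : ℝ) + 5) / 2) (14 / 100) (2 / 21) 441 := by
    refine ⟨by push_cast; ring, by linarith, by rw [re_A]; linarith, by rw [re_A]; linarith,
      by norm_num, by nlinarith, ?_, by norm_num,
      by nlinarith [sq_nonneg ((l : ℂ) / 2 + μ - I * β).im]⟩
    rw [div_le_iff₀ (by positivity)]
    nlinarith [sq_nonneg ((l : ℂ) / 2 + μ - I * β).im]
  exact not_pos h H hZ0 (by norm_num) (chain1 h H hI)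

theorem noEig_l15 {β Z : ℝ} (hβ : InB β) (hZ : InZ Z) {l : ℕ} (hl : 15 ≤ l) {lam : ℂ}
    (h0 : 0 ≤ lam.re) (h : 41 ≤ |lam.im|) : NoEigAt β Z l lam := by
  have hZ1 : (2.7048 : ℝ) ≤ Z := hZ.1
  have hZ2 : Z ≤ (2.7054 : ℝ) := hZ.2
  have hβ1 : (0.33473 : ℝ) ≤ β := hβ.1
  have hβ2 : β ≤ (0.33483 : ℝ) := hβ.2
  have hZ0 : 0 < Z := by linarith
  rcases le_total (5 / 2) lam.re with h1 | h1
  · exact noEig_large_re β hZ0 l h1
  have hl' : (15 : ℝ) ≤ l := by exact_mod_cast hl
  refine noEig_of fun μ hμ P Y hL hI => ?_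
  have hre : μ.re = lam.re := by rcases hμ with rfl | rfl <;> simp
  have him : |μ.im| = |lam.im| := by rcases hμ with rfl | rfl <;> simp
  have hw : 40 ≤ |μ.im - β| := by
    have := abs_sub_abs_le_abs_sub μ.im β
    rw [abs_of_nonneg (by linarith : 0 ≤ β)] at this
    linarith
  have hw2 : (μ.im - β) ^ 2 = |μ.im - β| ^ 2 := (sq_abs _).symm
  have H : Par (l / 2 + μ - I * β) (6 + l) Z (((l : ℝ) + 5) / 2) (31 / 100) (1 / 40) 1700 := by
    refine ⟨by push_cast; ring, by linarith, by rw [re_A]; linarith, by rw [re_A]; linarith,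
      by norm_num, by nlinarith, ?_, by norm_num, by rw [im_A, hw2]; nlinarith⟩
    rw [div_le_iff₀ (by positivity), im_A, hw2]
    nlinarith [sq_nonneg (((l : ℝ) + 5) / 2 - 40)]
  exact not_pos hL H hZ0 (by norm_num) (chain2 hL H hI)

theorem noEig_large_l {β Z : ℝ} (hZ : InZ Z) {l : ℕ} (hl : 55 ≤ l) {lam : ℂ}
    (h0 : 0 ≤ lam.re) : NoEigAt β Z l lam :=
  noEig_l37 hZ (by omega) h0

end Vale.Agent.P139Z
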