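import Vale.Agent.P139Z.Alg
import Vale.Agent.P139Z.AlgW.St

/-! No eigenvalue for large imaginary part. -/

open Set Filter Topology MeasureTheory Complex
open scoped NNReal ENNReal ComplexConjugate ContDiff

namespace Vale.Agent.P139Z

namespace AlgW

theorem st_of_lev {A : ℂ} {B : ℕ} {Z : ℝ} {P Y : ℕ → ℂ} (h : Lev A B Z P Y) {b : ℝ}
    (hb : b = ((B : ℝ) - 1) / 2) (n : ℕ) :
    St (A + n - b) b Z (P n + b * Y n) (Y n) (P (n + 1) + b * Y (n + 1)) (Y (n + 1)) := by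
  have hB : (B : ℂ) = 2 * (b : ℂ) + 1 := by rw [hb]; push_cast; ring
  refine ⟨by rw [h.recY]; ring, ?_⟩
  rw [h.recP, h.recY, hB]
  ring

theorem re_centre (P Y : ℂ) (b : ℝ) :
    (conj Y * (P + b * Y)).re = (conj Y * P).re + b * ‖Y‖ ^ 2 := by
  simp only [Complex.sq_norm, Complex.normSq_apply, mul_re, mul_im, add_re, add_im, conj_re,
    conj_im, ofReal_re, ofReal_im]
  ring

theorem im_centre (P Y : ℂ) (b : ℝ) : (conj Y * (P + b * Y)).im = (conj Y * P).im := by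
  simp only [mul_re, mul_im, add_re, add_im, conj_re, conj_im, ofReal_re, ofReal_im]
  ring

/-- Bound on the real part at level zero from a bound on the ratio. -/
theorem re_le {A : ℂ} {B : ℕ} {Z : ℝ} {P Y : ℕ → ℂ} (h : Lev A B Z P Y) (hB : 6 ≤ B) {b σ w : ℝ}
    (hb : b = ((B : ℝ) - 1) / 2) (hb0 : 0 ≤ b) (hb1 : b ≤ 59 / 2) (hZ : 2.7 ≤ Z) (hZ' : Z ≤ 2.71)
    (hre : A.re = b - 5 / 2 + σ) (h0 : 0 ≤ σ) (h1 : σ ≤ 5 / 2) (him : |A.im| = w) (hw : 399 ≤ w)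
    (hp : ‖P 0 + b * Y 0‖ ≤ 0.67 * w * ‖Y 0‖) :
    (conj (Y 0) * (P 0 + b * Y 0)).re ≤ 2.3 * ‖Y 0‖ ^ 2 := by
  have hZ0 : 0 ≤ Z := by linarith
  have hw0 : 0 ≤ w := by linarith
  have ai : ∀ n : ℕ, |(A + n - b).im| = w := fun n => by simpa using him
  have ar : ∀ n : ℕ, (A + n - b).re = σ + n - 5 / 2 := fun n => by simp [hre]; ring
  have s0 := st_of_lev h hb 0
  have s1 := st_of_lev h hb 1
  have s2 := st_of_lev h hb 2
  have y0 : ‖Y 0‖ ≤ 1 * ‖Y 0‖ := by rw [one_mul]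
  obtain ⟨p1, y1⟩ := s0.fwd (s' := 0.7) (t' := 1.68) (ai 0)
    (by rw [ar, abs_le]; push_cast; constructor <;> linarith) hw hb0 hb1 hZ0 hZ' (norm_nonneg _)
    hp y0 (by norm_num) (by norm_num)
  obtain ⟨p2, y2⟩ := s1.fwd (s' := 0.74) (t' := 2.4) (ai 1)
    (by rw [ar, abs_le]; push_cast; constructor <;> linarith) hw hb0 hb1 hZ0 hZ' (by positivity)
    p1 y1 (by norm_num) (by norm_num)
  have x3 : (conj (Y (2 + 1)) * (P (2 + 1) + b * Y (2 + 1))).re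
      ≤ 0 * (w * (w * (w * ‖Y 0‖))) ^ 2 := by
    rw [re_centre, zero_mul, hb]
    exact h.X_nonpos hB (by linarith) (2 + 1) (by rw [← hb, hre]; push_cast; linarith)
  have x2 := s2.bwd (r := 1 / 2) (x := 0.29) (ai 2) hw hb0 hb1 (by rw [ar]; push_cast; linarith)
    (by norm_num) le_rfl p2 y2 x3 (by norm_num)
  have x1 := s1.bwd (r := 3 / 2) (x := 1.06) (ai 1) hw hb0 hb1 (by rw [ar]; push_cast; linarith)
    (by norm_num) (by norm_num) p1 y1 x2 (by norm_num)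
  exact s0.bwd (r := 5 / 2) (x := 2.3) (ai 0) hw hb0 hb1 (by rw [ar]; push_cast; linarith)
    (by norm_num) (by norm_num) hp y0 x1 (by norm_num)

/-- Bound on the ratio at level zero when the imaginary part is large and negative. -/
theorem ratio_le {A : ℂ} {B : ℕ} {Z : ℝ} {P Y : ℕ → ℂ} (h : Lev A B Z P Y) {b σ w : ℝ}
    (hb : b = ((B : ℝ) - 1) / 2) (hb0 : 0 ≤ b) (hb1 : b ≤ 59 / 2) (hZ : 2.7 ≤ Z) (hZ' : Z ≤ 2.71)
    (hre : A.re = b - 5 / 2 + σ) (h0 : 0 ≤ σ) (h1 : σ ≤ 5 / 2) (him : A.im = -w) (hw : 400 ≤ w) :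
    ‖P 0 + b * Y 0‖ ≤ 0.52 * w * ‖Y 0‖ := by
  have ai : ∀ n : ℕ, (A + n - b).im = -w := fun n => by simpa using him
  have ar : ∀ n : ℕ, (A + n - b).re = σ + n - 5 / 2 := fun n => by simp [hre]; ring
  have u4 : 0 ≤ (conj (Y (3 + 1)) * (P (3 + 1) + b * Y (3 + 1))).im + Z * ‖Y (3 + 1)‖ ^ 2 := by
    have hf := h.flux_nonneg (3 + 1) (by rw [hre]; push_cast; linarith)
    rw [im_centre]
    unfold flux at hf
    have : 0 ≤ Z / 2 * ‖Y (3 + 1)‖ ^ 2 := by positivity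
    linarith
  have u3 := (st_of_lev h hb 3).up (ai 3) hw hb0 hb1 hZ u4
  have u2 := (st_of_lev h hb 2).up (ai 2) hw hb0 hb1 hZ u3
  have u1 := (st_of_lev h hb 1).up (ai 1) hw hb0 hb1 hZ u2
  have d1 := (st_of_lev h hb 1).disc (ai 1) u2
  have q1 := shifted (ai 1) (by rw [ar, abs_le]; push_cast; constructor <;> linarith) hw hb0 hb1
    hZ hZ' u1 d1
  exact (st_of_lev h hb 0).bound (ai 0) (by rw [ar, abs_le]; push_cast; constructor <;> linarith)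
    hw hb0 hb1 q1

end AlgW

theorem noEig_large_im {β Z : ℝ} (hβ : InB β) (hZ : InZ Z) {l : ℕ} (hl : l ≤ 54) {lam : ℂ}
    (h0 : 0 ≤ lam.re) (h1 : lam.re ≤ 5 / 2) (h : 400 ≤ lam.im) : NoEigAt β Z l lam := by
  intro P Y P' Y' hL hL' hY hP
  obtain ⟨hβ0, hβ1⟩ := hβ
  obtain ⟨hZ0, hZ1⟩ := hZ
  obtain ⟨b, hb⟩ : ∃ b : ℝ, b = (((6 + l : ℕ) : ℝ) - 1) / 2 := ⟨_, rfl⟩
  have hl0 : (0 : ℝ) ≤ l := Nat.cast_nonneg l
  have hl1 : (l : ℝ) ≤ 54 := by exact_mod_cast hl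
  have hbl : b = (5 + (l : ℝ)) / 2 := by rw [hb]; push_cast; ring
  have hb0 : 5 / 2 ≤ b := by linarith
  have hb1 : b ≤ 59 / 2 := by linarith
  have eY : Y 0 = -conj (Y' 0) := eq_neg_of_add_eq_zero_left hY
  have eP : P 0 = conj (P' 0) := sub_eq_zero.1 hP
  have nY : ‖Y 0‖ = ‖Y' 0‖ := by rw [eY, norm_neg, Complex.norm_conj]
  have r2 := AlgW.ratio_le hL' (σ := lam.re) (w := lam.im + β) hb (by linarith) hb1 (by linarith)
    (by linarith) (by simp [hbl]; ring) h0 h1 (by simp; ring) (by linarith)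
  have r1 : ‖P 0 + b * Y 0‖ ≤ 0.67 * (lam.im - β) * ‖Y 0‖ := by
    have e1 : P 0 + b * Y 0 = conj (P' 0 + b * Y' 0) + 2 * b * Y 0 := by
      rw [eP, eY, map_add, map_mul, Complex.conj_ofReal]; ring
    have e2 : ‖P 0 + b * Y 0‖ ≤ ‖P' 0 + b * Y' 0‖ + 2 * b * ‖Y 0‖ := by
      rw [e1]
      refine (norm_add_le _ _).trans (le_of_eq ?_)
      rw [Complex.norm_conj, norm_mul, norm_mul, Complex.norm_real, Real.norm_eq_abs,
        abs_of_nonneg (by linarith : 0 ≤ b)]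
      simp
    rw [← nY] at r2
    have e3 : (0.52 * (lam.im + β) + 2 * b) * ‖Y 0‖ ≤ 0.67 * (lam.im - β) * ‖Y 0‖ :=
      mul_le_mul_of_nonneg_right (by linarith) (norm_nonneg _)
    linarith
  have r2' : ‖P' 0 + b * Y' 0‖ ≤ 0.67 * (lam.im + β) * ‖Y' 0‖ :=
    r2.trans (mul_le_mul_of_nonneg_right (by linarith) (norm_nonneg _))
  have x1 := AlgW.re_le hL (by omega) (σ := lam.re) (w := lam.im - β) hb (by linarith) hb1
    (by linarith) (by linarith) (by simp [hbl]; ring) h0 h1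
    (by rw [← abs_of_nonneg (show 0 ≤ lam.im - β by linarith)]; simp) (by linarith) r1
  have x2 := AlgW.re_le hL' (by omega) (σ := lam.re) (w := lam.im + β) hb (by linarith) hb1
    (by linarith) (by linarith) (by simp [hbl]; ring) h0 h1
    (by rw [← abs_of_nonneg (show 0 ≤ lam.im + β by linarith), ← abs_neg]; simp [add_comm])
    (by linarith) r2'
  rw [AlgW.re_centre] at x1 x2
  have xs : (conj (Y 0) * P 0).re + (conj (Y' 0) * P' 0).re = 0 := by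
    rw [eY, eP]
    simp only [map_neg, Complex.conj_conj, mul_re, neg_re, neg_im, conj_re, conj_im]
    ring
  rw [← nY] at x2
  have hb2 : 5 / 2 * ‖Y 0‖ ^ 2 ≤ b * ‖Y 0‖ ^ 2 := mul_le_mul_of_nonneg_right hb0 (by positivity)
  have y2 : ‖Y 0‖ ^ 2 ≤ 0 := by linarith
  have y0 : Y 0 = 0 := by
    have := pow_eq_zero_iff (two_ne_zero) |>.1 (le_antisymm y2 (by positivity))
    exact norm_eq_zero.1 this
  refine ⟨?_, y0⟩
  rw [y0] at r1
  simpa using r1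

end Vale.Agent.P139Z
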