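import Vale.Agent.P139Z.IntA
import Vale.Agent.P139Z.IntM.Integ

/-! The interior multiplier estimate. -/

open Set Filter Topology MeasureTheory Complex
open scoped NNReal ENNReal ComplexConjugate ContDiff

namespace Vale.Agent.P139Z

namespace IntM

theorem absorb {K Ca : ℝ} (hK : 1 ≤ K) (hCa : 0 < Ca) : ∃ δ : ℝ, 0 < δ ∧ δ ≤ 1 ∧ ∃ ε : ℝ, 0 < ε ∧
    ∃ ϑ : ℝ, 0 < ϑ ∧ ∃ C : ℝ, 0 < C ∧ ∀ N e₁ e₂ n a p s M b : ℝ, 0 ≤ e₁ → 0 ≤ e₂ → 0 ≤ a → 0 ≤ s →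
      0 ≤ M → 0 ≤ b → n ≤ 2 * K * (4 ^ 12 * b + e₁) →
      e₁ + e₂ - ε * (p + a) - δ * (e₁ + n)
        - 4 * (60 * K ^ 2) ^ 2 / δ * (a + s + ϑ * (4 * K * (4 ^ 12 * b + e₁)))
        ≤ 4 ^ 11 * (M + 30 * K ^ 2 * b) →
      N ≤ 4 * e₁ + 2 * e₂ + (4 * K ^ 2 + 2) * (a + n) → p ≤ Ca * (N + b + s) →
      N ≤ C * (a + s + M + b) := by
  have hK0 : 0 < K := by linarith
  obtain ⟨D, hD⟩ : ∃ D, D = 4 * (60 * K ^ 2) ^ 2 / (1 / (12 * K)) := ⟨_, rfl⟩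
  have hD0 : 0 < D := by rw [hD]; positivity
  obtain ⟨B, hB⟩ : ∃ B, B = 4 * K ^ 2 + 2 := ⟨_, rfl⟩
  have hB0 : 0 < B := by rw [hB]; positivity
  obtain ⟨A, hA⟩ : ∃ A, A = 8 + 4 * K * B := ⟨_, rfl⟩
  have hKB : 0 < K * B := by positivity
  have hA0 : 0 < A := by rw [hA]; positivity
  obtain ⟨R, hR⟩ : ∃ R, R = 1 + D + 4 ^ 11 * (30 * K ^ 2) + 4 ^ 12 := ⟨_, rfl⟩
  have hK2 : 0 < K ^ 2 := by positivity
  refine ⟨1 / (12 * K), by positivity, by rw [div_le_one (by positivity)]; linarith,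
    1 / (2 * A * Ca + 1), by positivity, 1 / (16 * K * D), by positivity,
    2 * (1 + A * R + B + 2 * K * B * 4 ^ 12), by rw [hR]; positivity, ?_⟩
  intro N e₁ e₂ n a p s M b h1 h2 ha hs hM hb hn hi hN hp
  rw [← hD] at hi
  rw [← hB] at hN
  have a1 : 1 / (12 * K) * (e₁ + n) ≤ e₁ / 4 + 4 ^ 12 * b / 6 := by
    rw [div_mul_eq_mul_div, one_mul, div_le_iff₀ (by positivity)]
    nlinarith
  have a2 : D * (1 / (16 * K * D) * (4 * K * (4 ^ 12 * b + e₁))) = (4 ^ 12 * b + e₁) / 4 := by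
    field_simp
    ring
  have a3 : 1 / (2 * A * Ca + 1) ≤ 1 := by
    rw [div_le_one (by positivity)]
    have : 0 < A * Ca := by positivity
    linarith
  have a4 : A * (1 / (2 * A * Ca + 1)) * Ca ≤ 1 / 2 := by
    rw [mul_one_div, div_mul_eq_mul_div, div_le_iff₀ (by positivity)]
    linarith
  have a5 : 0 < 1 / (2 * A * Ca + 1) := by positivity
  generalize 1 / (2 * A * Ca + 1) = ε at *
  have b1 : ε * a ≤ a := mul_le_of_le_one_left ha a3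
  have b2 : e₁ / 2 + e₂ ≤ ε * p + R * (a + s + M + b) := by
    have c1 := mul_nonneg hD0.le hM
    have c2 := mul_nonneg hD0.le hb
    have c3 := mul_nonneg hK2.le ha
    have c4 := mul_nonneg hK2.le hs
    have c5 := mul_nonneg hK2.le hM
    rw [hR]
    linarith
  have b3 := mul_le_mul_of_nonneg_left b2 hA0.le
  have b4 := mul_le_mul_of_nonneg_left hn hB0.le
  have b5 : N ≤ A * (e₁ / 2 + e₂) + B * a + 2 * K * B * 4 ^ 12 * b := by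
    have c1 := mul_nonneg hKB.le h2
    rw [hA]
    linarith
  have b6 := mul_le_mul_of_nonneg_left hp (mul_pos hA0 a5).le
  have c1 := mul_nonneg hB0.le hs
  have c2 := mul_nonneg hB0.le hM
  have c3 := mul_nonneg hB0.le hb
  have c4 := mul_nonneg hKB.le ha
  have c5 := mul_nonneg hKB.le hs
  have c6 := mul_nonneg hKB.le hM
  rcases le_total 0 (N + b + s) with h0 | h0
  · have b7 := mul_le_mul_of_nonneg_right a4 h0
    linarith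
  · have c7 : 0 ≤ 2 * (1 + A * R + B + 2 * K * B * 4 ^ 12) * (a + s + M + b) := by
      rw [hR]
      positivity
    linarith

end IntM

theorem int_main (C₀ σ₀ : ℝ) : ∃ ε₀ : ℝ, 0 < ε₀ ∧ ∃ ϑ₀ : ℝ, 0 < ϑ₀ ∧ ∃ C : ℝ, 0 < C ∧
    ∀ (m : ℕ) (β : ℝ) (G : ℝ → ℂ) (ρb : ℝ) (l : ℕ) (lam : ℂ) (f g SF SG : ℝ → ℂ) (r₀ : ℝ),
      IsProfile m β G → GoodInt m β G C₀ ε₀ ϑ₀ ρb → ρb ≤ 16 → RSol m β G l lam f g SF SG →
      Continuous SF → Continuous SG → 0 ≤ lam.re → lam.re ≤ σ₀ → 1 ≤ r₀ → r₀ ^ 2 ≤ ρb →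
      N2 l f g r₀ ≤ C * (La G f g r₀ + L2 SF SG r₀
        + max (Phi l (-lam.im) f r₀ + Phi l lam.im g r₀) 0 + bd1 f g r₀) := by
  obtain ⟨K, hK, hσ, hb⟩ := IntM.exists_bds C₀ σ₀
  obtain ⟨Ca, hCa, haux⟩ := int_aux C₀
  obtain ⟨δ, hδ, hδ1, ε, hε, ϑ, hϑ, C, hC, habs⟩ := IntM.absorb hK hCa
  refine ⟨ε, hε, ϑ, hϑ, C, hC, ?_⟩
  intro m β G ρb l lam f g SF SG r₀ hG hI hρ h hSF hSG h0 h1 hr1 hr2
  have hr : 0 ≤ r₀ := by linarith
  have h4 : r₀ ≤ 4 := by nlinarith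
  have hb' : ∀ r ∈ Icc 0 r₀, IntM.Bds G K r := fun r hr' =>
    hb m β G ε ϑ ρb hG hI r ⟨hr'.1, hr'.2.trans h4⟩
  obtain ⟨a1, a2⟩ := IntM.Le_le hG h.bf h.bg hK hr1 h4 hb'
  refine habs _ (IntM.E1 G f g r₀) (IntM.E2 l G f g r₀) _ _ _ _ _ _ ?_ ?_ ?_ ?_ (le_max_right _ _)
    ?_ a1 (IntM.identity hG hI hρ h hSF hSG hK (by rw [abs_of_nonneg h0]; linarith) hr1 h4 hr2 hb'
      hδ hδ1 a2) (IntM.N2_le hG h.bf h.bg hr hb')
    (haux m β G ε ϑ ρb l lam f g SF SG r₀ hG hI h hSF hSG hr1 h4).1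
  · exact intervalIntegral.integral_nonneg hr fun x hx =>
      mul_nonneg (IntM.wm_nonneg G hx.1) (by positivity)
  · exact intervalIntegral.integral_nonneg hr fun x hx => mul_nonneg (mul_nonneg (IntM.Lc_nonneg l)
      (div_nonneg (IntM.wm_nonneg G hx.1) (sq_nonneg _))) (by positivity)
  · exact intervalIntegral.integral_nonneg hr fun x hx =>
      mul_nonneg (IntM.wm_nonneg G hx.1) (sq_nonneg _)
  · exact intervalIntegral.integral_nonneg hr fun x hx =>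
      mul_nonneg (pow_nonneg hx.1 _) (by positivity)
  · unfold bd1
    positivity

end Vale.Agent.P139Z
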