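import Vale.Agent.P139Z.ExtX.Core

/-! Exterior estimates: bounded parameters and polynomial growth. -/

open Set Filter Topology MeasureTheory Complex
open scoped NNReal ENNReal ComplexConjugate ContDiff

namespace Vale.Agent.P139Z

namespace ExtX

theorem integrableOn_of_decay {l j p : ℕ} {F : ℝ → ℂ} (h : Decay ((l : ℝ) / 2) F) (hj : j + 1 ≤ 10)
    (hp : p ≤ l + 2 * j) :
    IntegrableOn (fun ρ : ℝ => ρ ^ p * ‖iteratedDeriv (j + 1) F ρ‖ ^ 2) (Ioi 16) := by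
  obtain ⟨C, hC⟩ := h
  have hi : IntegrableOn (fun ρ : ℝ => C ^ 2 * ρ ^ (-2 : ℝ)) (Ioi 16) :=
    (integrableOn_Ioi_rpow_of_lt (by norm_num) (by norm_num)).const_mul _
  refine hi.mono' ?_ ((ae_restrict_iff' measurableSet_Ioi).2 (Eventually.of_forall fun ρ hρ => ?_))
  · rw [iteratedDeriv_succ]
    exact ((measurable_id.pow_const p).mul
      ((measurable_deriv _).norm.pow_const 2)).aestronglyMeasurable
  · have h16 : (16 : ℝ) < ρ := hρ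
    have h1 : 1 ≤ ρ := by linarith
    have h0 : 0 < ρ := by linarith
    rw [Real.norm_eq_abs, abs_of_nonneg (by positivity)]
    have h2 := pow_le_pow_left₀ (norm_nonneg _) (hC (j + 1) hj ρ h1) 2
    refine (mul_le_mul_of_nonneg_left h2 (pow_nonneg h0.le p)).trans ?_
    rw [mul_pow, mul_left_comm, ← Real.rpow_natCast ρ p, ← Real.rpow_natCast (ρ ^ _) 2,
      ← Real.rpow_mul h0.le, ← Real.rpow_add h0]
    refine mul_le_mul_of_nonneg_left (Real.rpow_le_rpow_of_exponent_le h1 ?_) (sq_nonneg C)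
    have : (p : ℝ) ≤ l + 2 * j := by exact_mod_cast hp
    push_cast
    linarith

theorem weakOut_of_decay {l : ℕ} {F : ℝ → ℂ} (h : Decay ((l : ℝ) / 2) F) : WeakOut (6 + l) F :=
  ⟨integrableOn_of_decay (j := 6) h (by norm_num) (by omega),
    integrableOn_of_decay (j := 7) h (by norm_num) (by omega)⟩

theorem sq_le_Om (l : ℕ) (lam : ℂ) : (1 + (l : ℝ)) ^ 2 ≤ Om l lam := by
  have h1 : (0 : ℝ) ≤ l := Nat.cast_nonneg l
  have h2 := abs_nonneg lam.im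
  rw [Om, Lc]
  nlinarith

theorem one_le_Om (l : ℕ) (lam : ℂ) : 1 ≤ Om l lam := by
  have h1 : (0 : ℝ) ≤ l := Nat.cast_nonneg l
  nlinarith [sq_le_Om l lam]

theorem cd_sq_le (l : ℕ) (lam : ℂ) (f g : ℝ → ℂ) (r : ℝ) :
    cd l f g r ^ 2 ≤ 4 * en l lam f g r := by
  have h1 := mul_le_mul_of_nonneg_right (sq_le_Om l lam)
    (by positivity : 0 ≤ ‖f r‖ ^ 2 + ‖g r‖ ^ 2)
  rw [cd, en]
  set a := (1 + (l : ℝ)) * ‖f r‖ with ha
  set b := (1 + (l : ℝ)) * ‖g r‖ with hb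
  have e1 : (1 + (l : ℝ)) * (‖f r‖ + ‖g r‖) = a + b := by rw [ha, hb]; ring
  have e2 : (1 + (l : ℝ)) ^ 2 * (‖f r‖ ^ 2 + ‖g r‖ ^ 2) = a ^ 2 + b ^ 2 := by rw [ha, hb]; ring
  rw [e1]
  rw [e2] at h1
  nlinarith [sq_nonneg (a - b), sq_nonneg (a - ‖deriv f r‖), sq_nonneg (a - ‖deriv g r‖),
    sq_nonneg (b - ‖deriv f r‖), sq_nonneg (b - ‖deriv g r‖), sq_nonneg (‖deriv f r‖ - ‖deriv g r‖)]

/-- The integrand of the weighted norm of the level `i`. -/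
noncomputable def ph (l i : ℕ) (F H : ℝ → ℂ) (ρ : ℝ) : ℝ :=
  ρ ^ ((l : ℝ) - 4 + 2 * i) * (‖iteratedDeriv i F ρ‖ ^ 2 + ‖iteratedDeriv i H ρ‖ ^ 2)

theorem ph_cont (l : ℕ) {i : ℕ} (hi : i ≤ 30) {F H : ℝ → ℂ} (hF : ContDiffOn ℝ 30 F (Ioi 0))
    (hH : ContDiffOn ℝ 30 H (Ioi 0)) : ContinuousOn (ph l i F H) (Ioi 0) := by
  have key : ∀ F : ℝ → ℂ, ContDiffOn ℝ 30 F (Ioi 0) → ContinuousOn (iteratedDeriv i F) (Ioi 0) :=
    fun F hF => (hF.continuousOn_iteratedDerivWithin (le_thirty hi) (uniqueDiffOn_Ioi 0)).congr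
      fun x hx => (iteratedDerivWithin_of_isOpen isOpen_Ioi hx).symm
  exact (continuousOn_id.rpow_const fun x hx => Or.inl (ne_of_gt hx)).mul
    (((key F hF).norm.pow 2).add ((key H hH).norm.pow 2))

theorem one_comp {l : ℕ} {f : ℝ → ℂ} {r : ℝ} (hr : 1 ≤ r) (hr' : r ≤ 4)
    (hF : ContDiffOn ℝ 30 (red l f) (Ioi 0)) :
    ‖f r‖ ^ 2 ≤ 16 ^ 4 * ((r ^ 2) ^ ((l : ℝ) - 4 + 2 * (0 : ℕ))
        * ‖iteratedDeriv 0 (red l f) (r ^ 2)‖ ^ 2) ∧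
      ‖deriv f r‖ ^ 2 ≤ 2 * ((l : ℝ) ^ 2 * ‖f r‖ ^ 2) + 16 ^ 4 * ((r ^ 2) ^ ((l : ℝ) - 4 + 2 * (1 : ℕ))
        * ‖iteratedDeriv 1 (red l f) (r ^ 2)‖ ^ 2) := by
  have h0 : 0 < r := by linarith
  have hρ : 0 < r ^ 2 := pow_pos h0 2
  have hρ' : r ^ 2 ≤ 16 := by nlinarith
  have hd : DifferentiableAt ℝ (red l f) (r ^ 2) :=
    (cda (k := 1) hF (le_thirty (by norm_num)) hρ).differentiableAt (by simp)
  have e : ∀ k : ℕ, (r ^ l) ^ 2 = (r ^ 2) ^ k * (r ^ 2) ^ ((l : ℝ) - k) := fun k => by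
    rw [← Real.rpow_natCast (r ^ 2) k, ← Real.rpow_add hρ, add_sub_cancel, Real.rpow_natCast,
      ← pow_mul, ← pow_mul, mul_comm]
  constructor
  · rw [iteratedDeriv_zero, ← norm_red l f h0, mul_pow, e 4, mul_assoc]
    have : (l : ℝ) - 4 + 2 * (0 : ℕ) = l - (4 : ℕ) := by push_cast; ring
    rw [this]
    exact mul_le_mul_of_nonneg_right (pow_le_pow_left₀ hρ.le hρ' 4) (by positivity)
  · have h1 := pow_le_pow_left₀ (norm_nonneg _) (norm_deriv_le_red hr hd) 2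
    have : (l : ℝ) - 4 + 2 * (1 : ℕ) = l - (2 : ℕ) := by push_cast; ring
    rw [iteratedDeriv_one, this]
    set y := (r ^ 2) ^ ((l : ℝ) - (2 : ℕ)) * ‖deriv (red l f) (r ^ 2)‖ ^ 2 with hy
    have hy0 : 0 ≤ y := by positivity
    have h2 : (2 * r * (r ^ l * ‖deriv (red l f) (r ^ 2)‖)) ^ 2 = 4 * (r ^ 2) ^ 3 * y := by
      rw [mul_pow, mul_pow (r ^ l), e 2, hy]; ring
    have h3 := mul_le_mul_of_nonneg_right (pow_le_pow_left₀ hρ.le hρ' 3) hy0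
    nlinarith [sq_nonneg (l * ‖f r‖ - 2 * r * (r ^ l * ‖deriv (red l f) (r ^ 2)‖))]

theorem en_le {l : ℕ} (lam : ℂ) {f g : ℝ → ℂ} {r : ℝ} (hr : 1 ≤ r) (hr' : r ≤ 4)
    (hF : ContDiffOn ℝ 30 (red l f) (Ioi 0)) (hG : ContDiffOn ℝ 30 (red l g) (Ioi 0)) :
    r ^ 11 * en l lam f g r ≤ 4 ^ 10 * (3 * 16 ^ 4 * Om l lam) *
      ((ph l 0 (red l f) (red l g) (r ^ 2) + ph l 1 (red l f) (red l g) (r ^ 2)) * (2 * r)) := by
  have h0 : 0 < r := by linarith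
  obtain ⟨a0, a1⟩ := one_comp hr hr' hF
  obtain ⟨b0, b1⟩ := one_comp hr hr' hG
  have hO := one_le_Om l lam
  have hl : (l : ℝ) ^ 2 ≤ Om l lam := by
    have h1 : (0 : ℝ) ≤ l := Nat.cast_nonneg l
    nlinarith [sq_le_Om l lam]
  set p := ph l 0 (red l f) (red l g) (r ^ 2) with hp
  set q := ph l 1 (red l f) (red l g) (r ^ 2) with hq
  have hq0 : 0 ≤ q := by rw [hq, ph]; positivity
  have c0 : ‖f r‖ ^ 2 + ‖g r‖ ^ 2 ≤ 16 ^ 4 * p := by rw [hp, ph]; linarith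
  have c1 : ‖deriv f r‖ ^ 2 + ‖deriv g r‖ ^ 2
      ≤ 2 * ((l : ℝ) ^ 2 * (‖f r‖ ^ 2 + ‖g r‖ ^ 2)) + 16 ^ 4 * q := by rw [hq, ph]; linarith
  have c2 := mul_le_mul_of_nonneg_right hl (by positivity : 0 ≤ ‖f r‖ ^ 2 + ‖g r‖ ^ 2)
  have c3 := mul_le_mul_of_nonneg_left c0 (by linarith : 0 ≤ Om l lam)
  have c4 := le_mul_of_one_le_left hq0 hO
  have h1 : en l lam f g r ≤ 3 * 16 ^ 4 * Om l lam * (p + q) := by
    rw [en]; nlinarith
  have h2 : r ^ 11 ≤ 4 ^ 10 * (2 * r) := by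
    have := mul_le_mul_of_nonneg_right (pow_le_pow_left₀ h0.le hr' 10) h0.le
    rw [pow_succ]
    linarith
  have h3 : 0 ≤ en l lam f g r := by rw [en]; positivity
  calc _ ≤ 4 ^ 10 * (2 * r) * (3 * 16 ^ 4 * Om l lam * (p + q)) :=
        mul_le_mul h2 h1 h3 (by positivity)
    _ = _ := by ring

theorem int_sq {φ : ℝ → ℝ} {a : ℝ} (ha : 1 ≤ a) (ha' : a ≤ 4) (hc : ContinuousOn φ (Ioi 0))
    (hi : IntegrableOn φ (Ioi (a ^ 2))) (h0 : ∀ ρ, 0 ≤ ρ → 0 ≤ φ ρ) :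
    ∫ r in a..4, φ (r ^ 2) * (2 * r) ≤ ∫ ρ in Ioi (a ^ 2), φ ρ := by
  have h1 := intervalIntegral.integral_comp_mul_deriv' (a := a) (b := 4) (f := fun x : ℝ => x ^ 2)
    (f' := fun x => 2 * x) (g := φ) (fun x _ => by simpa using hasDerivAt_pow 2 x) (by fun_prop)
    (hc.mono (by
      rintro _ ⟨x, hx, rfl⟩
      rw [uIcc_of_le ha'] at hx
      exact pow_pos (by linarith [hx.1] : (0 : ℝ) < x) 2))
  simp only [Function.comp_def] at h1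
  rw [h1, intervalIntegral.integral_of_le (by nlinarith)]
  refine setIntegral_mono_set hi ((ae_restrict_iff' measurableSet_Ioi).2
    (Eventually.of_forall fun ρ hρ => h0 ρ ((sq_nonneg a).trans (le_of_lt hρ)))) ?_
  exact (Ioc_subset_Ioi_self).eventuallyLE

end ExtX

open ExtX

theorem ext_X0 (K : ℝ) : ∃ ε₀ : ℝ, 0 < ε₀ ∧ ∃ C : ℝ, 0 < C ∧
    ∀ (m : ℕ) (β : ℝ) (G : ℝ → ℂ) (l : ℕ) (lam : ℂ) (f g SF SG : ℝ → ℂ) (M : ℝ), 1 ≤ m → |β| ≤ 1 →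
      IsProfile m β G → GoodExt m G ε₀ 16 → RSol m β G l lam f g SF SG → (l : ℝ) ≤ K →
      ‖lam‖ ≤ K → 0 ≤ lam.re → Symb (-((l : ℝ) / 2)) (red l SF) →
      Symb (-((l : ℝ) / 2)) (red l SG) →
      (∀ i ≤ 10, ∀ ρ : ℝ, 16 ≤ ρ → ‖iteratedDeriv i (red l SF) ρ‖ ≤ M * ρ ^ (-((l : ℝ) / 2 + i)) ∧
        ‖iteratedDeriv i (red l SG) ρ‖ ≤ M * ρ ^ (-((l : ℝ) / 2 + i))) →
      WeakOut (6 + l) (red l f) ∧ WeakOut (6 + l) (red l g) ∧
        wn (l + 12) 7 (red l f) (red l g) 16 + wn (l + 13) 8 (red l f) (red l g) 16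
          ≤ C * ((‖f 4‖ + ‖deriv f 4‖ + ‖g 4‖ + ‖deriv g 4‖) ^ 2 + M ^ 2) := by
  obtain ⟨ε₀, hε, C, hC, H⟩ := core
  have hK := abs_nonneg K
  refine ⟨ε₀, hε, 2 * C * (2 * |K| + 6) ^ 16 * (1 + |K|) ^ 2, by positivity, ?_⟩
  intro m β G l lam f g SF SG M hm hβ hG hE hR hlK hK' hl hSF hSG hM
  have e : (4 : ℝ) ^ 2 = 16 := by norm_num
  have hK1 := le_abs_self K
  obtain ⟨w7, w8, -⟩ := H m β G l lam f g SF SG M 4 (2 * |K| + 6) hm hβ hG (by rwa [e]) hR hl hSF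
    hSG (by rwa [e]) (by norm_num) le_rfl (by linarith)
  rw [e] at w7 w8
  have hd := hR.decay hm hG (b := 0) (by
    have : (0 : ℝ) < m := by exact_mod_cast hm
    have : 0 < 1 / (2 * (m : ℝ)) := by positivity
    linarith) (by norm_num) (by simpa using hSF) (by simpa using hSG)
  rw [add_zero] at hd
  refine ⟨weakOut_of_decay hd.1, weakOut_of_decay hd.2, ?_⟩
  set S := ‖f 4‖ + ‖deriv f 4‖ + ‖g 4‖ + ‖deriv g 4‖ with hS
  have h1 : cd l f g 4 ≤ (1 + |K|) * S := by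
    have a1 := mul_le_mul_of_nonneg_right (by linarith : (1 + l : ℝ) ≤ 1 + |K|)
      (by positivity : 0 ≤ ‖f 4‖ + ‖g 4‖)
    have a2 : 0 ≤ |K| * (‖deriv f 4‖ + ‖deriv g 4‖) := by positivity
    rw [cd, hS]
    linarith
  have h2 : cd l f g 4 ^ 2 + M ^ 2 ≤ (1 + |K|) ^ 2 * (S ^ 2 + M ^ 2) := by
    have a1 := pow_le_pow_left₀ (by rw [cd]; positivity) h1 2
    have a2 := le_mul_of_one_le_left (sq_nonneg M) (one_le_pow₀ (n := 2) (by linarith : 1 ≤ 1 + |K|))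
    rw [mul_pow] at a1
    linarith
  have h3 := mul_le_mul_of_nonneg_left h2 (by positivity : 0 ≤ C * (2 * |K| + 6) ^ 16)
  linarith

theorem ext_X1 (σ₀ : ℝ) : ∃ ε₀ : ℝ, 0 < ε₀ ∧ ∃ C : ℝ, 0 < C ∧ ∃ N : ℕ,
    ∀ (m : ℕ) (β : ℝ) (G : ℝ → ℂ) (l : ℕ) (lam : ℂ) (f g : ℝ → ℂ) (r₀ : ℝ), 1 ≤ m → |β| ≤ 1 →
      IsProfile m β G → GoodExt m G ε₀ (r₀ ^ 2) → RSol m β G l lam f g 0 0 → 0 ≤ lam.re →
      lam.re ≤ σ₀ → 1 ≤ r₀ → r₀ ≤ 4 →
      ∫ r in r₀..4, r ^ 11 * en l lam f g r ≤ C * Om l lam ^ N * en l lam f g r₀ := by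
  obtain ⟨ε₀, hε, C, hC, H⟩ := core
  have hK := abs_nonneg σ₀
  refine ⟨ε₀, hε, 4 ^ 10 * (3 * 16 ^ 4) * (8 * C * (|σ₀| + 7) ^ 16), by positivity, 17, ?_⟩
  intro m β G l lam f g r₀ hm hβ hG hE hR hl hσ hr hr'
  have ez : red l 0 = fun _ => 0 := by funext ρ; simp [red]
  have hO := one_le_Om l lam
  have hW : l + ‖lam‖ + 6 ≤ (|σ₀| + 7) * Om l lam := by
    have a1 := norm_le_abs_re_add_abs_im lam
    rw [abs_of_nonneg hl] at a1
    have a2 := le_abs_self σ₀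
    have a3 : (l : ℝ) + |lam.im| ≤ Om l lam := by
      have h1 : (0 : ℝ) ≤ l := Nat.cast_nonneg l
      rw [Om, Lc]; nlinarith
    nlinarith
  obtain ⟨-, -, wi⟩ := H m β G l lam f g 0 0 0 r₀ _ hm hβ hG hE hR hl
    (by rw [ez]; exact Symb.zero _) (by rw [ez]; exact Symb.zero _)
    (fun i _ ρ _ => by simp [ez]) hr hr' hW
  obtain ⟨i0, n0⟩ := wi 0 (by norm_num)
  obtain ⟨i1, n1⟩ := wi 1 (by norm_num)
  have hF := hR.redSol.smoothF
  have hH := smooth_of_conj hR.redSol.smoothH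
  have c0 := ph_cont l (i := 0) (by norm_num) hF hH
  have c1 := ph_cont l (i := 1) (by norm_num) hF hH
  have hI := int_sq hr hr' (c0.add c1) (i0.add i1) fun ρ hρ => by
    simp only [ph, Pi.add_apply]; positivity
  simp only [Pi.add_apply] at hI
  replace hI := hI.trans (le_of_eq (integral_add i0 i1))
  have cf := hR.bf.smooth.continuous
  have cg := hR.bg.smooth.continuous
  have cf' := hR.bf.smooth.continuous_deriv (by norm_num)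
  have cg' := hR.bg.smooth.continuous_deriv (by norm_num)
  have h1 : ∫ r in r₀..4, r ^ 11 * en l lam f g r ≤ ∫ r in r₀..4, 4 ^ 10 * (3 * 16 ^ 4 * Om l lam) *
      ((ph l 0 (red l f) (red l g) (r ^ 2) + ph l 1 (red l f) (red l g) (r ^ 2)) * (2 * r)) := by
    refine intervalIntegral.integral_mono_on hr' (Continuous.intervalIntegrable ?_ _ _)
      (ContinuousOn.intervalIntegrable_of_Icc hr' ?_)
      fun r h => en_le lam (hr.trans h.1) h.2 hF hH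
    · simp only [en]; fun_prop
    · refine continuousOn_const.mul (ContinuousOn.mul ?_ (by fun_prop))
      exact (c0.add c1).comp (f := fun x : ℝ => x ^ 2) (by fun_prop)
        fun x hx => pow_pos (by linarith [hx.1] : (0 : ℝ) < x) 2
  rw [intervalIntegral.integral_const_mul] at h1
  have h2 : C * (((|σ₀| + 7) * Om l lam) ^ 16 * (cd l f g r₀ ^ 2 + 0 ^ 2))
      ≤ C * (((|σ₀| + 7) * Om l lam) ^ 16 * (4 * en l lam f g r₀)) := by
    refine mul_le_mul_of_nonneg_left (mul_le_mul_of_nonneg_left ?_ (by positivity)) hC.le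
    linarith [cd_sq_le l lam f g r₀]
  refine h1.trans ((mul_le_mul_of_nonneg_left (hI.trans (add_le_add (n0.trans h2) (n1.trans h2)))
    (by positivity)).trans (le_of_eq ?_))
  ring

end Vale.Agent.P139Z
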