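import Vale.Agent.P139Z.OCalc.Symb
import Vale.Agent.P139Z.OCalc.Hardy

/-! Calculus for the operator, symbols, and Hardy inequalities. -/

open Set Filter Topology MeasureTheory Complex
open scoped NNReal ENNReal ComplexConjugate ContDiff

namespace Vale.Agent.P139Z

theorem Mop_add (A : ℂ) (B : ℕ) {F H : ℝ → ℂ} {ρ : ℝ} (hF : ContDiffAt ℝ 2 F ρ)
    (hH : ContDiffAt ℝ 2 H ρ) : Mop A B (fun x => F x + H x) ρ = Mop A B F ρ + Mop A B H ρ :=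
  OCalc.Mop_add A B hF hH

theorem Mop_sub (A : ℂ) (B : ℕ) {F H : ℝ → ℂ} {ρ : ℝ} (hF : ContDiffAt ℝ 2 F ρ)
    (hH : ContDiffAt ℝ 2 H ρ) : Mop A B (fun x => F x - H x) ρ = Mop A B F ρ - Mop A B H ρ :=
  OCalc.Mop_sub A B hF hH

theorem Mop_const_mul (A : ℂ) (B : ℕ) (c : ℂ) (F : ℝ → ℂ) (ρ : ℝ) :
    Mop A B (fun x => c * F x) ρ = c * Mop A B F ρ :=
  OCalc.Mop_const_mul A B c F ρ

theorem Mop_congr (A : ℂ) (B : ℕ) {F H : ℝ → ℂ} {ρ : ℝ} (h : F =ᶠ[𝓝 ρ] H) :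
    Mop A B F ρ = Mop A B H ρ :=
  OCalc.Mop_congr A B h

theorem iteratedDeriv_Mop (A : ℂ) (B j : ℕ) {F : ℝ → ℂ} {ρ : ℝ}
    (hF : ContDiffAt ℝ (j + 2 : ℕ) F ρ) :
    iteratedDeriv j (Mop A B F) ρ = Mop (A + j) (B + j) (iteratedDeriv j F) ρ :=
  OCalc.iteratedDeriv_Mop A B j hF

/-- The level map: `(A + ρ∂)` intertwines the operators for `A` and `A + 1`. -/
theorem Mop_level (A : ℂ) (B : ℕ) {F : ℝ → ℂ} {ρ : ℝ} (hF : ContDiffAt ℝ 3 F ρ) :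
    Mop (A + 1) B (fun x => A * F x + x * deriv F x) ρ
      = (A + 1) * Mop A B F ρ + ρ * deriv (Mop A B F) ρ :=
  OCalc.Mop_level A B hF

/-- The mass identity. -/
theorem hasDerivAt_mass (A : ℂ) {B : ℕ} (hB : 1 ≤ B) {F : ℝ → ℂ} {ρ : ℝ}
    (hF : ContDiffAt ℝ 2 F ρ) :
    HasDerivAt (fun x : ℝ => 4 * x ^ B * (conj (F x) * deriv F x).im + x ^ B * ‖F x‖ ^ 2 / 2)
      (ρ ^ (B - 1) * (conj (F ρ) * Mop A B F ρ).im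
        - (A.re - (B : ℝ) / 2) * ρ ^ (B - 1) * ‖F ρ‖ ^ 2) ρ :=
  OCalc.hasDerivAt_mass A hB hF

/-- The Wronskian identity. -/
theorem hasDerivAt_wron (A : ℂ) {B : ℕ} (hB : 1 ≤ B) {F U : ℝ → ℂ} {ρ : ℝ}
    (hF : ContDiffAt ℝ 2 F ρ) (hU : ContDiffAt ℝ 2 U ρ) :
    HasDerivAt (fun x : ℝ => (x : ℂ) ^ B * cexp (I * x / 4) * (deriv F x * U x - F x * deriv U x))
      ((ρ : ℂ) ^ (B - 1) * cexp (I * ρ / 4) / 4 * (U ρ * Mop A B F ρ - F ρ * Mop A B U ρ)) ρ :=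
  OCalc.hasDerivAt_wron A hB hF hU

namespace Symb

variable {M M' : ℝ} {F H : ℝ → ℂ}

theorem zero (M : ℝ) : Symb M (fun _ => 0) :=
  OCalc.s_zero M

theorem const (c : ℂ) : Symb 0 (fun _ => c) :=
  OCalc.s_const c

theorem cpow (c : ℂ) : Symb c.re (fun x : ℝ => (x : ℂ) ^ c) :=
  OCalc.s_cpow c

theorem mono (h : Symb M F) (hM : M ≤ M') : Symb M' F :=
  OCalc.s_mono h hM

theorem congr (h : Symb M F) (e : EqOn F H (Ioi 0)) : Symb M H :=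
  OCalc.s_congr h e

theorem add (h : Symb M F) (h' : Symb M H) : Symb M (fun x => F x + H x) :=
  OCalc.s_add h h'

theorem sub (h : Symb M F) (h' : Symb M H) : Symb M (fun x => F x - H x) :=
  OCalc.s_sub h h'

theorem const_mul (h : Symb M F) (c : ℂ) : Symb M (fun x => c * F x) :=
  OCalc.s_const_mul h c

theorem mul (h : Symb M F) (h' : Symb M' H) : Symb (M + M') (fun x => F x * H x) :=
  OCalc.s_mul h h'

theorem id_mul (h : Symb M F) : Symb (M + 1) (fun x => x * F x) :=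
  OCalc.s_id_mul h

theorem cj (h : Symb M F) : Symb M (fun x => conj (F x)) :=
  OCalc.s_cj h

theorem der (h : Symb M F) : Symb (M - 1) (deriv F) :=
  OCalc.s_der h

theorem iter (h : Symb M F) (j : ℕ) : Symb (M - j) (iteratedDeriv j F) :=
  OCalc.s_iter h j

/-- Bounds near infinity are enough. -/
theorem of_eventually (hF : ContDiffOn ℝ ∞ F (Ioi 0)) (ρ₃ : ℝ)
    (h : ∀ j : ℕ, ∃ C : ℝ, ∀ ρ : ℝ, ρ₃ ≤ ρ → 1 ≤ ρ →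
      ‖iteratedDeriv j F ρ‖ ≤ C * ρ ^ (M - j)) : Symb M F :=
  OCalc.s_of_eventually hF ρ₃ h

/-- Integration raises a positive order by one. -/
theorem of_deriv (hF : ContDiffOn ℝ ∞ F (Ioi 0)) (h : Symb (M - 1) (deriv F))
    (hM : 0 < M) : Symb M F :=
  OCalc.s_of_deriv hF h hM

end Symb

theorem hardy_right {a p : ℝ} (ha : 0 < a) (hp : 1 < p) {h h' : ℝ → ℂ}
    (hd : ∀ x : ℝ, a ≤ x → HasDerivAt h (h' x) x) (hc : ContinuousOn h' (Ici a))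
    (hi : IntegrableOn (fun x : ℝ => x ^ p * ‖h' x‖ ^ 2) (Ioi a))
    (ht : Tendsto (fun x : ℝ => x ^ (p - 1) * ‖h x‖ ^ 2) atTop (𝓝 0)) :
    IntegrableOn (fun x : ℝ => x ^ (p - 2) * ‖h x‖ ^ 2) (Ioi a) ∧
      ∫ x in Ioi a, x ^ (p - 2) * ‖h x‖ ^ 2 ≤ 4 / (p - 1) ^ 2 * ∫ x in Ioi a, x ^ p * ‖h' x‖ ^ 2 :=
  OCalc.hardy_right ha hp hd hc hi ht

theorem hardy_left {a p : ℝ} (ha : 0 < a) (hp : p < 1) {h h' : ℝ → ℂ}
    (hd : ∀ x : ℝ, a ≤ x → HasDerivAt h (h' x) x) (hc : ContinuousOn h' (Ici a))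
    (hi : IntegrableOn (fun x : ℝ => x ^ p * ‖h' x‖ ^ 2) (Ioi a)) :
    IntegrableOn (fun x : ℝ => x ^ (p - 2) * ‖h x‖ ^ 2) (Ioi a) ∧
      ∫ x in Ioi a, x ^ (p - 2) * ‖h x‖ ^ 2 ≤ 4 / (1 - p) ^ 2 * (∫ x in Ioi a, x ^ p * ‖h' x‖ ^ 2)
        + 2 / (1 - p) * (a ^ (p - 1) * ‖h a‖ ^ 2) :=
  OCalc.hardy_left ha hp hd hc hi

theorem hardy_ball {r₀ : ℝ} (hr : 0 ≤ r₀) {h h' : ℝ → ℂ}
    (hd : ∀ x ∈ Icc 0 r₀, HasDerivAt h (h' x) x) (hc : ContinuousOn h' (Icc 0 r₀)) :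
    ∫ x in (0 : ℝ)..r₀, x ^ 9 * ‖h x‖ ^ 2
      ≤ r₀ ^ 10 * ‖h r₀‖ ^ 2 / 5 + (∫ x in (0 : ℝ)..r₀, x ^ 11 * ‖h' x‖ ^ 2) / 25 :=
  OCalc.hardy_ball hr hd hc

end Vale.Agent.P139Z
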