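import Vale.Agent.P139Z.OBase
import Vale.Agent.P139Z.OCalc
import Vale.Agent.P139Z.Free.Out
import Vale.Agent.P139Z.Free.Sym

/-! Outgoing solutions of the free equation; the weak outgoing condition. -/

open Set Filter Topology MeasureTheory Complex
open scoped NNReal ENNReal ComplexConjugate ContDiff

namespace Vale.Agent.P139Z

namespace Free

theorem symb_pow (n : ℕ) : Symb n (fun x : ℝ => (x : ℂ) ^ n) := by
  have := Symb.cpow (n : ℂ)
  simpa using this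

theorem symb_of_iter (k : ℕ) : ∀ {F : ℝ → ℂ}, ContDiffOn ℝ ∞ F (Ioi 0) →
    Symb 0 (iteratedDeriv k F) → Symb k F := by
  induction k with
  | zero =>
    intro F _ h
    simpa using h
  | succ k ih =>
    intro F hF h
    rw [iteratedDeriv_succ'] at h
    have h1 := ih (smooth_deriv hF) h
    refine Symb.of_deriv hF ?_ (by positivity)
    rwa [show ((k + 1 : ℕ) : ℝ) - 1 = k by push_cast; ring]

theorem bdd_of_weak {n : ℕ} (hn : 2 ≤ n) {y : ℝ → ℂ} (hy : ContDiffOn ℝ ∞ y (Ioi 0))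
    (hi : IntegrableOn (fun ρ : ℝ => ρ ^ n * ‖deriv y ρ‖ ^ 2) (Ioi 16)) :
    y =O[atTop] fun ρ : ℝ => ρ ^ (0 : ℝ) := by
  have h1 : IntegrableOn (deriv y) (Ioi 16) := by
    refine Integrable.mono' (hi.add (integrableOn_Ioi_rpow_of_lt (a := -2) (by norm_num)
      (by norm_num : (0 : ℝ) < 16))) ?_ ?_
    · refine ContinuousOn.aestronglyMeasurable
        ((smooth_deriv hy).continuousOn.mono fun x hx => ?_) measurableSet_Ioi
      exact lt_trans (by norm_num : (0 : ℝ) < 16) hx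
    · filter_upwards [ae_restrict_mem measurableSet_Ioi] with x hx
      have hx' : (16 : ℝ) < x := hx
      have hx0 : 0 < x := by linarith
      have e : x ^ (-2 : ℝ) = (x⁻¹) ^ 2 := by
        rw [Real.rpow_neg hx0.le, inv_pow]
        norm_cast
      have h2 : x ^ 2 ≤ x ^ n := pow_le_pow_right₀ (by linarith) hn
      have h3 : x * x⁻¹ = 1 := mul_inv_cancel₀ hx0.ne'
      have h4 := norm_nonneg (deriv y x)
      have h5 : x ^ 2 * ‖deriv y x‖ ^ 2 ≤ x ^ n * ‖deriv y x‖ ^ 2 := by gcongr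
      have h6 : 2 * ‖deriv y x‖ ≤ x ^ 2 * ‖deriv y x‖ ^ 2 + (x⁻¹) ^ 2 := by
        have h7 := sq_nonneg (x * ‖deriv y x‖ - x⁻¹)
        have h8 : (x * ‖deriv y x‖ - x⁻¹) ^ 2
            = x ^ 2 * ‖deriv y x‖ ^ 2 + (x⁻¹) ^ 2 - 2 * ‖deriv y x‖ * (x * x⁻¹) := by ring
        rw [h8, h3] at h7
        linarith
      simp only [Pi.add_apply]
      rw [e]
      linarith
  have h2 := tendsto_limUnder_of_hasDerivAt_of_integrableOn_Ioi
    (fun x (hx : x ∈ Ioi (16 : ℝ)) => has_deriv hy (lt_trans (by norm_num) hx)) h1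
  simpa using h2.isBigO_one ℝ

theorem tendsto_of_sq {w w' : ℝ → ℂ} (hd : ∀ x ∈ Ioi (16 : ℝ), HasDerivAt w (w' x) x)
    (hi : IntegrableOn w' (Ioi 16)) (h2 : IntegrableOn (fun x => ‖w x‖ ^ 2) (Ioi 16)) :
    Tendsto w atTop (𝓝 0) := by
  have h1 := tendsto_limUnder_of_hasDerivAt_of_integrableOn_Ioi hd hi
  have h3 : ‖limUnder atTop w‖ ^ 2 = 0 := by
    refine IntegrableAtFilter.eq_zero_of_tendsto (l := atTop) (μ := volume)
      ⟨Ioi 16, Ioi_mem_atTop _, h2⟩ (fun s hs => ?_) (h1.norm.pow 2)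
    rcases mem_atTop_sets.1 hs with ⟨b, hb⟩
    rw [← top_le_iff, ← Real.volume_Ici (a := b)]
    exact measure_mono hb
  have h4 : limUnder atTop w = 0 := by simpa using h3
  rwa [h4] at h1

theorem wron_sq {B : ℕ} {a : ℝ} (ha : (B : ℝ) / 2 - 3 ≤ a) {y U : ℝ → ℂ}
    (hy : ContDiffOn ℝ ∞ y (Ioi 0)) (hU : Symb (-(a + 7)) U)
    (h0 : IntegrableOn (fun ρ : ℝ => ρ ^ (B + 6) * ‖y ρ‖ ^ 2) (Ioi 16))
    (h1 : IntegrableOn (fun ρ : ℝ => ρ ^ (B + 7) * ‖deriv y ρ‖ ^ 2) (Ioi 16)) :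
    IntegrableOn (fun x : ℝ => ‖(x : ℂ) ^ (B + 7) * (deriv y x * U x - y x * deriv U x)‖ ^ 2)
      (Ioi 16) := by
  obtain ⟨C₀, hC₀⟩ := hU.bd 0
  obtain ⟨C₁, hC₁⟩ := (hU.der.mono (by linarith : -(a + 7) - 1 ≤ -(a + 7))).bd 0
  simp only [iteratedDeriv_zero, Nat.cast_zero, sub_zero] at hC₀ hC₁
  refine Integrable.mono' ((h1.const_mul (2 * C₀ ^ 2)).add (h0.const_mul (2 * C₁ ^ 2))) ?_ ?_
  · refine ContinuousOn.aestronglyMeasurable (ContinuousOn.mono (s := Ioi 0) ?_ fun x hx => ?_)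
      measurableSet_Ioi
    · refine (ContinuousOn.norm (ContinuousOn.mul (by fun_prop) ?_)).pow 2
      exact ((smooth_deriv hy).continuousOn.mul hU.smooth.continuousOn).sub
        (hy.continuousOn.mul (smooth_deriv hU.smooth).continuousOn)
    · exact lt_trans (by norm_num : (0 : ℝ) < 16) hx
  · filter_upwards [ae_restrict_mem measurableSet_Ioi] with x hx
    have hx' : (16 : ℝ) < x := hx
    have hx0 : 0 < x := by linarith
    have hx1 : 1 ≤ x := by linarith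
    set t : ℝ := x ^ (B + 7) * x ^ (-(a + 7)) with ht
    have t0 : 0 ≤ t := by positivity
    have t2 : t ^ 2 ≤ x ^ (B + 6) := by
      have e1 : t = x ^ ((B : ℝ) - a) := by
        rw [ht, ← Real.rpow_natCast, ← Real.rpow_add hx0]
        congr 1
        push_cast
        ring
      rw [e1, ← Real.rpow_natCast, ← Real.rpow_mul hx0.le, ← Real.rpow_natCast]
      refine Real.rpow_le_rpow_of_exponent_le hx1 ?_
      push_cast
      linarith
    have t3 : x ^ (B + 6) ≤ x ^ (B + 7) := pow_le_pow_right₀ hx1 (by omega)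
    have p0 := norm_nonneg (y x)
    have p1 := norm_nonneg (deriv y x)
    have n1 : ‖(x : ℂ) ^ (B + 7) * (deriv y x * U x - y x * deriv U x)‖
        ≤ t * (C₀ * ‖deriv y x‖ + C₁ * ‖y x‖) := by
      rw [norm_mul, norm_pow, norm_real, Real.norm_eq_abs, abs_of_pos hx0]
      have n2 : ‖deriv y x * U x - y x * deriv U x‖
          ≤ ‖deriv y x‖ * (C₀ * x ^ (-(a + 7))) + ‖y x‖ * (C₁ * x ^ (-(a + 7))) := by
        refine (norm_sub_le _ _).trans ?_
        rw [norm_mul, norm_mul]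
        exact add_le_add (mul_le_mul_of_nonneg_left (hC₀ x hx1) p1)
          (mul_le_mul_of_nonneg_left (hC₁ x hx1) p0)
      calc _ ≤ x ^ (B + 7) * (‖deriv y x‖ * (C₀ * x ^ (-(a + 7)))
            + ‖y x‖ * (C₁ * x ^ (-(a + 7)))) := by gcongr
        _ = _ := by rw [ht]; ring
    rw [Real.norm_eq_abs, abs_of_nonneg (sq_nonneg _)]
    simp only [Pi.add_apply]
    have n3 : (C₀ * ‖deriv y x‖ + C₁ * ‖y x‖) ^ 2
        ≤ 2 * C₀ ^ 2 * ‖deriv y x‖ ^ 2 + 2 * C₁ ^ 2 * ‖y x‖ ^ 2 := by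
      nlinarith [sq_nonneg (C₀ * ‖deriv y x‖ - C₁ * ‖y x‖)]
    calc _ ≤ (t * (C₀ * ‖deriv y x‖ + C₁ * ‖y x‖)) ^ 2 := pow_le_pow_left₀ (norm_nonneg _) n1 2
      _ = t ^ 2 * (C₀ * ‖deriv y x‖ + C₁ * ‖y x‖) ^ 2 := mul_pow _ _ _
      _ ≤ x ^ (B + 6) * (2 * C₀ ^ 2 * ‖deriv y x‖ ^ 2 + 2 * C₁ ^ 2 * ‖y x‖ ^ 2) :=
          mul_le_mul t2 n3 (sq_nonneg _) (by positivity)
      _ = 2 * C₀ ^ 2 * (x ^ (B + 6) * ‖deriv y x‖ ^ 2)
            + 2 * C₁ ^ 2 * (x ^ (B + 6) * ‖y x‖ ^ 2) := by ring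
      _ ≤ _ := by gcongr

theorem iter_osc (c : ℂ) (j : ℕ) : iteratedDeriv j (fun x : ℝ => c * cexp (-(I * x / 4)))
    = fun x : ℝ => (-(I / 4)) ^ j * c * cexp (-(I * x / 4)) := by
  induction j with
  | zero => simp
  | succ j ih =>
    rw [iteratedDeriv_succ, ih]
    funext x
    have h0 := (((hasDerivAt_id x).ofReal_comp.const_mul I).div_const 4).fun_neg
    simp only [id, ofReal_one, mul_one] at h0
    rw [(h0.cexp.const_mul ((-(I / 4)) ^ j * c)).deriv]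
    ring

end Free

open Free

theorem exists_out {A : ℂ} (hA : 0 < A.re) (B : ℕ) :
    ∃ U : ℝ → ℂ, Symb (-A.re) U ∧ (∀ ρ : ℝ, 0 < ρ → Mop A B U ρ = 0) ∧
      ∃ ρ₃ c : ℝ, 0 < c ∧ ∀ ρ : ℝ, ρ₃ ≤ ρ → c * ρ ^ (-A.re) ≤ ‖U ρ‖ :=
  exists_out' hA B

theorem symb_of_weakOut {A : ℂ} {B : ℕ} {M : ℝ} (hA : (B : ℝ) / 2 - 3 ≤ A.re) (hA0 : 0 ≤ A.re)
    {F S : ℝ → ℂ} (hF : ContDiffOn ℝ ∞ F (Ioi 0)) (hS : Symb M S) (hM : B - A.re + M < 7)
    (hM0 : M ≤ 0) (e : ∀ ρ : ℝ, 0 < ρ → Mop A B F ρ = S ρ) (hw : WeakOut B F) : Symb 7 F := by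
  set y : ℝ → ℂ := iteratedDeriv 7 F with hydef
  have hy : ContDiffOn ℝ ∞ y (Ioi 0) := smooth_iter hF 7
  have hy' : iteratedDeriv 8 F = deriv y := iteratedDeriv_succ
  obtain ⟨h0, h1⟩ := hw
  rw [hy'] at h1
  have ey : ∀ ρ : ℝ, 0 < ρ → Mop (A + (7 : ℕ)) (B + 7) y ρ = iteratedDeriv 7 S ρ := by
    intro ρ hρ
    rw [hydef, ← iteratedDeriv_Mop A B 7 (smooth_at hF _ hρ)]
    refine Filter.EventuallyEq.iteratedDeriv_eq 7 ?_
    filter_upwards [Ioi_mem_nhds hρ] with x hx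
    exact e x hx
  have hre : (A + (7 : ℕ)).re = A.re + 7 := by simp
  obtain ⟨U, hU, eU, ρ₃, c, hc, hl⟩ := exists_out (A := A + (7 : ℕ)) (by rw [hre]; linarith) (B + 7)
  rw [hre] at hU hl
  set φ : ℝ → ℂ := fun x => (1 / 4) * ((x : ℂ) ^ (B + 6) * (U x * iteratedDeriv 7 S x)) with hφdef
  have hφ : Symb ((B + 6 : ℕ) + (-(A.re + 7) + (M - (7 : ℕ)))) φ :=
    ((symb_pow (B + 6)).mul (hU.mul (hS.iter 7))).const_mul _
  have hp : ((B + 6 : ℕ) : ℝ) + (-(A.re + 7) + (M - (7 : ℕ))) < -1 := by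
    push_cast
    linarith
  set ψ : ℝ → ℂ := fun x => (x : ℂ) ^ (B + 7) * (deriv y x * U x - y x * deriv U x) with hψdef
  have hψ : ContDiffOn ℝ ∞ ψ (Ioi 0) :=
    (symb_pow (B + 7)).smooth.mul (((smooth_deriv hy).mul hU.smooth).sub
      (hy.mul (smooth_deriv hU.smooth)))
  have hd : ∀ x : ℝ, 0 < x →
      HasDerivAt (fun x : ℝ => cexp (I * x / 4) * ψ x) (cexp (I * x / 4) * φ x) x := by
    intro x hx
    have h2 := hasDerivAt_wron (A + (7 : ℕ)) (B := B + 7) (by omega) (smooth_at hy 2 hx)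
      (smooth_at hU.smooth 2 hx)
    rw [ey x hx, eU x hx] at h2
    have e1 : (fun x : ℝ => cexp (I * x / 4) * ψ x) = fun x : ℝ =>
        (x : ℂ) ^ (B + 7) * cexp (I * x / 4) * (deriv y x * U x - y x * deriv U x) := by
      funext x
      simp only [hψdef]
      ring
    rw [e1]
    refine h2.congr_deriv ?_
    simp only [hφdef, show B + 7 - 1 = B + 6 by omega]
    ring
  have eψ : ∀ x : ℝ, 0 < x → deriv ψ x = -(I / 4) * ψ x + φ x := by
    intro x hx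
    have h2 := ((hasDerivAt_osc x).fun_mul (has_deriv hψ hx)).unique (hd x hx)
    have h3 : cexp (I * x / 4) ≠ 0 := Complex.exp_ne_zero _
    apply mul_left_cancel₀ h3
    linear_combination h2
  have tψ : Tendsto ψ atTop (𝓝 0) := by
    have h2 := tendsto_of_sq (fun x hx => hd x (lt_trans (by norm_num) hx))
      (integrableOn_osc hφ hp (by norm_num)) (by
        refine (wron_sq hA hy hU h0 h1).congr_fun (fun x _ => ?_) measurableSet_Ioi
        simp only [norm_mul (cexp _), norm_osc, one_mul, hψdef])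
    rw [tendsto_zero_iff_norm_tendsto_zero] at h2 ⊢
    refine h2.congr fun x => ?_
    rw [norm_mul, norm_osc, one_mul]
  have sψ := osc_symb hp hφ hψ eψ tψ
  have hθ : Symb (-(A.re + 7) - 1) (fun x : ℝ => (x : ℂ) ^ (-((B + 7 : ℕ) : ℂ)) * ψ x) := by
    refine ((Symb.cpow _).mul sψ).mono ?_
    simp only [neg_re, natCast_re]
    push_cast
    linarith
  have s0 : Symb 0 y := by
    refine div_symb hc hU hl hθ hy (fun x hx => ?_) (bdd_of_weak (by omega) hy h1)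
    have hx0 : (x : ℂ) ^ (B + 7) ≠ 0 := pow_ne_zero _ (ofReal_ne_zero.2 hx.ne')
    rw [cpow_neg, cpow_natCast, hψdef, ← mul_assoc, inv_mul_cancel₀ hx0]
    ring
  exact_mod_cast symb_of_iter 7 hF s0

/-- Two solutions that are symbols are proportional. -/
theorem out_wron {A : ℂ} {B : ℕ} (hB : 1 ≤ B) {M : ℝ} {F U : ℝ → ℂ} (hF : Symb M F) (hU : Symb M U)
    (eF : ∀ ρ : ℝ, 0 < ρ → Mop A B F ρ = 0) (eU : ∀ ρ : ℝ, 0 < ρ → Mop A B U ρ = 0) (ρ : ℝ)
    (hρ : 0 < ρ) : deriv F ρ * U ρ - F ρ * deriv U ρ = 0 := by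
  set w : ℝ → ℂ := fun x : ℝ =>
    (x : ℂ) ^ B * cexp (I * x / 4) * (deriv F x * U x - F x * deriv U x) with hw
  have hd : ∀ x ∈ Ioi (0 : ℝ), HasDerivAt w 0 x := by
    intro x hx
    have h2 := hasDerivAt_wron A hB (smooth_at hF.smooth 2 hx) (smooth_at hU.smooth 2 hx)
    rw [eF x hx, eU x hx] at h2
    exact h2.congr_deriv (by ring)
  have hc : ∀ x ∈ Ioi (0 : ℝ), w x = w ρ := fun x hx =>
    isOpen_Ioi.is_const_of_deriv_eq_zero isPreconnected_Ioi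
      (fun z hz => (hd z hz).differentiableAt.differentiableWithinAt)
      (fun z hz => (hd z hz).deriv) hx hρ
  have hs : Symb (B + (M - 1 + M)) (fun x : ℝ => w ρ * cexp (-(I * x / 4))) := by
    have h1 : Symb (M - 1 + M) (fun x => F x * deriv U x) := by
      have := hF.mul hU.der
      rwa [add_comm] at this
    refine ((symb_pow B).mul ((hF.der.mul hU).sub h1)).congr fun x hx => ?_
    rw [← hc x hx, Complex.exp_neg]
    have h3 : cexp (I * x / 4) ≠ 0 := Complex.exp_ne_zero _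
    simp only [hw]
    field_simp
  obtain ⟨j, hj⟩ := exists_nat_gt ((B : ℝ) + (M - 1 + M))
  have ht := (tendsto_of_symb (hs.iter j) (by linarith)).norm
  rw [iter_osc] at ht
  have hn : ∀ x : ℝ, ‖(-(I / 4)) ^ j * w ρ * cexp (-(I * x / 4))‖ = ‖(-(I / 4)) ^ j * w ρ‖ := by
    intro x
    rw [norm_mul, Complex.exp_neg, norm_inv, norm_osc, inv_one, mul_one]
  simp only [hn, norm_zero] at ht
  have h0 : ‖(-(I / 4)) ^ j * w ρ‖ = 0 := tendsto_nhds_unique tendsto_const_nhds ht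
  have h4 : (-(I / 4)) ^ j ≠ 0 := pow_ne_zero _ (by simp)
  have h5 : w ρ = 0 := by
    rw [norm_eq_zero] at h0
    exact (mul_eq_zero.1 h0).resolve_left h4
  have h6 : (ρ : ℂ) ^ B * cexp (I * ρ / 4) ≠ 0 :=
    mul_ne_zero (pow_ne_zero _ (ofReal_ne_zero.2 hρ.ne')) (Complex.exp_ne_zero _)
  exact (mul_eq_zero.1 h5).resolve_left h6

end Vale.Agent.P139Z
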