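import Vale.Agent.P139Z.Good.Int

/-! Quantitative properties of the members of the family. -/

open Set Filter Topology MeasureTheory Complex
open scoped NNReal ENNReal ComplexConjugate ContDiff

namespace Vale.Agent.P139Z

variable {m : ℕ → ℕ} {β : ℕ → ℝ} {G : ℕ → ℝ → ℂ} {βi Z : ℝ} {U : ℝ → ℂ}

theorem IsFamily.symb_near (h : IsFamily m β G βi Z U) {δ : ℝ} (hδ : 0 < δ) (i : ℕ) :
    ∃ C : ℝ, ∀ᶠ j in atTop, ∀ ρ : ℝ, 4 * Z + δ ≤ ρ →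
      ‖iteratedDeriv i (G j) ρ‖ ≤ C * ρ ^ (-(1 / (2 * (m j : ℝ)) + i)) :=
  Good.symb_near h hδ i

theorem IsFamily.goodExt (h : IsFamily m β G βi Z U) {ε δ : ℝ} (hε : 0 < ε) (hδ : 0 < δ) :
    ∀ᶠ j in atTop, GoodExt (m j) (G j) ε (4 * Z + δ) :=
  Good.goodExt h hε hδ

theorem IsFamily.good (h : IsFamily m β G βi Z U) :
    ∃ C₀ c C₁ : ℝ, 0 < c ∧ ∀ ε ϑ : ℝ, 0 < ε → 0 < ϑ → ∃ δ₀ : ℝ, 0 < δ₀ ∧ δ₀ ≤ 1 ∧
      ∀ δ : ℝ, 0 < δ → δ ≤ δ₀ → ∀ᶠ j in atTop,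
        GoodInt (m j) (β j) (G j) C₀ ε ϑ (4 * Z + 2 * δ) ∧ GoodExt (m j) (G j) ε (4 * Z + δ) ∧
          GoodFar (m j) (G j) c C₁ := by
  obtain ⟨C₀, hC₀, hlow⟩ := Good.lower_bd h
  obtain ⟨c, hc, hfar⟩ := h.far
  obtain ⟨C₁, hC₁⟩ := h.symb_near one_pos 1
  obtain ⟨θ, hθ, hθ1, hg⟩ := Good.gap_theta h (δ := 0.3) (by norm_num)
  obtain ⟨δ', hδ', hgap⟩ := h.gap 1 one_pos
  have hZ1 := h.lim.inZ.1
  have hZ2 := h.lim.inZ.2
  have hθ0 : 0 ≤ θ := by linarith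
  refine ⟨C₀, c, C₁, hc, fun ε ϑ hε hϑ => ⟨min 1 (ϑ / (360 * C₀ ^ 2)), by positivity,
    min_le_left _ _, fun δ hδ hδ₀ => ?_⟩⟩
  have hδ1 : δ ≤ 1 := hδ₀.trans (min_le_left _ _)
  have hδ2 : δ * (360 * C₀ ^ 2) ≤ ϑ :=
    (le_div_iff₀ (by positivity)).mp (hδ₀.trans (min_le_right _ _))
  have hs := (((Good.tendsto_small hθ0 hθ1 2).comp h.m_tendsto).mul_const (32 * C₀))
  rw [zero_mul] at hs
  filter_upwards [hlow, hfar, hC₁, hg, hgap, hs.eventually (gt_mem_nhds hε), Good.ev_m h,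
    Good.ev_beta h, h.mono ε hε, h.tv (ϑ / 2) δ (by positivity) hδ hδ1, h.goodExt hε hδ]
    with j jlow jfar jC₁ jg jgap js jm jβ jmono jtv jext
  simp only [Function.comp] at js
  have hup : ∀ ρ ∈ Icc (0 : ℝ) 16, ‖G j ρ‖ ^ (2 * m j) ≤ 2 := by
    intro ρ hρ
    rcases le_total ρ 11.2 with h1 | h1
    · exact h.upper j ρ ⟨hρ.1, h1⟩
    · have := (jg ρ (by linarith)).2
      exact (pow_le_one₀ (norm_nonneg _) (by linarith)).trans one_le_two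
  have hder := Good.deriv_le_one (h.prof j) jm jβ hup
  refine ⟨⟨jm, jβ, jlow, hup, fun ρ hρ => (hder ρ hρ).trans hC₀, fun ρ hρ => ?_, ?_⟩, jext,
    jfar, fun ρ hρ => (jgap ρ (by linarith)).trans (by linarith), fun ρ hρ => ?_⟩
  · rcases le_total ρ 11.2 with h1 | h1
    · exact jmono ρ ⟨hρ.1, h1⟩
    · have h2 := (jg ρ (by linarith)).2
      have h3 := (le_abs_self _).trans (Good.abs_sf_le hρ (jlow ρ hρ) (hder ρ hρ))
      have hP0 : 0 ≤ Pf (m j) (G j) ρ := by unfold Pf; positivity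
      have hP : Pf (m j) (G j) ρ ≤ 2 * (m j : ℝ) * θ ^ (2 * m j) := by unfold Pf; gcongr
      have h4 : (m j : ℝ) * sf (G j) ρ * Pf (m j) (G j) ρ
          ≤ (m j : ℝ) * (32 * C₀) * (2 * (m j : ℝ) * θ ^ (2 * m j)) :=
        (mul_le_mul_of_nonneg_right (mul_le_mul_of_nonneg_left h3 (Nat.cast_nonneg _)) hP0).trans
          (by gcongr)
      have h5 : (m j : ℝ) * (32 * C₀) * (2 * (m j : ℝ) * θ ^ (2 * m j))
          ≤ (2 * (m j : ℝ) + 1) ^ 2 * θ ^ (2 * m j) * (32 * C₀) := by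
        have e : (m j : ℝ) * (32 * C₀) * (2 * (m j : ℝ) * θ ^ (2 * m j))
            = (2 * (m j : ℝ) ^ 2) * θ ^ (2 * m j) * (32 * C₀) := by ring
        rw [e]
        gcongr
        nlinarith [(Nat.cast_nonneg (m j) : (0 : ℝ) ≤ m j)]
      have h6 : 0 ≤ ε * Pf (m j) (G j) ρ := by positivity
      linarith
  · have := Good.tv_le (G := G j) (K := 60 * C₀ ^ 2) (a := 4 * Z - δ) (b := 4 * Z + 2 * δ)
      (fun ρ hρ => Good.abs_deriv_sf_le (h.prof j) jm jβ hC₀ hρ (hup ρ hρ) (jlow ρ hρ) (hder ρ hρ))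
      (by linarith) (by linarith) (by linarith)
    nlinarith
  · have := jC₁ ρ (by linarith)
    rwa [iteratedDeriv_one, Nat.cast_one] at this

end Vale.Agent.P139Z
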