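import Vale.Agent.P139Z.IntM
import Vale.Agent.P139Z.ExtX
import Vale.Agent.P139Z.Good
import Vale.Agent.P139Z.Free
import Vale.Agent.P139Z.BF.Bdry

/-! Bounded frequencies: compactness along the family. -/

open Set Filter Topology MeasureTheory Complex
open scoped NNReal ENNReal ComplexConjugate ContDiff

namespace Vale.Agent.P139Z

namespace BF

/-- The data of a solution at `ρ = 16`, with the coefficients of its source. -/
noncomputable def dat (l : ℕ) (f g : ℝ → ℂ) (c₀ c₁ c₂ : ℂ) : ℂ × ℂ × ℂ × ℂ × ℂ × ℂ × ℂ :=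
  (red l f 16, deriv (red l f) 16, red l g 16, deriv (red l g) 16, c₀, c₁, c₂)

/-- The data of the symmetry modes. -/
noncomputable def modeV (Λ : ℂ) (G : ℝ → ℂ) (l : ℕ) (lam : ℂ) (a : ℂ × ℂ × ℂ) :
    ℂ × ℂ × ℂ × ℂ × ℂ × ℂ × ℂ :=
  (iteratedDeriv 0 (gen Λ G l a.1 a.2.1 a.2.2) 16, iteratedDeriv 1 (gen Λ G l a.1 a.2.1 a.2.2) 16,
    conj (iteratedDeriv 0 (gen Λ G l (conj a.1) (conj a.2.1) (conj a.2.2)) 16),
    conj (iteratedDeriv 1 (gen Λ G l (conj a.1) (conj a.2.1) (conj a.2.2)) 16),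
    if l = 0 then -(lam * a.1) else 0, if l = 0 then -((lam - 1) * a.2.1) else 0,
    if l = 1 then -((lam - 1 / 2) * a.2.2) else 0)

theorem modeV_lin (Λ : ℂ) {G : ℝ → ℂ} (hG : ContDiffOn ℝ ∞ G (Ioi 0)) (l : ℕ) (lam : ℂ) :
    IsLinearMap ℂ (modeV Λ G l lam) := by
  have h16 : (0 : ℝ) < 16 := by norm_num
  constructor
  · intro a b
    simp only [modeV, iter_gen Λ hG l _ _ _ _ h16, Prod.mk_add_mk, Prod.fst_add, Prod.snd_add,
      Prod.mk.injEq]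
    split_ifs <;> simp only [map_add, map_mul, map_zero] <;>
      refine ⟨?_, ?_, ?_, ?_, ?_, ?_, ?_⟩ <;> ring
  · intro t a
    simp only [modeV, iter_gen Λ hG l _ _ _ _ h16, Prod.smul_mk, Prod.smul_fst, Prod.smul_snd,
      Prod.mk.injEq, smul_eq_mul]
    split_ifs <;> simp only [map_add, map_mul, map_zero, conj_conj] <;>
      refine ⟨?_, ?_, ?_, ?_, ?_, ?_, ?_⟩ <;> ring

theorem dat_mode {m : ℕ} {β : ℝ} {G : ℝ → ℂ} (hG : IsProfile m β G) (l : ℕ) (lam : ℂ)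
    (a : ℂ × ℂ × ℂ) : dat l (symF m β G l a.1 a.2.1 a.2.2) (symG m β G l a.1 a.2.1 a.2.2)
      (if l = 0 then -(lam * a.1) else 0) (if l = 0 then -((lam - 1) * a.2.1) else 0)
      (if l = 1 then -((lam - 1 / 2) * a.2.2) else 0) = modeV (Lam m β) G l lam a := by
  have h16 : (0 : ℝ) < 16 := by norm_num
  have e₁ : red l (symF m β G l a.1 a.2.1 a.2.2) =ᶠ[𝓝 16] gen (Lam m β) G l a.1 a.2.1 a.2.2 := by
    filter_upwards [Ioi_mem_nhds h16] with x hx using red_F hG l _ _ _ hx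
  have e₂ : red l (symG m β G l a.1 a.2.1 a.2.2) =ᶠ[𝓝 16] fun x =>
      conj (gen (Lam m β) G l (conj a.1) (conj a.2.1) (conj a.2.2) x) := by
    filter_upwards [Ioi_mem_nhds h16] with x hx using red_G hG l _ _ _ hx
  simp only [dat, modeV, iteratedDeriv_zero, iteratedDeriv_one]
  rw [e₁.deriv_eq, e₂.deriv_eq, e₁.eq_of_nhds, e₂.eq_of_nhds, deriv_cj]

theorem dat_comb {m : ℕ} {β : ℝ} {G : ℝ → ℂ} (hG : IsProfile m β G) {l : ℕ} {lam : ℂ}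
    {f g f' g' : ℝ → ℂ} {c₀ c₁ c₂ d₀ d₁ d₂ : ℂ} (h : Sol m β G l lam f g c₀ c₁ c₂)
    (h' : Sol m β G l lam f' g' d₀ d₁ d₂) (t : ℂ) :
    dat l (fun r => t * (f r - f' r)) (fun r => t * (g r - g' r)) (t * (c₀ - d₀)) (t * (c₁ - d₁))
      (t * (c₂ - d₂)) = t • (dat l f g c₀ c₁ c₂ - dat l f' g' d₀ d₁ d₂) := by
  have h16 : (0 : ℝ) < 16 := by norm_num
  simp only [dat, red_mul, red_sub, deriv_const_mul_field', Prod.mk_sub_mk, Prod.smul_mk,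
    smul_eq_mul]
  rw [deriv_fun_sub (h.diffF hG h16) (h'.diffF hG h16),
    deriv_fun_sub (h.diffG hG h16) (h'.diffG hG h16)]

theorem normalize {m : ℕ} {β : ℝ} {G : ℝ → ℂ} (hm : 1 ≤ m) (hG : IsProfile m β G) {l : ℕ} {lam : ℂ}
    (h : ¬ MSat m β G l lam) : ∃ (f g : ℝ → ℂ) (c₀ c₁ c₂ : ℂ), Sol m β G l lam f g c₀ c₁ c₂ ∧
      ‖dat l f g c₀ c₁ c₂‖ ≤ 2 ∧ (∀ b, 1 ≤ ‖dat l f g c₀ c₁ c₂ - modeV (Lam m β) G l lam b‖) ∧
      (l ≠ 0 → c₀ = 0 ∧ c₁ = 0) ∧ (l ≠ 1 → c₂ = 0) := by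
  by_contra hn
  refine h fun f g bf bg c₀ c₁ c₂ e => ?_
  have s : Sol m β G l lam f g c₀ c₁ c₂ := ⟨bf, bg, fun r hr => (e r hr).1, fun r hr => (e r hr).2⟩
  have s' := s.proj
  have sm := fun a : ℂ × ℂ × ℂ => (Sol.mode hm hG l lam a.1 a.2.1 a.2.2).proj
  by_cases hv : ∀ a, dat l f g (if l = 0 then c₀ else 0) (if l = 0 then c₁ else 0)
      (if l = 1 then c₂ else 0) ≠ modeV (Lam m β) G l lam a
  · obtain ⟨t, a, h₁, h₂⟩ := riesz (modeV_lin (Lam m β) (prof_on hG) l lam) hv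
    rw [← dat_mode hG, ← dat_comb hG s' (sm a)] at h₁ h₂
    exact (hn ⟨_, _, _, _, _, s'.comb (sm a) t, h₁, h₂, fun hl => by simp [hl],
      fun hl => by simp [hl]⟩).elim
  · obtain ⟨a, ha⟩ := not_forall.1 hv
    have h₁ := dat_comb hG s' (sm a) 1
    have h₂ := s'.comb (sm a) 1
    rw [dat_mode hG, not_not.1 ha, sub_self, smul_zero] at h₁
    simp only [dat, Prod.mk_eq_zero] at h₁
    obtain ⟨k₀, k₁, k₂, k₃, k₄, k₅, k₆⟩ := h₁
    rw [k₄, k₅, k₆] at h₂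
    refine ⟨a.1, a.2.1, a.2.2, fun r hr => ?_⟩
    have h₃ := h₂.zero hG k₀ k₁ k₂ k₃ r hr
    simpa only [one_mul, sub_eq_zero] using h₃

variable {m : ℕ → ℕ} {β : ℕ → ℝ} {G : ℕ → ℝ → ℂ} {βi Z : ℝ} {U : ℝ → ℂ} {l : ℕ} {K : ℝ}
  {lam : ℕ → ℂ} {lami : ℂ} {f g : ℕ → ℝ → ℂ} {c₀ c₁ c₂ : ℕ → ℂ} {d₀ d₁ d₂ : ℂ} {F H : ℝ → ℂ}

theorem Seq.limit (s : Seq m β G βi Z U l K lam lami f g c₀ c₁ c₂ d₀ d₁ d₂ F H)
    (hs : LimStable βi Z U) (h₀ : l ≠ 0 → d₀ = 0 ∧ d₁ = 0) (h₁ : l ≠ 1 → d₂ = 0) :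
    ∃ a, (F 16, deriv F 16, conj (H 16), conj (deriv H 16), d₀, d₁, d₂)
      = modeV (-I * βi) U l lami a := by
  have hre : 0 ≤ lami.re := ge_of_tendsto' ((Complex.continuous_re.tendsto _).comp s.tl) s.re
  obtain ⟨a₀, a₁, a₂, ha⟩ := hs l lami hre F H s.sF s.sH d₀ d₁ d₂ s.eF s.eH s.weakOut.1
    s.weakOut.2 s.bdry.1 s.bdry.2
  have eF : ∀ ρ : ℝ, 0 < ρ → F =ᶠ[𝓝 ρ] gen (-I * βi) U l a₀ a₁ a₂ := fun ρ hρ => by
    filter_upwards [Ioi_mem_nhds hρ] with x hx using (ha x hx).1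
  have eH : ∀ ρ : ℝ, 0 < ρ → H =ᶠ[𝓝 ρ] gen (-I * βi) U l (conj a₀) (conj a₁) (conj a₂) :=
    fun ρ hρ => by filter_upwards [Ioi_mem_nhds hρ] with x hx using (ha x hx).2
  have hz := gen_indep s.fam.lim (l := l) (c₀ := d₀ + lami * a₀) (c₁ := d₁ + (lami - 1) * a₁)
    (c₂ := d₂ + (lami - 1 / 2) * a₂) fun ρ hρ => by
      have k₁ := s.eF ρ hρ
      have k₂ := Mop_gen s.fam.lim.symb.smooth s.fam.lim.ode l lami a₀ a₁ a₂ hρ
      rw [Mop_congr _ _ (eF ρ hρ), sub_eq_add_neg, ← neg_mul, k₂, limF_eq] at k₁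
      have k₃ := mul_left_cancel₀ (neg_ne_zero.2 I_ne_zero) k₁
      unfold gen at k₃ ⊢
      split_ifs at k₃ ⊢
      · linear_combination -k₃
      · linear_combination -k₃
      · rfl
  have h16 : (0 : ℝ) < 16 := by norm_num
  refine ⟨(a₀, a₁, a₂), ?_⟩
  simp only [modeV, iteratedDeriv_zero, iteratedDeriv_one, Prod.mk.injEq]
  refine ⟨(eF 16 h16).eq_of_nhds, (eF 16 h16).deriv_eq, by rw [(eH 16 h16).eq_of_nhds],
    by rw [(eH 16 h16).deriv_eq], ?_, ?_, ?_⟩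
  · split_ifs with hl
    · exact eq_neg_of_add_eq_zero_left (hz.1 hl).1
    · exact (h₀ hl).1
  · split_ifs with hl
    · exact eq_neg_of_add_eq_zero_left (hz.1 hl).2
    · exact (h₀ hl).2
  · split_ifs with hl
    · exact eq_neg_of_add_eq_zero_left (hz.2 hl)
    · exact h₁ hl

theorem tendsto_modeV (h : IsFamily m β G βi Z U) (hm : ∀ n, 1 ≤ m n)
    (hl : Tendsto lam atTop (𝓝 lami)) (l : ℕ) (a : ℂ × ℂ × ℂ) :
    Tendsto (fun n => modeV (Lam (m n) (β n)) (G n) l (lam n) a) atTop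
      (𝓝 (modeV (-I * βi) U l lami a)) := by
  have h16 : (0 : ℝ) < 16 := by norm_num
  have hZ : 4 * Z < 16 := by linarith [h.lim.inZ.2]
  have k : ∀ (x y z : ℂ) (i : ℕ), i ≤ 1 → Tendsto (fun n => iteratedDeriv i
      (gen (Lam (m n) (β n)) (G n) l x y z) 16) atTop
      (𝓝 (iteratedDeriv i (gen (-I * βi) U l x y z) 16)) := fun x y z i hi =>
    tendsto_gen h16 (tendsto_Lam h) tendsto_const_nhds tendsto_const_nhds tendsto_const_nhds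
      (fun n => prof_on (h.prof n)) h.lim.symb.smooth (G_tendsto h hm hZ (by omega))
      (G_tendsto h hm hZ (by omega)) l
  refine (k _ _ _ 0 zero_le_one).prodMk_nhds ((k _ _ _ 1 le_rfl).prodMk_nhds
    ((tcj (k _ _ _ 0 zero_le_one)).prodMk_nhds ((tcj (k _ _ _ 1 le_rfl)).prodMk_nhds
    (Tendsto.prodMk_nhds ?_ (Tendsto.prodMk_nhds ?_ ?_)))))
  · split_ifs
    · exact (hl.mul_const _).neg
    · exact tendsto_const_nhds
  · split_ifs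
    · exact ((hl.sub_const _).mul_const _).neg
    · exact tendsto_const_nhds
  · split_ifs
    · exact ((hl.sub_const _).mul_const _).neg
    · exact tendsto_const_nhds

end BF

open BF in
theorem msat_bounded {m : ℕ → ℕ} {β : ℕ → ℝ} {G : ℕ → ℝ → ℂ} {βi Z : ℝ} {U : ℝ → ℂ}
    (h : IsFamily m β G βi Z U) (hs : LimStable βi Z U) (l : ℕ) (K : ℝ) :
    ∀ᶠ j in atTop, ∀ lam : ℂ, 0 ≤ lam.re → ‖lam‖ ≤ K → MSat (m j) (β j) (G j) l lam := by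
  by_contra hn
  obtain ⟨φ, hφ, hφ'⟩ := extraction_of_frequently_atTop
    ((not_eventually.1 hn).and_eventually (h.m_tendsto.eventually_ge_atTop 1))
  have h1 : ∀ n, ∃ lam : ℂ, 0 ≤ lam.re ∧ ‖lam‖ ≤ K ∧ ¬ MSat (m (φ n)) (β (φ n)) (G (φ n)) l lam :=
    fun n => by simpa only [not_forall, exists_prop] using (hφ' n).1
  choose lam hre hbd hms using h1
  choose f g c₀ c₁ c₂ sol hb hd hp₀ hp₁ using
    fun n => normalize (hφ' n).2 (h.prof (φ n)) (hms n)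
  obtain ⟨⟨lami, y₀, y₁, y₂, y₃, d₀, d₁, d₂⟩, -, ψ, hψ, ht⟩ := tendsto_subseq_of_bounded
    (Metric.isBounded_closedBall (x := (0 : ℂ × ℂ × ℂ × ℂ × ℂ × ℂ × ℂ × ℂ)) (r := max K 2))
    (x := fun n => (lam n, dat l (f n) (g n) (c₀ n) (c₁ n) (c₂ n))) fun n => by
      rw [mem_closedBall_zero_iff, Prod.norm_mk]
      exact max_le_max (hbd n) (hb n)
  have tl := ht.fst_nhds
  have tv := ht.snd_nhds
  have fam := comp_family h (hφ.comp hψ).tendsto_atTop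
  have sU := h.lim.symb.smooth
  have h16 : (0 : ℝ) < 16 := by norm_num
  obtain ⟨F, sF, eF, F₀, F₁⟩ := exists_free (l / 2 + lami - I * βi) (6 + l)
    (S := fun ρ => -I * limF βi U l d₀ d₁ d₂ ρ)
    (contDiffOn_const.mul (contDiffOn_gen _ sU l _ _ _)) h16 y₀ y₁
  obtain ⟨H, sH, eH, H₀, H₁⟩ := exists_free (l / 2 + conj lami - I * βi) (6 + l)
    (S := fun ρ => -I * limF βi U l (conj d₀) (conj d₁) (conj d₂) ρ)
    (contDiffOn_const.mul (contDiffOn_gen _ sU l _ _ _)) h16 (conj y₂) (conj y₃)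
  have t₀ := tv.snd_nhds.snd_nhds.snd_nhds.snd_nhds.fst_nhds
  have t₁ := tv.snd_nhds.snd_nhds.snd_nhds.snd_nhds.snd_nhds.fst_nhds
  have t₂ := tv.snd_nhds.snd_nhds.snd_nhds.snd_nhds.snd_nhds.snd_nhds
  have s : Seq (fun n => m (φ (ψ n))) (fun n => β (φ (ψ n))) (fun n => G (φ (ψ n))) βi Z U l
      (max K l) (fun n => lam (ψ n)) lami (fun n => f (ψ n)) (fun n => g (ψ n))
      (fun n => c₀ (ψ n)) (fun n => c₁ (ψ n)) (fun n => c₂ (ψ n)) d₀ d₁ d₂ F H :=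
    ⟨fam, fun n => (hφ' _).2, fun n => hre _, fun n => (hbd _).trans (le_max_left _ _),
      le_max_right _ _, tl, fun n => sol _, t₀, t₁, t₂, sF, sH, eF, eH, F₀ ▸ tv.fst_nhds,
      F₁ ▸ tv.snd_nhds.fst_nhds, H₀ ▸ tcj tv.snd_nhds.snd_nhds.fst_nhds,
      H₁ ▸ tcj tv.snd_nhds.snd_nhds.snd_nhds.fst_nhds⟩
  obtain ⟨a, ha⟩ := s.limit hs
    (fun hl => ⟨tendsto_nhds_unique s.t₀ (tendsto_const_nhds.congr fun n => ((hp₀ _ hl).1).symm),
      tendsto_nhds_unique s.t₁ (tendsto_const_nhds.congr fun n => ((hp₀ _ hl).2).symm)⟩)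
    (fun hl => tendsto_nhds_unique s.t₂ (tendsto_const_nhds.congr fun n => (hp₁ _ hl).symm))
  rw [F₀, F₁, H₀, H₁, conj_conj, conj_conj] at ha
  have tm := tendsto_modeV fam s.one s.tl l a
  rw [← ha] at tm
  have tz := (tv.sub tm).norm
  rw [sub_self, norm_zero] at tz
  have := ge_of_tendsto' tz fun n => hd (ψ n) a
  linarith

end Vale.Agent.P139Z
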