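import Vale.Agent.P139Z.Nrm
import Vale.Agent.P139Z.Persist.Emb
import Vale.Agent.P139Z.Persist.Mult

/-!
Block PERSIST: persistence of regularity.
-/

open Set Filter Topology MeasureTheory Complex
open scoped NNReal ENNReal ComplexConjugate ContDiff

namespace Vale.Agent.P139Z

open Vale.Agent.P139 Vale.Agent.P139.A Vale.Agent.P139.A.WA

variable {d k : ℕ}

namespace Persist

/-- The equation in the interaction picture, as an equation in the Wiener algebra. -/
theorem duhamel {m : ℕ} {T : ℝ} {U : ℝ → WA d k} (hU : IsWSol m T U) {t : ℝ}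
    (ht : t ∈ Icc 0 T) :
    HasDerivWithinAt (fun s => Ug (-s) (U s)) (Ug (-t) ((-I) • nl m (U t))) (Icc 0 T) t := by
  have hT : 0 ≤ T := ht.1.trans ht.2
  have hG : ContinuousOn (fun s => Ug (-s) ((-I) • nl m (U s))) (Icc 0 T) :=
    continuousOn_Ug_neg (((continuous_nl m).comp_continuousOn hU.cont).const_smul (-I))
  let G : ℝ → WA d k := IccExtend hT ((Icc 0 T).domRestrict fun s => Ug (-s) ((-I) • nl m (U s)))
  have hGc : Continuous G := hG.domRestrict.Icc_extend'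
  have hGt : ∀ s ∈ Icc 0 T, G s = Ug (-s) ((-I) • nl m (U s)) := fun s hs => by
    simp only [G, IccExtend_of_mem hT _ hs, domRestrict_apply]
  have hc : ∀ n, ∀ s ∈ Icc 0 T, HasDerivWithinAt (fun s => coef (Ug (-s) (U s)) n)
      (coef (G s) n) (Icc 0 T) s := by
    intro n s hs
    simp_rw [coef_Ug]
    have h1 : HasDerivAt (fun s : ℝ => cexp (-(I * sqNorm n * ((-s : ℝ) : ℂ))))
        (cexp (-(I * sqNorm n * ((-s : ℝ) : ℂ))) * (I * sqNorm n)) s := by
      have h2 : HasDerivAt (fun s : ℝ => -(I * sqNorm n * ((-s : ℝ) : ℂ))) (I * sqNorm n) s := by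
        have h3 := (((hasDerivAt_id s).neg.ofReal_comp).const_mul (I * sqNorm n)).neg
        refine h3.congr_deriv ?_
        simp
      exact h2.cexp
    refine ((h1.hasDerivWithinAt (s := Icc 0 T)).mul (hU.eqn s hs n)).congr_deriv ?_
    rw [hGt s hs, coef_Ug, coef_smul]
    ring
  have key : ∀ s ∈ Icc 0 T, Ug (-s) (U s) = Ug (-0) (U 0) + ∫ r in (0 : ℝ)..s, G r := by
    intro s hs
    ext n
    rw [coef_add]
    have h1 : coef (∫ r in (0 : ℝ)..s, G r) n = ∫ r in (0 : ℝ)..s, coef (G r) n :=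
      ((coefR n).intervalIntegral_comp_comm (hGc.intervalIntegrable _ _)).symm
    have hsub : Icc 0 s ⊆ Icc 0 T := Icc_subset_Icc_right hs.2
    have h2 : ∫ r in (0 : ℝ)..s, coef (G r) n
        = coef (Ug (-s) (U s)) n - coef (Ug (-0) (U 0)) n := by
      refine intervalIntegral.integral_eq_sub_of_hasDeriv_right_of_le
        (f := fun s => coef (Ug (-s) (U s)) n) hs.1
        (fun r hr => ((hc n r (hsub hr)).continuousWithinAt).mono hsub) (fun r hr => ?_)
        (((coefR n).continuous.comp hGc).intervalIntegrable _ _)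
      have h3 : Icc 0 T ∈ 𝓝 r := Icc_mem_nhds hr.1 (hr.2.trans_le hs.2)
      exact ((hc n r (hsub (Ioo_subset_Icc_self hr))).hasDerivAt h3).hasDerivWithinAt
    rw [h1, h2]
    ring
  have h4 : HasDerivAt (fun s => Ug (-0) (U 0) + ∫ r in (0 : ℝ)..s, G r) (G t) t :=
    (intervalIntegral.integral_hasDerivAt_right (hGc.intervalIntegrable _ _)
      (hGc.stronglyMeasurableAtFilter _ _) hGc.continuousAt).const_add _
  rw [← hGt t ht]
  exact h4.hasDerivWithinAt.congr key (key t ht)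

/-- Uniform bound in the truncated norms. -/
theorem gronwall_P {m : ℕ} {T : ℝ} {U : ℝ → WA d k} (hU : IsWSol m T U) (j : ℕ) :
    ∃ C : ℝ, 0 ≤ C ∧ ∀ M : ℝ≥0, ∀ t ∈ Icc 0 T, ‖P j M (U t)‖ ≤ C * ‖P j M (U 0)‖ := by
  obtain ⟨R, hR⟩ := isCompact_Icc.exists_bound_of_continuousOn hU.cont
  obtain ⟨K, hK0, hK⟩ := tame_nl (d := d) (k := k) j m (le_max_right R 0)
  refine ⟨Real.exp (K * T), by positivity, fun M t ht => ?_⟩
  have hd : ∀ s ∈ Icc 0 T, HasDerivWithinAt (fun s => P j M (Ug (-s) (U s)))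
      (P j M (Ug (-s) ((-I) • nl m (U s)))) (Icc 0 T) s := fun s hs =>
    (P j M).hasFDerivAt.comp_hasDerivWithinAt s (duhamel hU hs)
  have h1 := norm_le_gronwallBound_of_norm_deriv_right_le (K := K) (ε := 0)
    (δ := ‖P j M (U 0)‖) (a := 0) (b := T) (fun s hs => (hd s hs).continuousWithinAt)
    (fun s hs => (hd s (Ico_subset_Icc_self hs)).mono_of_mem_nhdsWithin
      (Icc_mem_nhdsGE_of_mem hs))
    (by rw [norm_P_Ug]) (fun s hs => by
      rw [norm_P_Ug, norm_P_Ug, norm_P_smul, norm_neg, Complex.norm_I, one_mul, add_zero]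
      exact hK M _ ((hR s (Ico_subset_Icc_self hs)).trans (le_max_left _ _))) t ht
  rw [norm_P_Ug, gronwallBound_ε0, sub_zero, mul_comm] at h1
  refine h1.trans ?_
  gcongr
  exact ht.2

theorem isWSol_of {m k' : ℕ} {T : ℝ} {u : ℝ → Lat d → ℂ}
    (hu : IsSolution d (2 * m + 1) k' T u) {U : ℝ → WA d k} (hc : ContinuousOn U (Icc 0 T))
    (h : ∀ t ∈ Icc 0 T, ∀ n, coef (U t) n = u t n) : IsWSol m T U where
  cont := hc
  eqn t ht n := by
    obtain ⟨v, hv, he⟩ := hu.eqn t ht n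
    have h1 : coef (U t) = u t := funext (h t ht)
    rw [Nat.add_sub_cancel, ← h1, ← coef_nl] at he
    refine (hv.congr (fun s hs => h s hs n) (h t ht n)).congr_deriv ?_
    have := Complex.I_sq
    linear_combination (-I) * he + v * this

open Classical in
/-- The curve with given coefficients. -/
noncomputable def lift (k : ℕ) (u : ℝ → Lat d → ℂ) (t : ℝ) : WA d k :=
  if h : Summable fun n => W k n * ‖u t n‖ then mk (u t) h else 0

theorem coef_lift {u : ℝ → Lat d → ℂ} {t : ℝ} (h : Summable fun n => W k n * ‖u t n‖)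
    (n : Lat d) : coef (lift k u t) n = u t n := by
  unfold lift
  rw [dif_pos h, coef_mk]

theorem W_zero_eq (n : Lat d) : W 0 n = 1 := by unfold W; rw [pow_zero]

theorem W_interp (k : ℕ) {L : ℝ} (hL : 0 < L) (n : Lat d) :
    W k n ≤ L ^ k + L⁻¹ * W (k + 1) n := by
  have h0 : 0 < 1 + ‖n‖ := by positivity
  unfold W
  rcases le_total (1 + ‖n‖) L with h | h
  · have h1 : (1 + ‖n‖) ^ k ≤ L ^ k := by gcongr
    have h2 : 0 ≤ L⁻¹ * (1 + ‖n‖) ^ (k + 1) := by positivity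
    linarith
  · have h1 : 1 ≤ L⁻¹ * (1 + ‖n‖) := by
      rw [← div_eq_inv_mul, le_div_iff₀ hL, one_mul]
      exact h
    have h2 : 0 ≤ L ^ k := by positivity
    have h3 : (1 + ‖n‖) ^ k * 1 ≤ (1 + ‖n‖) ^ k * (L⁻¹ * (1 + ‖n‖)) := by gcongr
    rw [pow_succ]
    nlinarith

end Persist

open Persist

/-- Persistence of regularity. -/
theorem exists_isWSol {m k' : ℕ} (hk' : d < 2 * k') {T : ℝ} {u : ℝ → Lat d → ℂ}
    (hu : IsSolution d (2 * m + 1) k' T u) (k : ℕ)
    (h0 : Summable fun n => W (k + 1) n * ‖u 0 n‖) :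
    ∃ U : ℝ → WA d k, IsWSol m T U ∧ ∀ t ∈ Icc 0 T, ∀ n, coef (U t) n = u t n := by
  rcases lt_or_ge T 0 with hT | hT
  · refine ⟨fun _ => 0, ⟨continuousOn_const, fun t ht => ?_⟩, fun t ht => ?_⟩ <;>
      exact absurd (ht.1.trans ht.2) (not_le.2 hT)
  have hz : (0 : ℝ) ∈ Icc 0 T := ⟨le_rfl, hT⟩
  have hs0 : ∀ t ∈ Icc 0 T, Summable fun n => ‖u t n‖ := fun t ht =>
    summable_of_memSobolev hk' (hu.mem t ht)
  have hc0 : ∀ t ∈ Icc 0 T, ∀ n, coef (lift 0 u t) n = u t n := fun t ht n =>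
    coef_lift (by simpa only [W_zero_eq, one_mul] using hs0 t ht) n
  have hcont0 : ContinuousOn (lift 0 u) (Icc 0 T) := by
    intro t ht
    rw [ContinuousWithinAt, tendsto_iff_norm_sub_tendsto_zero]
    refine (tendsto_tsum_norm hk' hu ht).congr' ?_
    filter_upwards [self_mem_nhdsWithin] with s hs
    rw [WA.norm_eq]
    exact tsum_congr fun n => by rw [W_zero_eq, one_mul, coef_sub, hc0 s hs, hc0 t ht]
  obtain ⟨C, hC0, hC⟩ := gronwall_P (isWSol_of hu hcont0 hc0) (k + 1)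
  set B : ℝ := C * ∑' n, W (k + 1) n * ‖u 0 n‖ with hB
  have hfin : ∀ t ∈ Icc 0 T, ∀ S : Finset (Lat d), ∑ n ∈ S, W (k + 1) n * ‖u t n‖ ≤ B := by
    intro t ht S
    let M : ℝ≥0 := ⟨∑ n ∈ S, W (k + 1) n, Finset.sum_nonneg fun n _ => (W_pos n).le⟩
    have h1 : ∑ n ∈ S, W (k + 1) n * ‖u t n‖
        = ∑ n ∈ S, W 0 n * ‖coef (P (k + 1) M (lift 0 u t)) n‖ := by
      refine Finset.sum_congr rfl fun n hn => ?_
      have h2 : W (k + 1) n ≤ (M : ℝ) :=
        Finset.single_le_sum (f := fun n => W (k + 1) n) (fun n _ => (W_pos n).le) hn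
      rw [W_zero_eq, one_mul, norm_coef_P, hc0 t ht, tw, min_eq_left h2]
    have h3 : ∑ n ∈ S, W 0 n * ‖coef (P (k + 1) M (lift 0 u t)) n‖
        ≤ ‖P (k + 1) M (lift 0 u t)‖ := by
      rw [WA.norm_eq]
      exact (WA.summable _).sum_le_tsum _ fun n _ => mul_nonneg (W_pos n).le (norm_nonneg _)
    have h4 : ‖P (k + 1) M (lift 0 u 0)‖ ≤ ∑' n, W (k + 1) n * ‖u 0 n‖ := by
      rw [WA.norm_eq]
      refine (WA.summable _).tsum_le_tsum (fun n => ?_) h0
      rw [W_zero_eq, one_mul, norm_coef_P, hc0 0 hz]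
      exact mul_le_mul_of_nonneg_right (tw_le_W _ _ _) (norm_nonneg _)
    rw [h1]
    exact h3.trans ((hC M t ht).trans (mul_le_mul_of_nonneg_left h4 hC0))
  have hs1 : ∀ t ∈ Icc 0 T, Summable fun n => W (k + 1) n * ‖u t n‖ := fun t ht =>
    summable_of_sum_le (fun n => mul_nonneg (W_pos n).le (norm_nonneg _)) (hfin t ht)
  have hb1 : ∀ t ∈ Icc 0 T, ∑' n, W (k + 1) n * ‖u t n‖ ≤ B := fun t ht =>
    (hs1 t ht).tsum_le_of_sum_le (hfin t ht)
  have hB0 : 0 ≤ B := by simpa using hfin 0 hz ∅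
  have hsk : ∀ t ∈ Icc 0 T, Summable fun n => W k n * ‖u t n‖ := fun t ht => by
    refine Summable.of_nonneg_of_le (fun n => mul_nonneg (W_pos n).le (norm_nonneg _))
      (fun n => ?_) (hs1 t ht)
    refine mul_le_mul_of_nonneg_right ?_ (norm_nonneg _)
    unfold W
    exact pow_le_pow_right₀ (by linarith [norm_nonneg n]) (Nat.le_succ k)
  have hck : ∀ t ∈ Icc 0 T, ∀ n, coef (lift k u t) n = u t n := fun t ht n =>
    coef_lift (hsk t ht) n
  refine ⟨lift k u, isWSol_of hu ?_ hck, hck⟩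
  intro t ht
  rw [ContinuousWithinAt, tendsto_iff_norm_sub_tendsto_zero, Metric.tendsto_nhds]
  intro η hη
  set L : ℝ := 4 * (B + 1) / η with hL
  have hL0 : 0 < L := by positivity
  have h1 := (tendsto_tsum_norm hk' hu ht).const_mul (L ^ k)
  rw [mul_zero] at h1
  filter_upwards [h1.eventually (gt_mem_nhds (by positivity : (0 : ℝ) < η / 2)),
    self_mem_nhdsWithin] with s hs hsI
  rw [Real.dist_eq, sub_zero, abs_of_nonneg (norm_nonneg _), WA.norm_eq]
  have hd : Summable fun n => ‖u s n - u t n‖ :=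
    Summable.of_nonneg_of_le (fun _ => norm_nonneg _) (fun n => norm_sub_le _ _)
      ((hs0 s hsI).add (hs0 t ht))
  have h2 : ∀ n, W k n * ‖coef (lift k u s - lift k u t) n‖ ≤ L ^ k * ‖u s n - u t n‖
      + L⁻¹ * (W (k + 1) n * ‖u s n‖ + W (k + 1) n * ‖u t n‖) := by
    intro n
    rw [coef_sub, hck s hsI, hck t ht]
    have h3 := W_interp k hL0 n
    have h4 := norm_sub_le (u s n) (u t n)
    have h5 := (W_pos (k := k + 1) n).le
    calc W k n * ‖u s n - u t n‖ ≤ (L ^ k + L⁻¹ * W (k + 1) n) * ‖u s n - u t n‖ := by gcongr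
      _ = L ^ k * ‖u s n - u t n‖ + L⁻¹ * W (k + 1) n * ‖u s n - u t n‖ := by ring
      _ ≤ L ^ k * ‖u s n - u t n‖ + L⁻¹ * W (k + 1) n * (‖u s n‖ + ‖u t n‖) := by gcongr
      _ = _ := by ring
  have h6 := (WA.summable _).tsum_le_tsum h2
    ((hd.mul_left _).add (((hs1 s hsI).add (hs1 t ht)).mul_left _))
  rw [(hd.mul_left _).tsum_add (((hs1 s hsI).add (hs1 t ht)).mul_left _), tsum_mul_left,
    tsum_mul_left, (hs1 s hsI).tsum_add (hs1 t ht)] at h6
  have h7 : L⁻¹ * (∑' n, W (k + 1) n * ‖u s n‖ + ∑' n, W (k + 1) n * ‖u t n‖) ≤ η / 2 := by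
    calc _ ≤ L⁻¹ * (B + B) := by gcongr; exacts [hb1 s hsI, hb1 t ht]
      _ ≤ η / 2 := by
        rw [hL, inv_div, div_mul_eq_mul_div, div_le_div_iff₀ (by positivity) (by positivity)]
        nlinarith
  linarith

end Vale.Agent.P139Z
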