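import Vale.Agent.P139Z.Step
import Vale.Agent.P139Z.Persist

/-!
Block BLOW: iteration of the one-step contraction.
-/

open Set Filter Topology MeasureTheory Complex
open scoped NNReal ENNReal ComplexConjugate ContDiff

namespace Vale.Agent.P139Z

open Vale.Agent.P139 Vale.Agent.P139.A Vale.Agent.P139.A.WA XW

variable {d m : ℕ}

namespace Blow

variable {k : ℕ}

theorem expi_add_right (n : Lat d) (x y : Fin d → ℝ) : expi n (x + y) = expi n x * expi n y := by
  unfold expi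
  rw [← Complex.exp_add, ← mul_add, ← Finset.sum_add_distrib]
  congr 2
  refine Finset.sum_congr rfl fun j _ => ?_
  simp only [Pi.add_apply, Complex.ofReal_add]
  ring

theorem ev_shift (x : Fin d → ℝ) (a : WA d k) (y : Fin d → ℝ) :
    WA.ev (shift x a) y = WA.ev a (x + y) := by
  unfold WA.ev series
  refine tsum_congr fun n => ?_
  rw [coef_shift, expi_add_right]
  ring

theorem shift_shift (x y : Fin d → ℝ) (a : WA d k) : shift x (shift y a) = shift (x + y) a := by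
  ext n
  rw [coef_shift, coef_shift, coef_shift, expi_add_right]
  ring

theorem shift_zero (a : WA d k) : shift 0 a = a := by
  ext n
  rw [coef_shift]
  simp [expi]

theorem norm_shift (x : Fin d → ℝ) (a : WA d k) : ‖shift x a‖ = ‖a‖ :=
  Persist.norm_congr fun n => by rw [coef_shift, norm_mul, norm_expi, one_mul]

theorem nl_shift (x : Fin d → ℝ) (a : WA d k) : nl m (shift x a) = shift x (nl m a) := by
  rw [nl_eq_F, nl_eq_F]
  refine WA.ev_injective fun y => ?_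
  rw [ev_F, ev_shift, ev_shift, ev_F]

/-- Invariance of the class of solutions. -/
theorem isWSol_sym {T : ℝ} {U : ℝ → WA d k} (hU : IsWSol m T U) {t τ : ℝ} (ht : 0 ≤ t)
    (hτ : t + τ ≤ T) (x : Fin d → ℝ) {w : ℂ} (hw : ‖w‖ = 1) :
    IsWSol m τ fun s => w • shift x (U (t + s)) := by
  have hm : MapsTo (fun s => t + s) (Icc 0 τ) (Icc 0 T) := fun s hs =>
    ⟨by linarith [hs.1], by linarith [hs.2]⟩
  refine ⟨?_, fun s hs n => ?_⟩
  · exact ((shift x).continuous.comp_continuousOn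
      (hU.cont.comp (continuous_const.add continuous_id).continuousOn hm)).const_smul w
  · have h1 := (hU.eqn (t + s) (hm hs) n).scomp s
      ((hasDerivWithinAt_id s (Icc 0 τ)).const_add t) hm
    have h2 := h1.const_mul (w * expi n x)
    simp_rw [coef_smul, coef_shift]
    rw [nl_eq_F, F_smul m w hw, ← nl_eq_F, nl_shift, coef_smul, coef_shift]
    refine (h2.congr (fun r _ => ?_) ?_).congr_deriv ?_
    · simp only [Function.comp_apply]
      ring
    · simp only [Function.comp_apply]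
      ring
    · rw [one_smul]
      ring

theorem norm_tsum_le_nrm {ρ : ℝ} (hρ : 0 ≤ ρ) (a : WA d k) : ‖∑' n, coef a n‖ ≤ nrm ρ k a := by
  refine (norm_tsum_le_tsum_norm a.summable_norm).trans
    (le_trans (le_of_eq ?_) (nrm_mono_order hρ (Nat.zero_le k) le_rfl a))
  unfold nrm
  simp only [pow_zero, one_mul]

theorem norm_tsum_le (a : WA d k) : ‖∑' n, coef a n‖ ≤ ‖a‖ := by
  rw [← nrm_one]
  exact norm_tsum_le_nrm zero_le_one a

end Blow

open Blow

namespace Bg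

variable (B : Bg d m)

theorem norm_scale (lam : ℝ) :
    ‖cexp (2 * B.Λ * Real.log lam)‖ = Real.exp ((m : ℝ)⁻¹ * Real.log lam) := by
  rw [Complex.norm_exp]
  congr 1
  have h : (2 * B.Λ * (Real.log lam : ℂ)).re = 2 * B.Λ.re * Real.log lam := by
    simp only [mul_re, re_ofNat, im_ofNat, zero_mul, sub_zero, ofReal_re, ofReal_im, mul_zero]
  rw [h, B.Λ_re, one_div, mul_inv, ← mul_assoc, mul_inv_cancel₀ two_ne_zero, one_mul]

theorem lower_of_dist {k : ℕ} {lam δ : ℝ} (hlam : 0 < lam) {a : WA d k}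
    (h : B.dist k lam a ≤ δ) :
    ‖evf B.Q 0‖ ≤ δ + Real.exp ((m : ℝ)⁻¹ * Real.log lam) * ‖a‖ := by
  have h1 := (norm_tsum_le_nrm hlam.le _).trans h
  have hs : ∀ b : WA d k, Summable fun n => coef b n := fun b => b.summable_norm.of_norm
  simp_rw [coef_sub] at h1
  rw [(hs _).tsum_sub (hs _), tsum_coef_per hlam, B.ev_Qh] at h1
  have h2 := norm_tsum_le (cexp (2 * B.Λ * Real.log lam) • a)
  rw [norm_smul, B.norm_scale] at h2
  have h3 := norm_sub_le (∑' n, coef (cexp (2 * B.Λ * Real.log lam) • a) n)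
    (∑' n, coef (cexp (2 * B.Λ * Real.log lam) • a) n - evf B.Q 0)
  rw [sub_sub_cancel] at h3
  linarith

/-- Block BLOW: an open set of data without a long solution. -/
theorem blowup_set (hm : 1 ≤ m) {k : ℕ} (hk : 8 * B.K0 + 8 ≤ k) (hL : B.LIN k) :
    ∃ (φ : Lat d → ℂ) (ε T₀ : ℝ), 0 < ε ∧ 0 < T₀ ∧ (Summable fun n => W k n * ‖φ n‖) ∧
      ∀ a : Lat d → ℂ, (Summable fun n => W (k + 1) n * ‖a n‖) →
        ∑' n, W k n * ‖a n - φ n‖ < ε → ∀ k' : ℕ, d < 2 * k' →
          lifespan d (2 * m + 1) k' a ≤ ENNReal.ofReal T₀ := by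
  obtain ⟨δ₀, hδ₀, H⟩ := B.one_step hm hk hL
  have hq : 0 < ‖evf B.Q 0‖ := norm_pos_iff.2 B.q_zero
  set δ : ℝ := min δ₀ (‖evf B.Q 0‖ / 2) with hδ
  have hδ0 : 0 < δ := lt_min hδ₀ (by positivity)
  obtain ⟨lam₀, hl0, hl1, H1⟩ := H δ hδ0 (min_le_left _ _)
  set c : ℂ := cexp (2 * B.Λ * Real.log lam₀) with hc
  have hc0 : c ≠ 0 := Complex.exp_ne_zero _
  have hcn : 0 < ‖c‖ := norm_pos_iff.2 hc0
  refine ⟨coef (c⁻¹ • per lam₀ (B.Qh k)), δ / ‖c‖, 2 * lam₀ ^ 2, by positivity, by positivity,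
    WA.summable _, fun a ha hε k' hk' => ?_⟩
  unfold lifespan
  refine iSup₂_le fun T hT => ?_
  obtain ⟨u, hu, hu0⟩ := hT
  by_contra hcon
  have hT : 2 * lam₀ ^ 2 ≤ (T : ℝ) := by
    by_contra h
    apply hcon
    rw [← ENNReal.ofReal_coe_nnreal]
    exact ENNReal.ofReal_le_ofReal (not_le.1 h).le
  obtain ⟨U, hU, hUu⟩ := exists_isWSol hk' hu k (by rw [hu0]; exact ha)
  have hd0 : B.dist k lam₀ (U 0) ≤ δ := by
    have e : c • U 0 - per lam₀ (B.Qh k) = c • (U 0 - c⁻¹ • per lam₀ (B.Qh k)) := by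
      rw [smul_sub, smul_smul, mul_inv_cancel₀ hc0, one_smul]
    have h1 : nrm lam₀ k (U 0 - c⁻¹ • per lam₀ (B.Qh k)) ≤ δ / ‖c‖ := by
      refine (nrm_scale_le (ρ := 1) (c := 1) zero_le_one hl0.le le_rfl (by linarith) le_rfl
        _).trans ?_
      rw [one_pow, one_mul, nrm_one, WA.norm_eq]
      refine le_trans (le_of_eq (tsum_congr fun n => ?_)) hε.le
      rw [coef_sub, hUu 0 ⟨le_rfl, T.2⟩, hu0]
    unfold dist
    rw [← hc, e, nrm_smul]
    rwa [le_div_iff₀ hcn, mul_comm] at h1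
  have hind : ∀ j : ℕ, ∃ lam : ℝ, 0 < lam ∧ lam ≤ lam₀ * (1 / 2) ^ j ∧ ∃ t : ℝ, 0 ≤ t ∧
      t + 2 * lam ^ 2 ≤ 2 * lam₀ ^ 2 ∧ ∃ (x : Fin d → ℝ) (w : ℂ), ‖w‖ = 1 ∧
        B.dist k lam (w • shift x (U t)) ≤ δ := by
    intro j
    induction j with
    | zero =>
      refine ⟨lam₀, hl0, by simp, 0, le_rfl, by simp, 0, 1, norm_one, ?_⟩
      rw [one_smul, shift_zero]
      exact hd0
    | succ j ih =>
      obtain ⟨lam, h1, h2, t, ht0, ht1, x, w, hw, hd⟩ := ih
      have h3 : lam ≤ lam₀ := by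
        refine h2.trans ?_
        have : ((1 : ℝ) / 2) ^ j ≤ 1 := pow_le_one₀ (by norm_num) (by norm_num)
        nlinarith
      have h4 := isWSol_sym hU ht0 (τ := lam ^ 2) (by nlinarith [sq_nonneg lam]) x hw
      obtain ⟨s, hs, lam', h5, h6, x', w', hw', hd'⟩ :=
        H1 lam h1 h3 _ h4 (by simpa only [add_zero] using hd)
      refine ⟨lam', h5, ?_, t + s, by linarith [hs.1], ?_, x' + x, w' * w, ?_, ?_⟩
      · rw [pow_succ]
        linarith
      · have : lam' ^ 2 ≤ (lam / 2) ^ 2 := by gcongr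
        nlinarith [hs.2, sq_nonneg lam]
      · rw [norm_mul, hw, hw', one_mul]
      · rwa [map_smul, smul_smul, shift_shift] at hd'
  obtain ⟨R, hR⟩ := isCompact_Icc.exists_bound_of_continuousOn hU.cont
  have hm0 : (0 : ℝ) < (m : ℝ)⁻¹ := by
    have : (0 : ℝ) < m := by exact_mod_cast hm
    positivity
  have hlim : Tendsto (fun j : ℕ => Real.exp ((m : ℝ)⁻¹ * Real.log (lam₀ * (1 / 2) ^ j)) * R)
      atTop (𝓝 0) := by
    have h1 : Tendsto (fun j : ℕ => lam₀ * (1 / 2 : ℝ) ^ j) atTop (𝓝[>] 0) := by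
      refine tendsto_nhdsWithin_iff.2 ⟨?_, Eventually.of_forall fun j => ?_⟩
      · simpa using (tendsto_pow_atTop_nhds_zero_of_lt_one (r := (1 / 2 : ℝ)) (by norm_num)
          (by norm_num)).const_mul lam₀
      · show 0 < lam₀ * (1 / 2 : ℝ) ^ j
        positivity
    have h2 := Real.tendsto_exp_atBot.comp
      ((Real.tendsto_log_nhdsGT_zero.comp h1).const_mul_atBot hm0)
    simpa only [Function.comp_def, zero_mul] using h2.mul_const R
  obtain ⟨j, hj⟩ := (hlim.eventually (gt_mem_nhds (half_pos hq))).exists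
  obtain ⟨lam, h1, h2, t, ht0, ht1, x, w, hw, hd⟩ := hind j
  have h3 := B.lower_of_dist h1 hd
  rw [norm_smul, hw, one_mul, norm_shift] at h3
  have h4 : ‖U t‖ ≤ R := hR t ⟨ht0, by nlinarith [sq_nonneg lam]⟩
  have h5 : Real.exp ((m : ℝ)⁻¹ * Real.log lam) * ‖U t‖
      ≤ Real.exp ((m : ℝ)⁻¹ * Real.log (lam₀ * (1 / 2) ^ j)) * R := by gcongr
  have h6 : δ ≤ ‖evf B.Q 0‖ / 2 := min_le_right _ _
  linarith

end Bg

end Vale.Agent.P139Z
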