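import Vale.Agent.P139Z.Defs

/-!
Definitions for the radial analysis: free equation, level sequences, the limit profile, the family
of profiles with large exponent, and the quantities of the interior and exterior estimates.
-/

open Set Filter Topology MeasureTheory Complex
open scoped NNReal ENNReal ComplexConjugate ContDiff

namespace Vale.Agent.P139Z

/-! ### The free equation in the variable `ρ = r²` -/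

/-- The operator `4ρF'' + (4B + iρ)F' + iAF`. -/
noncomputable def Mop (A : ℂ) (B : ℕ) (F : ℝ → ℂ) (ρ : ℝ) : ℂ :=
  4 * ρ * iteratedDeriv 2 F ρ + (4 * (B : ℂ) + I * ρ) * deriv F ρ + I * A * F ρ

/-- Symbols of order `M` at infinity, smooth on the positive half-line. -/
structure Symb (M : ℝ) (F : ℝ → ℂ) : Prop where
  smooth : ContDiffOn ℝ ∞ F (Ioi 0)
  bd : ∀ j : ℕ, ∃ C : ℝ, ∀ ρ : ℝ, 1 ≤ ρ → ‖iteratedDeriv j F ρ‖ ≤ C * ρ ^ (M - j)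

/-- Weak form of the outgoing condition. -/
def WeakOut (B : ℕ) (F : ℝ → ℂ) : Prop :=
  IntegrableOn (fun ρ : ℝ => ρ ^ (B + 6) * ‖iteratedDeriv 7 F ρ‖ ^ 2) (Ioi 16) ∧
    IntegrableOn (fun ρ : ℝ => ρ ^ (B + 7) * ‖iteratedDeriv 8 F ρ‖ ^ 2) (Ioi 16)

/-- The flux of the data `(P, Y) = (ρF', F)` at `ρ = 4Z`. -/
noncomputable def flux (Z : ℝ) (P Y : ℂ) : ℝ := (conj Y * P).im + Z / 2 * ‖Y‖ ^ 2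

/-- Values `(ρF_n', F_n)` at `ρ = 4Z` of the levels `F_{n+1} = (A + n + ρ∂)F_n` of an outgoing
solution of the free equation. -/
structure Lev (A : ℂ) (B : ℕ) (Z : ℝ) (P Y : ℕ → ℂ) : Prop where
  recY : ∀ n : ℕ, Y (n + 1) = P n + (A + n) * Y n
  recP : ∀ n : ℕ, P (n + 1) = (A + n + 1 - B - I * Z) * P n - I * Z * (A + n) * Y n
  flux_nonneg : ∀ n : ℕ, (B : ℝ) / 2 < A.re + n → 0 ≤ flux Z (P n) (Y n)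

/-- Wronskians of the levels of a solution with a source against the levels `(Pu, Yu)` of a
solution for `A₀`; `(Pk, Yk)` are the levels of the associated solution for `A`. -/
structure WLev (A₀ A : ℂ) (B : ℕ) (Z : ℝ) (Pu Yu Pk Yk D : ℕ → ℂ) : Prop where
  levU : Lev A₀ B Z Pu Yu
  levK : Lev A B Z Pk Yk
  recD : ∀ n : ℕ, D (n + 1) = (A₀ + n) * (A₀ + n + 1 - B) * D n
    + (Pk n - I * Z * Yk n) * Yu (n + 1) - Yk n * Pu (n + 1)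
  tail : ∀ n : ℕ, 10 ≤ n → ‖D n‖ ^ 2 * ((A₀.re + n - (B : ℝ) / 2) * (A.re + n - (B : ℝ) / 2))
    ≤ flux Z (Pu n) (Yu n) * flux Z (Pk n) (Yk n)

/-! ### The limit profile -/

/-- The parameter box. -/
def InB (β : ℝ) : Prop := 0.33473 ≤ β ∧ β ≤ 0.33483

/-- The box for `Z = R²/4`. -/
def InZ (Z : ℝ) : Prop := 2.7048 ≤ Z ∧ Z ≤ 2.7054

/-- No eigenvalue of the limit problem at `(l, lam)`, in terms of level sequences. -/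
def NoEigAt (β Z : ℝ) (l : ℕ) (lam : ℂ) : Prop :=
  ∀ P Y P' Y' : ℕ → ℂ, Lev (l / 2 + lam - I * β) (6 + l) Z P Y →
    Lev (l / 2 + conj lam - I * β) (6 + l) Z P' Y' →
    Y 0 + conj (Y' 0) = 0 → P 0 - conj (P' 0) = 0 → P 0 = 0 ∧ Y 0 = 0

/-- Eigenvalue and boundary data of the three symmetry modes of the limit problem. -/
def ModeData (β Z : ℝ) (l : ℕ) (lam₀ P₀ Y₀ : ℂ) : Prop :=
  (l = 0 ∧ lam₀ = 0 ∧ P₀ = 0 ∧ Y₀ = I) ∨ (l = 0 ∧ lam₀ = 1 ∧ P₀ = -(Z * β) ∧ Y₀ = -I * β) ∨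
    (l = 1 ∧ lam₀ = 1 / 2 ∧ P₀ = -(β / 2) ∧ Y₀ = 0)

/-- The exterior part of the limit profile. -/
structure IsLimProf (β Z : ℝ) (U : ℝ → ℂ) : Prop where
  inB : InB β
  inZ : InZ Z
  symb : Symb 0 U
  ode : ∀ ρ : ℝ, 0 < ρ → Mop (-I * β) 6 U ρ = 0
  val : U (4 * Z) = 1
  der : deriv U (4 * Z) = 0

/-- The symmetry modes of the limit problem, reduced by the factor `r^l`. -/
noncomputable def limF (β : ℝ) (U : ℝ → ℂ) (l : ℕ) (c₀ c₁ c₂ : ℂ) (ρ : ℝ) : ℂ :=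
  if l = 0 then c₀ * (I * U ρ) + c₁ * (-I * β * U ρ + ρ * deriv U ρ)
  else if l = 1 then c₂ * (2 * deriv U ρ) else 0

/-- Mode stability of the limit problem; `H` is the conjugate of the second component. -/
def LimStable (β Z : ℝ) (U : ℝ → ℂ) : Prop :=
  ∀ (l : ℕ) (lam : ℂ), 0 ≤ lam.re → ∀ F H : ℝ → ℂ, ContDiffOn ℝ ∞ F (Ioi 0) →
    ContDiffOn ℝ ∞ H (Ioi 0) → ∀ c₀ c₁ c₂ : ℂ,
    (∀ ρ : ℝ, 0 < ρ → Mop (l / 2 + lam - I * β) (6 + l) F ρ = -I * limF β U l c₀ c₁ c₂ ρ) →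
    (∀ ρ : ℝ, 0 < ρ → Mop (l / 2 + conj lam - I * β) (6 + l) H ρ
      = -I * limF β U l (conj c₀) (conj c₁) (conj c₂) ρ) →
    WeakOut (6 + l) F → WeakOut (6 + l) H →
    F (4 * Z) + conj (H (4 * Z)) = 0 → deriv F (4 * Z) - conj (deriv H (4 * Z)) = 0 →
    ∃ a₀ a₁ a₂ : ℂ, ∀ ρ : ℝ, 0 < ρ → F ρ = limF β U l a₀ a₁ a₂ ρ ∧
      H ρ = limF β U l (conj a₀) (conj a₁) (conj a₂) ρ

/-! ### The family of profiles -/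

/-- `s = r q'/q` as a function of `ρ`. -/
noncomputable def sf (G : ℝ → ℂ) (ρ : ℝ) : ℝ := 2 * ρ * (deriv G ρ / G ρ).re

/-- The pressure potential `2m |G|^(2m)`. -/
noncomputable def Pf (m : ℕ) (G : ℝ → ℂ) (ρ : ℝ) : ℝ := 2 * (m : ℝ) * ‖G ρ‖ ^ (2 * m)

/-- A sequence of profiles with exponents tending to infinity and its hard-wall limit. -/
structure IsFamily (m : ℕ → ℕ) (β : ℕ → ℝ) (G : ℕ → ℝ → ℂ) (βi Z : ℝ) (U : ℝ → ℂ) : Prop where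
  lim : IsLimProf βi Z U
  prof : ∀ j, IsProfile (m j) (β j) (G j)
  m_tendsto : Tendsto m atTop atTop
  β_tendsto : Tendsto β atTop (𝓝 βi)
  upper : ∀ j, ∀ ρ ∈ Icc (0 : ℝ) 11.2, ‖G j ρ‖ ^ (2 * m j) ≤ 2
  mono : ∀ ε : ℝ, 0 < ε → ∀ᶠ j in atTop, ∀ ρ ∈ Icc (0 : ℝ) 11.2,
    (m j : ℝ) * sf (G j) ρ * Pf (m j) (G j) ρ ≤ ε * Pf (m j) (G j) ρ + ε
  core : ∀ δ : ℝ, 0 < δ → ∀ᶠ j in atTop, ∀ ρ ∈ Icc (0 : ℝ) (4 * Z - δ),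
    1 / 10 ≤ ‖G j ρ‖ ^ (2 * m j)
  conv_in : TendstoUniformlyOn G (fun _ => 1) atTop (Icc 0 (4 * Z))
  conv_in' : TendstoUniformlyOn (fun j ρ => (Real.sqrt ρ : ℂ) * deriv (G j) ρ) (fun _ => 0) atTop
    (Icc 0 (4 * Z))
  conv_out : ∀ R : ℝ, TendstoUniformlyOn G U atTop (Icc (4 * Z) R)
  conv_out' : ∀ R : ℝ, TendstoUniformlyOn (fun j => deriv (G j)) (deriv U) atTop (Icc (4 * Z) R)
  tv : ∀ ϑ δ : ℝ, 0 < ϑ → 0 < δ → δ ≤ 1 → ∀ᶠ j in atTop,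
    ∫ ρ in (0 : ℝ)..(4 * Z - δ), |deriv (sf (G j)) ρ| ≤ ϑ
  gap : ∀ δ : ℝ, 0 < δ → ∃ δ' : ℝ, 0 < δ' ∧ ∀ᶠ j in atTop, ∀ ρ : ℝ, 4 * Z + δ ≤ ρ →
    ρ ^ (1 / (2 * (m j : ℝ))) * ‖G j ρ‖ ≤ 1 - δ'
  symb : ∃ ρ₃ : ℝ, ∀ i : ℕ, ∃ C : ℝ, ∀ j, ∀ ρ : ℝ, ρ₃ ≤ ρ →
    ‖iteratedDeriv i (G j) ρ‖ ≤ C * ρ ^ (-(1 / (2 * (m j : ℝ)) + i))
  far : ∃ c : ℝ, 0 < c ∧ ∀ᶠ j in atTop, ∀ ρ : ℝ, 16 ≤ ρ →
    c ≤ ρ ^ (1 / (2 * (m j : ℝ))) * ‖G j ρ‖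

/-- The nonlinearity truncated at the level `2`. -/
noncomputable def Ntr (m : ℕ) (z : ℂ) : ℂ := ((min (‖z‖ ^ (2 * m)) 2 : ℝ) : ℂ) * z

/-- A regular solution of the truncated profile equation. -/
structure IsCore (m : ℕ) (β : ℝ) (G : ℝ → ℂ) : Prop where
  c1 : ContDiff ℝ 1 G
  c2 : ContDiffOn ℝ 2 G (Ioi 0)
  ode : ∀ ρ : ℝ, 0 ≤ ρ → Mop (Lam m β) 6 G ρ = Ntr m (G ρ)
  reg : ∀ b : ℝ, 0 ≤ b → (∀ ρ ∈ Icc (0 : ℝ) b, ‖G ρ‖ ^ (2 * m) < 2) →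
    ∃ δ : ℝ, 0 < δ ∧ ContDiffOn ℝ ∞ G (Ioo (-δ) (b + δ))

/-- An interior solution with exit time `T`, close to the hard-wall picture up to `η`. -/
structure IsShot (m : ℕ) (β : ℝ) (G : ℝ → ℂ) (T η : ℝ) : Prop where
  smooth : ∃ δ : ℝ, 0 < δ ∧ ContDiffOn ℝ ∞ G (Ioo (-δ) (11.2 + δ))
  ode : ∀ ρ ∈ Icc (0 : ℝ) 11.2, Mop (Lam m β) 6 G ρ = (‖G ρ‖ : ℂ) ^ (2 * m) * G ρ
  upper : ∀ ρ ∈ Icc (0 : ℝ) 11.2, ‖G ρ‖ ^ (2 * m) ≤ 2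
  core : ∀ ρ ∈ Icc (0 : ℝ) T, 1 / 10 ≤ ‖G ρ‖ ^ (2 * m)
  near : ∀ ρ ∈ Icc (0 : ℝ) T, ‖G ρ - 1‖ ≤ η ∧ Real.sqrt ρ * ‖deriv G ρ‖ ≤ η
  mono : ∀ ρ ∈ Icc (0 : ℝ) 11.2, (m : ℝ) * sf G ρ * Pf m G ρ ≤ η * Pf m G ρ + η
  tv : ∀ b ∈ Icc (0 : ℝ) T, ∫ ρ in (0 : ℝ)..b, |deriv (sf G) ρ| ≤ η
  out : ∀ W : ℝ → ℂ, ContDiffOn ℝ ∞ W (Ioi 0) → (∀ ρ : ℝ, 0 < ρ → Mop (-I * β) 6 W ρ = 0) →
    W T = 1 → deriv W T = 0 →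
    ∀ ρ ∈ Icc T 11.2, ‖G ρ - W ρ‖ ≤ η ∧ ‖deriv G ρ - deriv W ρ‖ ≤ η

/-- The normalized outgoing solutions of the free profile equation. -/
structure OutFam (U : ℝ → ℝ → ℂ) (c : ℝ) : Prop where
  pos : 0 < c
  symb : ∀ β : ℝ, InB β → Symb 0 (U β)
  ode : ∀ β : ℝ, InB β → ∀ ρ : ℝ, 0 < ρ → Mop (-I * β) 6 (U β) ρ = 0
  val : ∀ β : ℝ, InB β → U β 11.2 = 1
  bd : ∀ β : ℝ, InB β → ∀ ρ : ℝ, 11.2 ≤ ρ → c ≤ ‖U β ρ‖ ∧ ‖U β ρ‖ ≤ 1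
  cont : ContinuousOn (fun p : ℝ × ℝ => U p.1 p.2) ({β | InB β} ×ˢ Ioi 0)
  cont' : ContinuousOn (fun p : ℝ × ℝ => deriv (U p.1) p.2) ({β | InB β} ×ˢ Ioi 0)

/-- An exterior solution, close to `x U` up to `η`. -/
structure IsExt (m : ℕ) (β : ℝ) (E U : ℝ → ℂ) (x η ρ₃ : ℝ) (C : ℕ → ℝ) : Prop where
  smooth : ∃ δ : ℝ, 0 < δ ∧ ContDiffOn ℝ ∞ E (Ioi (11.2 - δ)) ∧
    ∀ ρ : ℝ, 11.2 - δ < ρ → Mop (Lam m β) 6 E ρ = (‖E ρ‖ : ℂ) ^ (2 * m) * E ρ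
  close : ∀ ρ : ℝ, 11.2 ≤ ρ → ‖((ρ ^ (1 / (2 * (m : ℝ))) : ℝ) : ℂ) * E ρ - x * U ρ‖ ≤ η ∧
    ‖((ρ ^ (1 / (2 * (m : ℝ))) : ℝ) : ℂ) * deriv E ρ - x * deriv U ρ‖ ≤ η
  symb : ∀ i : ℕ, ∀ ρ : ℝ, ρ₃ ≤ ρ →
    ‖iteratedDeriv i E ρ‖ ≤ C i * ρ ^ (-(1 / (2 * (m : ℝ)) + i))

/-- Quantitative interior properties of one profile. -/
structure GoodInt (m : ℕ) (β : ℝ) (G : ℝ → ℂ) (C₀ ε ϑ ρb : ℝ) : Prop where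
  one_le : 1 ≤ m
  beta : |β| ≤ 1
  lower : ∀ ρ ∈ Icc (0 : ℝ) 16, 1 ≤ C₀ * ‖G ρ‖
  upper : ∀ ρ ∈ Icc (0 : ℝ) 16, ‖G ρ‖ ^ (2 * m) ≤ 2
  deriv_bd : ∀ ρ ∈ Icc (0 : ℝ) 16, ‖deriv G ρ‖ ≤ C₀
  mono : ∀ ρ ∈ Icc (0 : ℝ) 16, (m : ℝ) * sf G ρ * Pf m G ρ ≤ ε * Pf m G ρ + ε
  tv : ∫ ρ in (0 : ℝ)..ρb, |deriv (sf G) ρ| ≤ ϑ

/-- Small exterior potentials, with symbol bounds. -/
structure GoodExt (m : ℕ) (G : ℝ → ℂ) (ε ρa : ℝ) : Prop where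
  v1 : ∀ i ≤ 10, ∀ ρ : ℝ, ρa ≤ ρ →
    ‖iteratedDeriv i (fun x => pot1 m (G x)) ρ‖ ≤ ε * ρ ^ (-(1 + (i : ℝ)))
  v2 : ∀ i ≤ 10, ∀ ρ : ℝ, ρa ≤ ρ →
    ‖iteratedDeriv i (fun x => pot2 m (G x)) ρ‖ ≤ ε * ρ ^ (-(1 + (i : ℝ)))

/-- Two-sided bounds far out. -/
structure GoodFar (m : ℕ) (G : ℝ → ℂ) (c C : ℝ) : Prop where
  lower : ∀ ρ : ℝ, 16 ≤ ρ → c ≤ ρ ^ (1 / (2 * (m : ℝ))) * ‖G ρ‖
  upper : ∀ ρ : ℝ, 16 ≤ ρ → ρ ^ (1 / (2 * (m : ℝ))) * ‖G ρ‖ ≤ 1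
  deriv_bd : ∀ ρ : ℝ, 16 ≤ ρ → ‖deriv G ρ‖ ≤ C * ρ ^ (-(1 / (2 * (m : ℝ)) + 1))

/-! ### Radial solutions of the linearized system -/

/-- A bounded radial solution of the linearized system with sources `SF`, `SG`. -/
structure RSol (m : ℕ) (β : ℝ) (G : ℝ → ℂ) (l : ℕ) (lam : ℂ) (f g SF SG : ℝ → ℂ) : Prop where
  bf : BddC 30 f
  bg : BddC 30 g
  eqF : ∀ r : ℝ, 0 < r → opF m β G l lam f g r = SF r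
  eqG : ∀ r : ℝ, 0 < r → opG m β G l lam f g r = SG r

/-- Mode stability at one pair `(l, lam)`. -/
def MSat (m : ℕ) (β : ℝ) (G : ℝ → ℂ) (l : ℕ) (lam : ℂ) : Prop :=
  ∀ f g : ℝ → ℂ, BddC 30 f → BddC 30 g → ∀ c₀ c₁ c₂ : ℂ,
    (∀ r : ℝ, 0 < r → opF m β G l lam f g r = -I * symF m β G l c₀ c₁ c₂ r ∧
      opG m β G l lam f g r = I * symG m β G l c₀ c₁ c₂ r) →
    ∃ a₀ a₁ a₂ : ℂ, ∀ r : ℝ, 0 < r →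
      f r = symF m β G l a₀ a₁ a₂ r ∧ g r = symG m β G l a₀ a₁ a₂ r

/-- No nonzero bounded solution of the homogeneous system at `(l, lam)`. -/
def Triv (m : ℕ) (β : ℝ) (G : ℝ → ℂ) (l : ℕ) (lam : ℂ) : Prop :=
  ∀ f g : ℝ → ℂ, RSol m β G l lam f g 0 0 → ∀ r : ℝ, 0 < r → f r = 0 ∧ g r = 0

/-- `l(l+10)`. -/
def Lc (l : ℕ) : ℝ := (l : ℝ) * ((l : ℝ) + 10)

/-- Reduction by the factor `r^l`, in the variable `ρ = r²`. -/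
noncomputable def red (l : ℕ) (f : ℝ → ℂ) (ρ : ℝ) : ℂ :=
  f (Real.sqrt ρ) / (Real.sqrt ρ : ℂ) ^ l

/-- The reduced system; `H` is the conjugate of the second component. -/
structure RedSol (V₁ V₂ : ℝ → ℂ) (A A' : ℂ) (B : ℕ) (F H SF SH : ℝ → ℂ) : Prop where
  smoothF : ContDiffOn ℝ 30 F (Ioi 0)
  smoothH : ContDiffOn ℝ 30 H (Ioi 0)
  eqF : ∀ ρ : ℝ, 0 < ρ → Mop A B F ρ = V₁ ρ * F ρ + V₂ ρ * conj (H ρ) + SF ρ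
  eqH : ∀ ρ : ℝ, 0 < ρ → Mop A' B H ρ = V₁ ρ * H ρ + V₂ ρ * conj (F ρ) + SH ρ

/-- Decay of the first ten derivatives at the rate `ρ^(-b-j)`. -/
def Decay (b : ℝ) (F : ℝ → ℂ) : Prop :=
  ∃ C : ℝ, ∀ j ≤ 10, ∀ ρ : ℝ, 1 ≤ ρ → ‖iteratedDeriv j F ρ‖ ≤ C * ρ ^ (-(b + j))

/-- The real part of the relative perturbation. -/
noncomputable def al (G f g : ℝ → ℂ) (r : ℝ) : ℂ := (f r / Qr G r + g r / conj (Qr G r)) / 2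

/-- The imaginary part of the relative perturbation. -/
noncomputable def et (G f g : ℝ → ℂ) (r : ℝ) : ℂ := (f r / Qr G r - g r / conj (Qr G r)) / (2 * I)

/-- The weight `r^11 |Q|²`. -/
noncomputable def wm (G : ℝ → ℂ) (r : ℝ) : ℝ := r ^ 11 * ‖Qr G r‖ ^ 2

/-- The radial velocity `r/2 + 2φ'`. -/
noncomputable def vel (G : ℝ → ℂ) (r : ℝ) : ℝ := r / 2 + 2 * (deriv (Qr G) r / Qr G r).im

/-- The squared `H¹` norm on the ball of radius `r₀`. -/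
noncomputable def N2 (l : ℕ) (f g : ℝ → ℂ) (r₀ : ℝ) : ℝ :=
  ∫ r in (0 : ℝ)..r₀, r ^ 11 * (‖deriv f r‖ ^ 2 + ‖deriv g r‖ ^ 2
    + (Lc l / r ^ 2 + 1) * (‖f r‖ ^ 2 + ‖g r‖ ^ 2))

/-- The squared `L²` norm of a pair on the ball of radius `r₀`. -/
noncomputable def L2 (f g : ℝ → ℂ) (r₀ : ℝ) : ℝ :=
  ∫ r in (0 : ℝ)..r₀, r ^ 11 * (‖f r‖ ^ 2 + ‖g r‖ ^ 2)

/-- The squared weighted `L²` norm of `al`. -/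
noncomputable def La (G f g : ℝ → ℂ) (r₀ : ℝ) : ℝ :=
  ∫ r in (0 : ℝ)..r₀, wm G r * ‖al G f g r‖ ^ 2

/-- The pressure term. -/
noncomputable def Pa (m : ℕ) (G f g : ℝ → ℂ) (r₀ : ℝ) : ℝ :=
  ∫ r in (0 : ℝ)..r₀, wm G r * Pf m G (r ^ 2) * ‖al G f g r‖ ^ 2

/-- The cross term. -/
noncomputable def Cr (G f g : ℝ → ℂ) (r₀ : ℝ) : ℂ :=
  ∫ r in (0 : ℝ)..r₀, (wm G r : ℂ) * (al G f g r * conj (et G f g r))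

/-- Lower-order boundary terms. -/
noncomputable def bd1 (f g : ℝ → ℂ) (r : ℝ) : ℝ :=
  (‖f r‖ + ‖g r‖) * (‖f r‖ + ‖g r‖ + ‖deriv f r‖ + ‖deriv g r‖)

/-- The momentum flux of one component at frequency `w`. -/
noncomputable def Phi (l : ℕ) (w : ℝ) (f : ℝ → ℂ) (r : ℝ) : ℝ :=
  ‖deriv f r‖ ^ 2 + (w - Lc l / r ^ 2) * ‖f r‖ ^ 2

/-- The size of the spectral parameters. -/
noncomputable def Om (l : ℕ) (lam : ℂ) : ℝ := |lam.im| + Lc l + 1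

/-- The local energy. -/
noncomputable def en (l : ℕ) (lam : ℂ) (f g : ℝ → ℂ) (r : ℝ) : ℝ :=
  ‖deriv f r‖ ^ 2 + ‖deriv g r‖ ^ 2 + Om l lam * (‖f r‖ ^ 2 + ‖g r‖ ^ 2)

end Vale.Agent.P139Z
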