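import Vale.Agent.P139Z.OCalc
import Vale.Agent.P139Z.Borel.Real

/-! Outgoing solutions of the nonlinear profile equation near infinity. -/

open Set Filter Topology MeasureTheory Complex
open scoped NNReal ENNReal ComplexConjugate ContDiff

namespace Vale.Agent.P139Z

namespace Borel

theorem Lam_eq (m : ℕ) (β : ℝ) : Lam m β = ((1 / (2 * (m : ℝ)) : ℝ) : ℂ) + -I * β := by
  rw [Lam]
  push_cast
  ring

theorem Lam_re (m : ℕ) (β : ℝ) : (Lam m β).re = 1 / (2 * (m : ℝ)) := by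
  rw [Lam_eq, add_re, ofReal_re]
  simp

theorem Lam_im (m : ℕ) (β : ℝ) : (Lam m β).im = -β := by
  rw [Lam_eq, add_im, ofReal_im]
  simp

theorem a_le (m : ℕ) : 1 / (2 * (m : ℝ)) ≤ 1 := by
  rcases Nat.eq_zero_or_pos m with rfl | h
  · simp
  · have : (1 : ℝ) ≤ m := by exact_mod_cast h
    rw [div_le_one (by positivity)]
    linarith

theorem norm_A0 {β : ℝ} (hβ : β ∈ Icc (0 : ℝ) 1) : ‖-I * β‖ ≤ 1 := by
  simp [abs_of_nonneg hβ.1, hβ.2]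

theorem norm_a (m : ℕ) : ‖((1 / (2 * (m : ℝ)) : ℝ) : ℂ)‖ = 1 / (2 * (m : ℝ)) := by
  rw [Complex.norm_real, Real.norm_of_nonneg (by positivity)]

theorem norm_Lam (m : ℕ) {β : ℝ} (hβ : β ∈ Icc (0 : ℝ) 1) : ‖Lam m β‖ ≤ 2 := by
  rw [Lam_eq]
  refine (norm_add_le _ _).trans ?_
  rw [norm_a]
  linarith [a_le m, norm_A0 hβ]

theorem Nl_real {m : ℕ} (hm : 1 ≤ m) (β : ℝ) (f : ℂ → ℂ) {ρ : ℝ} (hρ : 0 < ρ) :
    (ρ : ℂ) ^ (-Lam m β) * Nl 1 m f ρ / ρ =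
      (‖Gr (Lam m β) f ρ‖ : ℂ) ^ (2 * m) * Gr (Lam m β) f ρ := by
  have hm' : (m : ℝ) ≠ 0 := by positivity
  have h1 : (ρ ^ (-(1 / (2 * (m : ℝ))))) ^ (2 * m) = ρ⁻¹ := by
    rw [← Real.rpow_natCast, ← Real.rpow_mul hρ.le, ← Real.rpow_neg_one]
    congr 1
    push_cast
    field_simp
  have h2 : (‖f ρ‖ : ℂ) ^ (2 * m) = f ρ ^ m * conj (f ρ) ^ m := by
    rw [pow_mul, ← Complex.mul_conj', mul_pow]
  rw [norm_Gr hρ, Lam_re, ofReal_mul, mul_pow, ← ofReal_pow, h1, h2, Nl, conj_ofReal, Gr, Gc]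
  push_cast
  ring

theorem pow_cancel (m : ℕ) (β : ℝ) {ρ : ℝ} (hρ : 0 < ρ) :
    ((ρ ^ (1 / (2 * (m : ℝ))) : ℝ) : ℂ) * (ρ : ℂ) ^ (-Lam m β) = (ρ : ℂ) ^ (-(-I * β)) := by
  rw [ofReal_cpow hρ.le, ← cpow_add _ _ (ofReal_ne_zero.2 hρ.ne'), Lam_eq]
  congr 1
  ring

theorem norm_pow_A0 (β : ℝ) {ρ : ℝ} (hρ : 0 < ρ) : ‖(ρ : ℂ) ^ (-(-I * β))‖ = 1 := by
  rw [norm_cpow_eq_rpow_re_of_pos hρ]
  simp

theorem small {θ : ℝ} (h0 : 0 ≤ θ) (h1 : θ < 1) {η : ℝ} (hη : 0 < η) :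
    ∀ᶠ m : ℕ in atTop, (2 * m + 1) * θ ^ (2 * m) ≤ 1 ∧ θ ^ (2 * m + 1) ≤ η ∧
      1 / (2 * (m : ℝ)) ≤ η := by
  have h2 : Tendsto (fun m : ℕ => 2 * m) atTop atTop := tendsto_id.const_mul_atTop' two_pos
  have h3 := (tendsto_pow_atTop_nhds_zero_of_lt_one h0 h1).comp h2
  have h4 := (tendsto_self_mul_const_pow_of_lt_one h0 h1).comp h2
  have h5 := h4.add h3
  have h6 := h3.mul_const θ
  have h7 : Tendsto (fun m : ℕ => 1 / (2 * (m : ℝ))) atTop (𝓝 0) :=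
    tendsto_const_nhds.div_atTop (tendsto_natCast_atTop_atTop.const_mul_atTop two_pos)
  rw [add_zero] at h5
  rw [zero_mul] at h6
  filter_upwards [h5.eventually_le_const one_pos, h6.eventually_le_const hη,
    h7.eventually_le_const hη] with m a1 a2 a3
  refine ⟨le_of_eq_of_le ?_ a1, le_of_eq_of_le (pow_succ _ _) a2, a3⟩
  simp only [Function.comp_apply]
  push_cast
  ring

end Borel

open Borel in
theorem borel {δ : ℝ} (hδ : 0 < δ) :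
    ∃ ρ₃ : ℝ, 16 ≤ ρ₃ ∧ ∃ (C : ℕ → ℝ) (U₀ : ℝ → ℝ → ℂ),
      (∀ β ∈ Icc (0 : ℝ) 1, ContDiffOn ℝ ∞ (U₀ β) (Ioi (ρ₃ - 1)) ∧
        (∀ ρ : ℝ, ρ₃ - 1 < ρ → Mop (-I * β) 6 (U₀ β) ρ = 0) ∧
        (∀ i : ℕ, ∀ ρ : ℝ, ρ₃ ≤ ρ → ‖iteratedDeriv i (U₀ β) ρ‖ ≤ C i * ρ ^ (-(i : ℝ))) ∧
        Tendsto (fun ρ => ‖U₀ β ρ‖) atTop (𝓝 1)) ∧
      ContinuousOn (fun β => (U₀ β ρ₃, deriv (U₀ β) ρ₃)) (Icc 0 1) ∧
      ∀ η : ℝ, 0 < η → ∃ m₀ : ℕ, ∀ m : ℕ, m₀ ≤ m → ∃ E : ℝ → ℂ → ℝ → ℂ,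
        ContinuousOn (fun p : ℝ × ℂ => (E p.1 p.2 ρ₃, deriv (E p.1 p.2) ρ₃))
          (Icc 0 1 ×ˢ Metric.closedBall 0 (1 - δ)) ∧
        ∀ β ∈ Icc (0 : ℝ) 1, ∀ c : ℂ, ‖c‖ ≤ 1 - δ →
          ContDiffOn ℝ ∞ (E β c) (Ioi (ρ₃ - 1)) ∧
          (∀ ρ : ℝ, ρ₃ - 1 < ρ → Mop (Lam m β) 6 (E β c) ρ = (‖E β c ρ‖ : ℂ) ^ (2 * m) * E β c ρ) ∧
          (∀ i : ℕ, ∀ ρ : ℝ, ρ₃ ≤ ρ →
            ‖iteratedDeriv i (E β c) ρ‖ ≤ C i * ρ ^ (-(1 / (2 * (m : ℝ)) + i))) ∧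
          ∀ ρ : ℝ, ρ₃ ≤ ρ →
            ‖((ρ ^ (1 / (2 * (m : ℝ))) : ℝ) : ℂ) * E β c ρ - c * U₀ β ρ‖ ≤ η ∧
            ‖((ρ ^ (1 / (2 * (m : ℝ))) : ℝ) : ℂ) * deriv (E β c) ρ - c * deriv (U₀ β) ρ‖ ≤ η := by
  obtain ⟨d, hd0, hd1, hdδ⟩ : ∃ d : ℝ, 0 < d ∧ d ≤ 1 ∧ d ≤ δ :=
    ⟨min δ 1, lt_min hδ one_pos, min_le_right _ _, min_le_left _ _⟩
  set R : ℝ := 546 / d with hRd
  have hR1 : 546 ≤ R := by
    rw [hRd, le_div_iff₀ hd0]
    linarith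
  have hR : 0 < R := by linarith
  have hR2 : 273 / R = d / 2 := by
    rw [hRd]
    field_simp
    norm_num
  have ok0 : Ok R 2 0 0 := ⟨by linarith, two_pos, le_rfl, by simp, by simp⟩
  have hA0 : ∀ β ∈ Icc (0 : ℝ) 1, ‖-I * β‖ ≤ 2 := fun β hβ => (norm_A0 hβ).trans one_le_two
  have hex0 : ∀ β ∈ Icc (0 : ℝ) 1, ∃ f, IsSol R 2 (-I * β) 1 0 0 f := fun β hβ =>
    ok0.exists_sol (hA0 β hβ) (by rw [norm_one, hR2]; linarith)
  choose! f₀ hf₀ using hex0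
  refine ⟨2 * R + 1, by linarith, Cs, fun β => Gr (-I * β) (f₀ β), fun β hβ =>
    ⟨contDiffOn_Gr hR (hf₀ β hβ).1.1 (by linarith), fun ρ hρ => ?_, fun i ρ hρ => ?_, ?_⟩, ?_,
    fun η hη => ?_⟩
  · rw [Mop_Gr hR (hf₀ β hβ) (by linarith)]
    simp [Nl]
  · have h := symb_Gr (A := -I * β) hR (hf₀ β hβ).1 (by simp) (by simp)
      (by simp [abs_of_nonneg hβ.1, hβ.2]) i hρ
    simpa using h
  · have h1 : Tendsto (fun ρ : ℝ => f₀ β ρ) atTop (𝓝 1) := by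
      rw [tendsto_iff_norm_sub_tendsto_zero]
      refine squeeze_zero' (Eventually.of_forall fun _ => norm_nonneg _) ?_
        (tendsto_const_nhds.div_atTop tendsto_id : Tendsto (fun ρ : ℝ => 273 / ρ) atTop (𝓝 0))
      filter_upwards [eventually_gt_atTop R] with ρ hρ
      exact (hf₀ β hβ).near ok0 (hA0 β hβ) (mem_HP hρ)
    have h2 := h1.norm
    rw [norm_one] at h2
    refine h2.congr' ?_
    filter_upwards [eventually_gt_atTop 0] with ρ hρ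
    rw [norm_Gr hρ]
    simp
  · refine continuousOn_data (K := 2) hR (by linarith) (by fun_prop)
      (fun β hβ => (hf₀ β hβ).1.1) fun p hp q hq z hz => ?_
    refine (ok0.stab (hA0 p hp) (hA0 q hq) (hf₀ p hp) (hf₀ q hq) z hz).trans_eq ?_
    rw [sub_self, norm_zero, zero_add, ← mul_sub, ← ofReal_sub, Real.dist_eq]
    simp only [norm_mul, norm_neg, norm_I, one_mul, Complex.norm_real, Real.norm_eq_abs]
  · have hθ0 : 0 < 1 - d / 2 := by linarith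
    have hθ1 : 1 - d / 2 < 1 := by linarith
    obtain ⟨m₀, hm₀⟩ := eventually_atTop.1
      ((small hθ0.le hθ1 (η := η / 10) (by positivity)).and (eventually_ge_atTop 1))
    refine ⟨m₀, fun m hm => ?_⟩
    obtain ⟨⟨s1, s2, s3⟩, hm1⟩ := hm₀ m hm
    have ok : Ok R (1 - d / 2) 1 m := ⟨by linarith, hθ0, by linarith,
      by rw [norm_one, one_mul]; exact pow_le_one₀ hθ0.le hθ1.le, by rwa [norm_one, one_mul]⟩
    have hex : ∀ β ∈ Icc (0 : ℝ) 1, ∀ c : ℂ, ‖c‖ ≤ 1 - δ →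
        ∃ f, IsSol R (1 - d / 2) (Lam m β) c 1 m f := fun β hβ c hc =>
      ok.exists_sol (norm_Lam m hβ) (by rw [hR2]; linarith)
    choose! f hf using hex
    refine ⟨fun β c => Gr (Lam m β) (f β c), ?_, fun β hβ c hc =>
      ⟨contDiffOn_Gr hR (hf β hβ c hc).1.1 (by linarith), fun ρ hρ => ?_, fun i ρ hρ => ?_,
        fun ρ hρ => ?_⟩⟩
    · refine continuousOn_data (K := 4) (A := fun p : ℝ × ℂ => Lam m p.1)
        (f := fun p => f p.1 p.2) hR (by linarith) (by unfold Lam; fun_prop)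
        (fun p hp => (hf _ hp.1 _ (mem_closedBall_zero_iff.1 hp.2)).1.1) fun p hp q hq z hz => ?_
      refine (ok.stab (norm_Lam m hp.1) (norm_Lam m hq.1)
        (hf _ hp.1 _ (mem_closedBall_zero_iff.1 hp.2))
        (hf _ hq.1 _ (mem_closedBall_zero_iff.1 hq.2)) z hz).trans ?_
      have a1 : ‖p.2 - q.2‖ ≤ dist p q := by
        rw [← dist_eq_norm, Prod.dist_eq]
        exact le_max_right _ _
      have a2 : ‖Lam m p.1 - Lam m q.1‖ ≤ dist p q := by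
        rw [Lam_eq, Lam_eq, add_sub_add_left_eq_sub, ← mul_sub, ← ofReal_sub, Prod.dist_eq]
        simp only [norm_mul, norm_neg, norm_I, one_mul, Complex.norm_real]
        exact le_max_left _ _
      linarith
    · rw [Mop_Gr hR (hf β hβ c hc) (by linarith), Nl_real hm1 β _ (by linarith)]
    · have h := symb_Gr (A := Lam m β) hR ((hf β hβ c hc).1.mono ok.two)
        (by rw [Lam_re]; positivity) (by rw [Lam_re]; exact a_le m)
        (by rw [Lam_im, abs_neg, abs_of_nonneg hβ.1]; exact hβ.2) i hρ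
      rwa [Lam_re] at h
    · have hρ0 : 0 < ρ := by linarith
      have hρR : R < ρ := by linarith
      have hρ1 : 1 ≤ ‖(ρ : ℂ)‖ := by
        rw [Complex.norm_real, Real.norm_of_nonneg hρ0.le]
        linarith
      have h1 : ∀ z ∈ HP R, ‖f β c z - c * f₀ β z‖ ≤ 4 * (η / 10) := fun z hz => by
        refine (ok.stab0 (norm_Lam m hβ) (hA0 β hβ) (by linarith) (hf β hβ c hc) (hf₀ β hβ)
          z hz).trans ?_
        rw [Lam_eq, add_sub_cancel_right, norm_a]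
        linarith
      have h2 := h1 _ (mem_HP hρR)
      constructor
      · simp only [Gr, Gc]
        rw [← mul_assoc, pow_cancel m β hρ0, mul_left_comm, ← mul_sub, norm_mul,
          norm_pow_A0 β hρ0, one_mul]
        linarith
      · have hn := (isOpen_HP R).mem_nhds (mem_HP hρR)
        have h3 := cauchy_one ((hf β hβ c hc).1.1.sub ((hf₀ β hβ).1.1.const_mul c)) one_pos
          (z := ρ) (by rw [ofReal_re]; linarith) h1
        rw [deriv_sub ((hf β hβ c hc).1.1.differentiableAt hn)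
          (((hf₀ β hβ).1.1.const_mul c).differentiableAt hn), deriv_const_mul_field, div_one] at h3
        rw [deriv_Gr hR (hf β hβ c hc).1.1 hρR, deriv_Gr hR (hf₀ β hβ).1.1 hρR, ← mul_assoc,
          pow_cancel m β hρ0, mul_left_comm, ← mul_sub, norm_mul, norm_pow_A0 β hρ0, one_mul]
        have e : deriv (f β c) ρ - Lam m β * f β c ρ / ρ -
            c * (deriv (f₀ β) ρ - -I * β * f₀ β ρ / ρ) =
            (deriv (f β c) ρ - c * deriv (f₀ β) ρ) - (((1 / (2 * (m : ℝ)) : ℝ) : ℂ) * f β c ρ +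
              -I * β * (f β c ρ - c * f₀ β ρ)) / ρ := by
          rw [Lam_eq]
          ring
        have h4 : ‖((1 / (2 * (m : ℝ)) : ℝ) : ℂ) * f β c ρ‖ ≤ η / 10 * 2 := by
          rw [norm_mul, norm_a]
          exact mul_le_mul s3 (((hf β hβ c hc).1.mono ok.two).2 _ (mem_HP hρR)) (norm_nonneg _)
            (by positivity)
        have h5 : ‖-I * β * (f β c ρ - c * f₀ β ρ)‖ ≤ 1 * (4 * (η / 10)) := by
          rw [norm_mul]
          exact mul_le_mul (norm_A0 hβ) h2 (norm_nonneg _) zero_le_one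
        rw [e]
        refine (norm_sub_le _ _).trans ?_
        rw [norm_div]
        have h6 := (div_le_self (norm_nonneg _) hρ1).trans
          ((norm_add_le _ _).trans (add_le_add h4 h5))
        linarith

end Vale.Agent.P139Z
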