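import Vale.Agent.P139Z.Modes
import Vale.Agent.P139Z.Decay.Rate

/-! Decay of bounded solutions at infinity. -/

open Set Filter Topology MeasureTheory Complex
open scoped NNReal ENNReal ComplexConjugate ContDiff

namespace Vale.Agent.P139Z

namespace Decay

theorem at_of_on {F : ℝ → ℂ} (hF : ContDiffOn ℝ 30 F (Ioi 0)) {ρ : ℝ} (hρ : 0 < ρ) {n : ℕ}
    (hn : n ≤ 30) : ContDiffAt ℝ n F ρ :=
  (hF.contDiffAt (Ioi_mem_nhds hρ)).of_le (by exact_mod_cast hn)

theorem at_of_symb {M : ℝ} {F : ℝ → ℂ} (hF : Symb M F) {ρ : ℝ} (hρ : 0 < ρ) (n : ℕ) :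
    ContDiffAt ℝ n F ρ :=
  (hF.smooth.contDiffAt (Ioi_mem_nhds hρ)).of_le (by exact_mod_cast le_top)

theorem at_conj {F : ℝ → ℂ} {ρ : ℝ} {n : ℕ} (h : ContDiffAt ℝ n F ρ) :
    ContDiffAt ℝ n (fun x => conj (F x)) ρ :=
  Complex.conjCLE.contDiff.contDiffAt.comp ρ h

theorem hasDerivAt_iter {F : ℝ → ℂ} (hF : ContDiffOn ℝ 30 F (Ioi 0)) {ρ : ℝ} (hρ : 0 < ρ) {n : ℕ}
    (hn : n + 1 ≤ 30) : HasDerivAt (iteratedDeriv n F) (iteratedDeriv (n + 1) F ρ) ρ := by
  rw [iteratedDeriv_succ]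
  refine DifferentiableAt.hasDerivAt ?_
  have h1 : DifferentiableOn ℝ (iteratedDerivWithin n F (Ioi 0)) (Ioi 0) :=
    hF.differentiableOn_iteratedDerivWithin (by exact_mod_cast Nat.lt_of_succ_le hn)
      (uniqueDiffOn_Ioi 0)
  have h2 := (h1.congr fun x hx =>
    (iteratedDerivWithin_of_isOpen isOpen_Ioi hx).symm).differentiableAt (Ioi_mem_nhds hρ)
  exact h2

/-- The product with a potential of order `-1`. -/
theorem rt_pot {V F : ℝ → ℂ} (hV : Symb (-1) V) {i : ℕ} {c : ℝ}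
    (hF : ∀ ρ : ℝ, 0 < ρ → ContDiffAt ℝ i F ρ)
    (h : ∀ n : ℕ, n ≤ i → Rt (c - 1 - (i - n : ℝ)) (iteratedDeriv n F)) :
    Rt c (iteratedDeriv i fun x => V x * F x) := by
  have h1 : Rt c fun ρ => ∑ k ∈ Finset.range (i + 1),
      (i.choose k : ℂ) * (iteratedDeriv k V ρ * iteratedDeriv (i - k) F ρ) := by
    refine Rt.sum _ fun k hk => Rt.const_mul ?_ _
    have hk' : k ≤ i := Nat.lt_succ_iff.1 (Finset.mem_range.1 hk)
    refine ((symb_rt hV k).mul (h (i - k) (Nat.sub_le _ _))).mono (le_of_eq ?_)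
    rw [Nat.cast_sub hk']
    ring
  refine h1.congr fun ρ hρ => ?_
  have hp : 0 < ρ := by linarith
  rw [iteratedDeriv_fun_mul (at_of_symb hV hp i) (hF ρ hp)]
  exact Finset.sum_congr rfl fun k _ => by ring

/-- Improvement of the rate of one level. -/
theorem improve {A : ℂ} {B : ℕ} {F S : ℝ → ℂ} (hF : ContDiffOn ℝ 30 F (Ioi 0))
    (e : ∀ ρ : ℝ, 0 < ρ → Mop A B F ρ = S ρ) {i : ℕ} (hi : i ≤ 28) {c : ℝ}
    (hc : c < A.re + i) (h1 : Rt c (iteratedDeriv (i + 1) F)) (hS : Rt c (iteratedDeriv i S)) :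
    Rt c (iteratedDeriv i F) := by
  have hK : Rt c fun ρ => iteratedDeriv i F ρ + (-4 * I) * iteratedDeriv (i + 1) F ρ := by
    refine Rt.of_euler (a := A + i)
      (K' := fun ρ => iteratedDeriv (i + 1) F ρ + (-4 * I) * iteratedDeriv (i + 1 + 1) F ρ)
      (fun ρ hρ => ?_) (fun ρ hρ => ?_)
      ((hS.add (h1.const_mul (4 * A - 4 * B))).const_mul (-I)) (by simpa using hc)
    · have hp : 0 < ρ := by linarith
      exact (hasDerivAt_iter hF hp (by omega)).add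
        ((hasDerivAt_iter hF hp (by omega)).const_mul _)
    · have hp : 0 < ρ := by linarith
      have ev : S =ᶠ[𝓝 ρ] Mop A B F := by
        filter_upwards [Ioi_mem_nhds hp] with x hx
        exact (e x hx).symm
      rw [ev.iteratedDeriv_eq, iteratedDeriv_Mop A B i (at_of_on hF hp (by omega))]
      have e2 : iteratedDeriv 2 (iteratedDeriv i F) = iteratedDeriv (i + 1 + 1) F := by
        rw [iteratedDeriv_succ (n := i + 1), iteratedDeriv_succ (n := i), iteratedDeriv_succ,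
          iteratedDeriv_one]
      simp only [Mop, e2, ← iteratedDeriv_succ]
      push_cast
      linear_combination (↑ρ * iteratedDeriv (i + 1) F ρ + (A + i) * iteratedDeriv i F ρ) * I_mul_I
  refine (hK.add (h1.const_mul (4 * I))).congr fun ρ _ => ?_
  ring

/-- One step of the induction, for one component. -/
theorem step {V₁ V₂ F H S : ℝ → ℂ} {A : ℂ} {B : ℕ} (h₁ : Symb (-1) V₁) (h₂ : Symb (-1) V₂)
    (hF : ContDiffOn ℝ 30 F (Ioi 0)) (hH : ContDiffOn ℝ 30 H (Ioi 0))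
    (e : ∀ ρ : ℝ, 0 < ρ → Mop A B F ρ = V₁ ρ * F ρ + V₂ ρ * conj (H ρ) + S ρ) {s b t t' : ℝ}
    (hA : s + b < A.re) (hSs : ∀ ρ : ℝ, 0 < ρ → ∀ n : ℕ, ContDiffAt ℝ n S ρ)
    (hS : ∀ n : ℕ, Rt (s + b + n) (iteratedDeriv n S)) (ht : t' ≤ t + 1) (hb : t' ≤ b)
    (h29 : Rt (s + 29 / 2) (iteratedDeriv 29 F))
    (rF : ∀ i : ℕ, i ≤ 29 → Rt (s + min (i + t) (29 / 2)) (iteratedDeriv i F))
    (rH : ∀ i : ℕ, i ≤ 29 → Rt (s + min (i + t) (29 / 2)) (iteratedDeriv i H)) :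
    ∀ i : ℕ, i ≤ 29 → Rt (s + min (i + t') (29 / 2)) (iteratedDeriv i F) := by
  intro i hi
  rcases Nat.lt_or_ge i 29 with hlt | hge
  · have m1 := min_le_left ((i : ℝ) + t') (29 / 2)
    have m2 := min_le_right ((i : ℝ) + t') (29 / 2)
    have hn : ∀ n : ℕ, n ≤ i → s + min ((i : ℝ) + t') (29 / 2) - 1 - (i - n : ℝ)
        ≤ s + min ((n : ℝ) + t) (29 / 2) := by
      intro n hn
      have hn' : (n : ℝ) ≤ i := by exact_mod_cast hn
      have : min ((i : ℝ) + t') (29 / 2) - 1 - (i - n : ℝ) ≤ min ((n : ℝ) + t) (29 / 2) :=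
        le_min (by linarith) (by linarith)
      linarith
    refine improve hF e (by omega) (by linarith) ((rF (i + 1) hlt).mono ?_) ?_
    · have : min ((i : ℝ) + t') (29 / 2) ≤ min (((i + 1 : ℕ) : ℝ) + t) (29 / 2) :=
        le_min (by push_cast; linarith) m2
      linarith
    · have cF : ∀ ρ : ℝ, 0 < ρ → ContDiffAt ℝ i F ρ := fun ρ hp => at_of_on hF hp (by omega)
      have cH : ∀ ρ : ℝ, 0 < ρ → ContDiffAt ℝ i (fun x => conj (H x)) ρ :=
        fun ρ hp => at_conj (at_of_on hH hp (by omega))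
      have a1 := rt_pot h₁ cF fun n hn' => (rF n (by omega)).mono (hn n hn')
      have a2 := rt_pot h₂ cH fun n hn' => ((rH n (by omega)).mono (hn n hn')).conj_iter
      have a3 := (hS i).mono (c' := s + min ((i : ℝ) + t') (29 / 2)) (by linarith)
      refine ((a1.add a2).add a3).congr fun ρ hρ => ?_
      have hp : 0 < ρ := by linarith
      have c1 := (at_of_symb h₁ hp i).mul (cF ρ hp)
      have c2 := (at_of_symb h₂ hp i).mul (cH ρ hp)
      rw [iteratedDeriv_fun_add (c1.add c2) (hSs ρ hp i), iteratedDeriv_fun_add c1 c2]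
  · obtain rfl : i = 29 := le_antisymm hi hge
    exact h29.mono (by linarith [min_le_right (((29 : ℕ) : ℝ) + t') (29 / 2)])

theorem decay_of_rt {b : ℝ} {F : ℝ → ℂ} (h : ∀ j : ℕ, j ≤ 10 → Rt (b + j) (iteratedDeriv j F)) :
    Decay b F := by
  have h' : ∀ j : ℕ, ∃ C : ℝ, 0 ≤ C ∧ (j ≤ 10 → ∀ ρ : ℝ, 1 ≤ ρ →
      ‖iteratedDeriv j F ρ‖ ≤ C * ρ ^ (-(b + j))) := by
    intro j
    by_cases hj : j ≤ 10
    · obtain ⟨C, h0, hC⟩ := h j hj
      exact ⟨C, h0, fun _ => hC⟩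
    · exact ⟨0, le_rfl, fun h => absurd h hj⟩
  choose C h0 hC using h'
  refine ⟨∑ j ∈ Finset.range 11, C j, fun j hj ρ hρ => (hC j hj ρ hρ).trans ?_⟩
  refine mul_le_mul_of_nonneg_right ?_ (Real.rpow_nonneg (by linarith) _)
  exact Finset.single_le_sum (fun i _ => h0 i) (Finset.mem_range.2 (by omega))

end Decay

open Decay

variable {m : ℕ} {β : ℝ} {G : ℝ → ℂ}

theorem RSol.decay (hm : 1 ≤ m) (hG : IsProfile m β G) {l : ℕ} {lam : ℂ} {f g SF SG : ℝ → ℂ}
    (h : RSol m β G l lam f g SF SG) {b : ℝ} (hb : b < lam.re + 1 / (2 * (m : ℝ))) (hb4 : b ≤ 4)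
    (hF : Symb (-((l : ℝ) / 2 + b)) (red l SF)) (hS : Symb (-((l : ℝ) / 2 + b)) (red l SG)) :
    Decay ((l : ℝ) / 2 + b) (red l f) ∧ Decay ((l : ℝ) / 2 + b) (red l g) := by
  obtain ⟨p1, p2⟩ := symb_pot hm hG
  have hr := h.redSol
  have hL : (Lam m β).re = 1 / (2 * (m : ℝ)) := by
    have : (1 / (2 * (m : ℂ))) = ((1 / (2 * (m : ℝ)) : ℝ) : ℂ) := by push_cast; rfl
    rw [Lam, this]
    simp only [Complex.sub_re, Complex.ofReal_re, Complex.mul_re, Complex.I_re, Complex.I_im,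
      Complex.ofReal_im]
    ring
  have hl : ((l : ℂ) / 2).re = (l : ℝ) / 2 := by
    have : ((l : ℂ) / 2) = (((l : ℝ) / 2 : ℝ) : ℂ) := by push_cast; rfl
    rw [this, Complex.ofReal_re]
  have hA : (l : ℝ) / 2 + b < ((l : ℂ) / 2 + lam + Lam m β).re := by
    rw [Complex.add_re, Complex.add_re, hL, hl]
    linarith
  have hA' : (l : ℝ) / 2 + b < ((l : ℂ) / 2 + conj lam + Lam m β).re := by
    rw [Complex.add_re, Complex.add_re, hL, hl, Complex.conj_re]
    linarith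
  have sF : ∀ j : ℕ, j ≤ 30 → Rt ((l : ℝ) / 2 + j / 2) (iteratedDeriv j (red l f)) :=
    fun j hj => rt_red l h.bf hj
  have sH : ∀ j : ℕ, j ≤ 30 → Rt ((l : ℝ) / 2 + j / 2) (iteratedDeriv j fun ρ => conj (red l g ρ)) :=
    fun j hj => (rt_red l h.bg hj).conj_iter
  have qF : ∀ n : ℕ, Rt ((l : ℝ) / 2 + b + n) (iteratedDeriv n (red l SF)) := fun n => by
    simpa only [neg_neg] using symb_rt hF n
  have qH : ∀ n : ℕ, Rt ((l : ℝ) / 2 + b + n) (iteratedDeriv n fun ρ => conj (red l SG ρ)) :=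
    fun n => by simpa only [neg_neg] using (symb_rt hS n).conj_iter
  have main : ∀ k : ℕ,
      (∀ i : ℕ, i ≤ 29 → Rt ((l : ℝ) / 2 + min (i + min (-15 + (k : ℝ)) b) (29 / 2))
        (iteratedDeriv i (red l f))) ∧
      ∀ i : ℕ, i ≤ 29 → Rt ((l : ℝ) / 2 + min (i + min (-15 + (k : ℝ)) b) (29 / 2))
        (iteratedDeriv i fun ρ => conj (red l g ρ)) := by
    intro k
    induction k with
    | zero =>
      have e : ∀ i : ℕ, i ≤ 29 → (l : ℝ) / 2 + min ((i : ℝ) + min (-15 + ((0 : ℕ) : ℝ)) b) (29 / 2)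
          ≤ (l : ℝ) / 2 + (i : ℝ) / 2 := by
        intro i hi
        have hi' : (i : ℝ) ≤ 29 := by exact_mod_cast hi
        have m1 := min_le_left ((i : ℝ) + min (-15 + ((0 : ℕ) : ℝ)) b) (29 / 2)
        have m2 := min_le_left (-15 + ((0 : ℕ) : ℝ)) b
        have m3 : -15 + ((0 : ℕ) : ℝ) = -15 := by simp
        have m4 : min ((i : ℝ) + min (-15 + ((0 : ℕ) : ℝ)) b) (29 / 2) ≤ (i : ℝ) / 2 :=
          m1.trans ((add_le_add le_rfl (m2.trans m3.le)).trans (by linarith))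
        exact add_le_add le_rfl m4
      exact ⟨fun i hi => (sF i (by omega)).mono (e i hi), fun i hi => (sH i (by omega)).mono (e i hi)⟩
    | succ k ih =>
      have ht : min (-15 + ((k + 1 : ℕ) : ℝ)) b ≤ min (-15 + (k : ℝ)) b + 1 := by
        have m1 := min_le_left (-15 + ((k + 1 : ℕ) : ℝ)) b
        have m2 := min_le_right (-15 + ((k + 1 : ℕ) : ℝ)) b
        have : min (-15 + ((k + 1 : ℕ) : ℝ)) b - 1 ≤ min (-15 + (k : ℝ)) b :=
          le_min (by push_cast at m1 ⊢; linarith) (by linarith)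
        linarith
      refine ⟨step p1 p2 hr.smoothF hr.smoothH hr.eqF hA (fun ρ hp n => at_of_symb hF hp n) qF ht
          (min_le_right _ _) (by simpa using sF 29 (by omega)) ih.1 ih.2,
        step p1 p2 hr.smoothH hr.smoothF hr.eqH hA' (fun ρ hp n => at_conj (at_of_symb hS hp n))
          qH ht (min_le_right _ _) (by simpa using sH 29 (by omega)) ih.2 ih.1⟩
  have e : ∀ j : ℕ, j ≤ 10 → (l : ℝ) / 2 + b + (j : ℕ)
      ≤ (l : ℝ) / 2 + min ((j : ℝ) + min (-15 + ((19 : ℕ) : ℝ)) b) (29 / 2) := by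
    intro j hj
    have hj' : (j : ℝ) ≤ 10 := by exact_mod_cast hj
    have m1 : b ≤ min (-15 + ((19 : ℕ) : ℝ)) b := le_min (by push_cast; linarith) le_rfl
    have : b + j ≤ min ((j : ℝ) + min (-15 + ((19 : ℕ) : ℝ)) b) (29 / 2) :=
      le_min (by linarith) (by linarith)
    linarith
  refine ⟨decay_of_rt fun j hj => ((main 19).1 j (by omega)).mono (e j hj),
    decay_of_rt fun j hj => ?_⟩
  have := (((main 19).2 j (by omega)).mono (e j hj)).conj_iter
  simpa only [Complex.conj_conj] using this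

theorem decay_radius {l : ℕ} {f : ℝ → ℂ} (hf : ContDiff ℝ 2 f) {b : ℝ}
    (h : Decay ((l : ℝ) / 2 + b) (red l f)) :
    ∃ C : ℝ, ∀ r : ℝ, 1 ≤ r → ‖f r‖ ≤ C * r ^ (-(2 * b)) ∧ ‖deriv f r‖ ≤ C * r ^ (-(2 * b + 1)) := by
  obtain ⟨C, hC⟩ := h
  have h0 : 0 ≤ C := by
    have := hC 0 (by omega) 1 le_rfl
    rw [Real.one_rpow, mul_one] at this
    exact (norm_nonneg _).trans this
  have hrep : ∀ r : ℝ, 0 < r → f r = (r : ℂ) ^ l * red l f (r ^ 2) := by
    intro r hr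
    have hr' : (r : ℂ) ≠ 0 := by exact_mod_cast hr.ne'
    rw [red, Real.sqrt_sq hr.le]
    field_simp
  have hpow : ∀ r : ℝ, 0 < r → ∀ c : ℝ, (r ^ 2) ^ c = r ^ (2 * c) := by
    intro r hr c
    rw [Real.rpow_mul hr.le, Real.rpow_two]
  refine ⟨(l + 2) * C, fun r hr => ?_⟩
  have hp : 0 < r := by linarith
  have hr2 : 1 ≤ r ^ 2 := one_le_pow₀ hr
  have b0 := hC 0 (by omega) _ hr2
  have b1 := hC 1 (by omega) _ hr2
  rw [iteratedDeriv_zero, hpow r hp] at b0
  rw [iteratedDeriv_one, hpow r hp] at b1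
  have hl0 : (0 : ℝ) ≤ l := Nat.cast_nonneg l
  have f0 : ‖f r‖ ≤ C * r ^ (-(2 * b)) := by
    rw [hrep r hp, norm_mul, norm_pow, Complex.norm_real, Real.norm_of_nonneg hp.le]
    refine (mul_le_mul_of_nonneg_left b0 (by positivity)).trans (le_of_eq ?_)
    rw [← Real.rpow_natCast, mul_left_comm, ← Real.rpow_add hp]
    congr 2
    push_cast
    ring
  constructor
  · refine f0.trans (mul_le_mul_of_nonneg_right ?_ (by positivity))
    nlinarith
  · have hd : DifferentiableAt ℝ (red l f) (r ^ 2) := by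
      have h1 := (contDiffAt_sq (n := 2) hf (l / 2) (pow_pos hp 2)).differentiableAt (by simp)
      refine h1.congr_of_eventuallyEq ?_
      filter_upwards [Ioi_mem_nhds (pow_pos hp 2)] with x hx
      exact red_eq_sq l f hx
    have h1 : HasDerivAt (fun x : ℝ => red l f (x ^ 2)) ((2 * r) • deriv (red l f) (r ^ 2)) r := by
      have h4 : HasDerivAt (fun x : ℝ => x ^ 2) (2 * r) r := by simpa using hasDerivAt_pow 2 r
      exact HasDerivAt.scomp (h := fun x : ℝ => x ^ 2) r hd.hasDerivAt h4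
    have h2 : HasDerivAt (fun x : ℝ => (x : ℂ) ^ l) ((l : ℂ) * (r : ℂ) ^ (l - 1)) r := by
      simpa using (hasDerivAt_pow l (r : ℂ)).comp_ofReal
    have h3 : HasDerivAt f ((l : ℂ) * (r : ℂ) ^ (l - 1) * red l f (r ^ 2)
        + (r : ℂ) ^ l * ((2 * r) • deriv (red l f) (r ^ 2))) r := by
      refine (h2.mul h1).congr_of_eventuallyEq ?_
      filter_upwards [Ioi_mem_nhds hp] with x hx
      exact hrep x hx
    have t1 : ‖(l : ℂ) * (r : ℂ) ^ (l - 1) * red l f (r ^ 2)‖ ≤ l * C * r ^ (-(2 * b + 1)) := by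
      rcases Nat.eq_zero_or_pos l with rfl | hl
      · simp
      · rw [norm_mul, norm_mul, norm_pow, Complex.norm_real, Real.norm_of_nonneg hp.le,
          Complex.norm_natCast]
        refine (mul_le_mul_of_nonneg_left b0 (by positivity)).trans (le_of_eq ?_)
        rw [← Real.rpow_natCast, Nat.cast_sub hl]
        have : r ^ (-(2 * b + 1)) = r ^ ((l : ℝ) - (1 : ℕ)) * r ^ (2 * -((l : ℝ) / 2 + b + (0 : ℕ))) := by
          rw [← Real.rpow_add hp]
          congr 1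
          push_cast
          ring
        rw [this]
        ring
    have t2 : ‖(r : ℂ) ^ l * ((2 * r) • deriv (red l f) (r ^ 2))‖ ≤ 2 * C * r ^ (-(2 * b + 1)) := by
      rw [norm_mul, norm_pow, Complex.norm_real, Real.norm_of_nonneg hp.le, norm_smul,
        Real.norm_of_nonneg (by positivity), ← mul_assoc]
      refine (mul_le_mul_of_nonneg_left b1 (by positivity)).trans (le_of_eq ?_)
      have : r ^ (-(2 * b + 1)) = r ^ (l : ℝ) * r ^ (1 : ℝ) *
          r ^ (2 * -((l : ℝ) / 2 + b + (1 : ℕ))) := by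
        rw [← Real.rpow_add hp, ← Real.rpow_add hp]
        congr 1
        push_cast
        ring
      rw [this, Real.rpow_natCast, Real.rpow_one]
      ring
    rw [h3.deriv]
    refine (norm_add_le _ _).trans ?_
    rw [add_mul, add_mul]
    exact add_le_add t1 t2

end Vale.Agent.P139Z
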