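import Mathlib
import Vale.Agent.P139.Bdl.B1

/-!
Definitions for the stable self-similar blow-up on the twelve-dimensional torus.
Part 1: radial (ODE) interface.  Part 2: weighted Fourier spaces.  Part 3: background data.
-/

open Set Filter Topology MeasureTheory Complex
open scoped NNReal ENNReal ComplexConjugate ContDiff

namespace Vale.Agent.P139Z

open Vale.Agent.P139.A

/-! ### Part 1: radial interface (dimension 12, nonlinearity `|u|^(2m) u`) -/

/-- `Λ = 1/(2m) - iβ`; the self-similar solution is `(T-t)^(-Λ) G(|x|²/(T-t))`. -/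
noncomputable def Lam (m : ℕ) (β : ℝ) : ℂ := 1 / (2 * (m : ℂ)) - I * β

/-- A smooth self-similar profile `G(ρ)`, `ρ = |y|²`, with symbol bounds. -/
structure IsProfile (m : ℕ) (β : ℝ) (G : ℝ → ℂ) : Prop where
  smooth : ContDiff ℝ ∞ G
  ode : ∀ ρ : ℝ, 0 ≤ ρ → 4 * ρ * iteratedDeriv 2 G ρ + (24 + I * ρ) * deriv G ρ
    + I * Lam m β * G ρ = (‖G ρ‖ : ℂ) ^ (2 * m) * G ρ
  symbol : ∀ j : ℕ, ∃ C : ℝ, ∀ ρ : ℝ, 0 ≤ ρ →
    ‖iteratedDeriv j G ρ‖ ≤ C * (1 + ρ) ^ (-(1 / (2 * (m : ℝ)) + j))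
  ne_zero : G 0 ≠ 0

/-- The profile as a function of the radius. -/
def Qr (G : ℝ → ℂ) (r : ℝ) : ℂ := G (r ^ 2)

/-- The diagonal potential `(m+1)|z|^(2m)`. -/
noncomputable def pot1 (m : ℕ) (z : ℂ) : ℂ := ((m : ℂ) + 1) * (‖z‖ : ℂ) ^ (2 * m)

/-- The off-diagonal potential `m |z|^(2m-2) z²`. -/
noncomputable def pot2 (m : ℕ) (z : ℂ) : ℂ := (m : ℂ) * (‖z‖ : ℂ) ^ (2 * (m - 1)) * z ^ 2

/-- First radial equation of the linearized operator, angular momentum `l`, eigenvalue `lam`. -/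
noncomputable def opF (m : ℕ) (β : ℝ) (G : ℝ → ℂ) (l : ℕ) (lam : ℂ) (f g : ℝ → ℂ) (r : ℝ) : ℂ :=
  iteratedDeriv 2 f r + 11 / (r : ℂ) * deriv f r - (l : ℂ) * ((l : ℂ) + 10) / (r : ℂ) ^ 2 * f r
    + I / 2 * r * deriv f r + I * (lam + Lam m β) * f r
    - pot1 m (Qr G r) * f r - pot2 m (Qr G r) * g r

/-- Second radial equation of the linearized operator. -/
noncomputable def opG (m : ℕ) (β : ℝ) (G : ℝ → ℂ) (l : ℕ) (lam : ℂ) (f g : ℝ → ℂ) (r : ℝ) : ℂ :=
  iteratedDeriv 2 g r + 11 / (r : ℂ) * deriv g r - (l : ℂ) * ((l : ℂ) + 10) / (r : ℂ) ^ 2 * g r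
    - I / 2 * r * deriv g r - I * (lam + conj (Lam m β)) * g r
    - pot1 m (Qr G r) * g r - conj (pot2 m (Qr G r)) * f r

/-- Radial part of the time-translation mode `(Λ + y·∇/2) Q`. -/
noncomputable def DQr (m : ℕ) (β : ℝ) (G : ℝ → ℂ) (r : ℝ) : ℂ :=
  Lam m β * Qr G r + r / 2 * deriv (Qr G) r

/-- First component of the symmetry modes with angular momentum `l`:
phase and time translation for `l = 0`, space translation for `l = 1`. -/
noncomputable def symF (m : ℕ) (β : ℝ) (G : ℝ → ℂ) (l : ℕ) (c₀ c₁ c₂ : ℂ) (r : ℝ) : ℂ :=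
  if l = 0 then c₀ * (I * Qr G r) + c₁ * DQr m β G r
  else if l = 1 then c₂ * deriv (Qr G) r else 0

/-- Second component of the symmetry modes. -/
noncomputable def symG (m : ℕ) (β : ℝ) (G : ℝ → ℂ) (l : ℕ) (c₀ c₁ c₂ : ℂ) (r : ℝ) : ℂ :=
  if l = 0 then c₀ * conj (I * Qr G r) + c₁ * conj (DQr m β G r)
  else if l = 1 then c₂ * conj (deriv (Qr G) r) else 0

/-- A function on the line with `K` continuous bounded derivatives. -/
structure BddC (K : ℕ) (f : ℝ → ℂ) : Prop where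
  smooth : ContDiff ℝ K f
  bdd : ∃ C : ℝ, ∀ j ≤ K, ∀ r : ℝ, ‖iteratedDeriv j f r‖ ≤ C

/-- Mode stability: in the closed right half-plane the only (generalized) modes of the linearized
operator are the symmetry modes. -/
def ModeStable (m : ℕ) (β : ℝ) (G : ℝ → ℂ) : Prop :=
  ∀ (l : ℕ) (lam : ℂ), 0 ≤ lam.re → ∀ f g : ℝ → ℂ, BddC 30 f → BddC 30 g → ∀ c₀ c₁ c₂ : ℂ,
    (∀ r : ℝ, 0 < r → opF m β G l lam f g r = -I * symF m β G l c₀ c₁ c₂ r ∧
      opG m β G l lam f g r = I * symG m β G l c₀ c₁ c₂ r) →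
    ∃ a₀ a₁ a₂ : ℂ, ∀ r : ℝ, 0 < r →
      f r = symF m β G l a₀ a₁ a₂ r ∧ g r = symG m β G l a₀ a₁ a₂ r

/-! ### Part 2: weighted Fourier spaces -/

/-- Frequency space, with the supremum norm. -/
abbrev Fq (d : ℕ) : Type := Fin d → ℝ

/-- Physical space. -/
abbrev Eu (d : ℕ) : Type := EuclideanSpace ℝ (Fin d)

variable {d k : ℕ}

/-- The weight `(1+|ξ|)^k`. -/
noncomputable def wt (k : ℕ) (ξ : Fq d) : ℝ := (1 + ‖ξ‖) ^ k

/-- `|ξ|²` (Euclidean). -/
def sq (ξ : Fq d) : ℝ := ∑ i, ξ i ^ 2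

/-- The pairing `ξ·y`. -/
def dot (ξ : Fq d) (y : Eu d) : ℝ := ∑ i, ξ i * y i

/-- The function `y ↦ ∫ e^{iξ·y} F(ξ) dξ`. -/
noncomputable def evf (F : Fq d → ℂ) (y : Eu d) : ℂ := ∫ ξ, cexp (I * dot ξ y) * F ξ

/-- All polynomial moments are finite. -/
def AllMom (F : Fq d → ℂ) : Prop := ∀ j : ℕ, Integrable fun ξ => (wt j ξ : ℂ) * F ξ

/-- The space `L¹((1+|ξ|)^k dξ)`, as a type synonym of `L¹(dξ)`. -/
def XW (d _k : ℕ) : Type := Lp ℂ 1 (volume : Measure (Fq d))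

namespace XW

noncomputable instance : NormedAddCommGroup (XW d k) :=
  inferInstanceAs (NormedAddCommGroup (Lp ℂ 1 (volume : Measure (Fq d))))

noncomputable instance : NormedSpace ℂ (XW d k) :=
  inferInstanceAs (NormedSpace ℂ (Lp ℂ 1 (volume : Measure (Fq d))))

instance : CompleteSpace (XW d k) :=
  inferInstanceAs (CompleteSpace (Lp ℂ 1 (volume : Measure (Fq d))))

/-- The function represented by an element. -/
noncomputable def fn (F : XW d k) (ξ : Fq d) : ℂ :=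
  (show Lp ℂ 1 (volume : Measure (Fq d)) from F) ξ / (wt k ξ : ℂ)

/-- The element represented by a function. -/
noncomputable def mk (f : Fq d → ℂ) (h : Integrable fun ξ => (wt k ξ : ℂ) * f ξ) : XW d k :=
  (h.toL1 _ : Lp ℂ 1 (volume : Measure (Fq d)))

/-- Physical-space function of an element. -/
noncomputable def ev (F : XW d k) (y : Eu d) : ℂ := evf (fn F) y

/-- The weighted norm of order `j`. -/
noncomputable def nrmX (j : ℕ) (F : XW d k) : ℝ := ∫ ξ, wt j ξ * ‖fn F ξ‖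

end XW

/-- The free flow in self-similar variables on the Fourier side (`σ = 1`: the equation,
`σ = -1`: its conjugate, `σ = 0`: pure dilation). -/
noncomputable def Tfun (Λ : ℂ) (σ s : ℝ) (F : Fq d → ℂ) (ξ : Fq d) : ℂ :=
  cexp (-Λ * s + (d : ℂ) * s / 2 - I * σ * ((Real.exp s - 1) * sq ξ : ℝ))
    * F (Real.exp (s / 2) • ξ)

/-- The physical-space value of the generator of `Tfun`, written on the Fourier side. -/
noncomputable def evL (Λ : ℂ) (σ : ℝ) (F : Fq d → ℂ) (y : Eu d) : ℂ :=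
  ∫ ξ, (-I * σ * sq ξ - Λ - I / 2 * dot ξ y) * (cexp (I * dot ξ y) * F ξ)

/-- Laplacian. -/
noncomputable def lap (f : Eu d → ℂ) (y : Eu d) : ℂ :=
  ∑ i, fderiv ℝ (fun z => fderiv ℝ f z (EuclideanSpace.single i 1)) y (EuclideanSpace.single i 1)

/-- Euler operator `y·∇`. -/
noncomputable def eul (f : Eu d → ℂ) (y : Eu d) : ℂ := fderiv ℝ f y y

/-- The cell of the lattice point `ρ n`. -/
def cell (ρ : ℝ) (n : Lat d) : Set (Fq d) := {ξ | ∀ i, round (ξ i / ρ) = n i}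

/-- Scaled weighted `ℓ¹` norm of order `j` on the Wiener algebra. -/
noncomputable def nrm (ρ : ℝ) (j : ℕ) (a : WA d k) : ℝ :=
  ∑' n, (1 + ρ * ‖n‖) ^ j * ‖WA.coef a n‖

/-! ### Part 3: background data -/

/-- First component of the linearized operator in physical space. -/
noncomputable def linF (m : ℕ) (Λ : ℂ) (q f g : Eu d → ℂ) (y : Eu d) : ℂ :=
  I * lap f y - 1 / 2 * eul f y - Λ * f y - I * (pot1 m (q y) * f y + pot2 m (q y) * g y)

/-- Second component of the linearized operator in physical space. -/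
noncomputable def linG (m : ℕ) (Λ : ℂ) (q f g : Eu d → ℂ) (y : Eu d) : ℂ :=
  -I * lap g y - 1 / 2 * eul g y - conj Λ * g y
    + I * (pot1 m (q y) * g y + conj (pot2 m (q y)) * f y)

/-- A self-similar profile given on the Fourier side, with its symmetry modes. -/
structure Bg (d m : ℕ) where
  Λ : ℂ
  Λ_re : Λ.re = 1 / (2 * (m : ℝ))
  Q : Fq d → ℂ
  DQ : Fq d → ℂ
  momQ : AllMom Q
  momDQ : AllMom DQ
  momX : ∀ i, AllMom fun ξ => I * ξ i * Q ξ
  q_zero : evf Q 0 ≠ 0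
  eqQ : ∀ y, I * lap (evf Q) y - 1 / 2 * eul (evf Q) y - Λ * evf Q y
    = I * ((‖evf Q y‖ : ℂ) ^ (2 * m) * evf Q y)
  eqDQ : ∀ y, evf DQ y = Λ * evf Q y + 1 / 2 * eul (evf Q) y
  modeD : ∀ y, linF m Λ (evf Q) (evf DQ) (fun z => conj (evf DQ z)) y = evf DQ y
  modeX : ∀ i y, linF m Λ (evf Q) (evf fun ξ => I * ξ i * Q ξ)
    (fun z => conj (evf (fun ξ => I * ξ i * Q ξ) z)) y = 1 / 2 * evf (fun ξ => I * ξ i * Q ξ) y

namespace Bg

variable {m : ℕ} (B : Bg d m)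

/-- First component of a complex combination of the symmetry modes. -/
noncomputable def eF (c₀ c₁ : ℂ) (c : Fin d → ℂ) (y : Eu d) : ℂ :=
  c₀ * (I * evf B.Q y) + c₁ * evf B.DQ y + ∑ i, c i * evf (fun ξ => I * ξ i * B.Q ξ) y

/-- Second component of a complex combination of the symmetry modes. -/
noncomputable def eG (c₀ c₁ : ℂ) (c : Fin d → ℂ) (y : Eu d) : ℂ :=
  c₀ * conj (I * evf B.Q y) + c₁ * conj (evf B.DQ y)
    + ∑ i, c i * conj (evf (fun ξ => I * ξ i * B.Q ξ) y)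

/-- Mode stability in physical space, in the class of functions with `K` bounded derivatives. -/
def PMS (K : ℕ) : Prop :=
  ∀ lam : ℂ, 0 ≤ lam.re → ∀ f g : Eu d → ℂ, ContDiff ℝ K f → ContDiff ℝ K g →
    (∃ C : ℝ, ∀ j ≤ K, ∀ y, ‖iteratedFDeriv ℝ j f y‖ ≤ C ∧ ‖iteratedFDeriv ℝ j g y‖ ≤ C) →
    ∀ (c₀ c₁ : ℂ) (c : Fin d → ℂ),
      (∀ y, linF m B.Λ (evf B.Q) f g y = lam * f y + B.eF c₀ c₁ c y ∧
        linG m B.Λ (evf B.Q) f g y = lam * g y + B.eG c₀ c₁ c y) →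
      ∃ (a₀ a₁ : ℂ) (a : Fin d → ℂ), ∀ y, f y = B.eF a₀ a₁ a y ∧ g y = B.eG a₀ a₁ a y

/-- The profile in the space of order `k`. -/
noncomputable def Qh (k : ℕ) : XW d k := XW.mk B.Q (B.momQ k)

/-- The time-translation mode in the space of order `k`. -/
noncomputable def DQh (k : ℕ) : XW d k := XW.mk B.DQ (B.momDQ k)

/-- The space-translation modes in the space of order `k`. -/
noncomputable def Xh (k : ℕ) (i : Fin d) : XW d k :=
  XW.mk (fun ξ => I * ξ i * B.Q ξ) (B.momX i k)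

end Bg

end Vale.Agent.P139Z
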