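import Vale.Agent.P139Z.Nrm

/-!
Block ENERGY: energy inequalities in the scaled norms.
-/

open Set Filter Topology MeasureTheory Complex
open scoped NNReal ENNReal ComplexConjugate ContDiff

namespace Vale.Agent.P139Z

open Vale.Agent.P139 Vale.Agent.P139.A Vale.Agent.P139.A.WA

variable {d k : ℕ}

namespace Energy

/-- The estimate for one coefficient. -/
theorem coef_le {τ : ℝ} {f g c : ℝ → ℂ} (hf : ContinuousOn f (Icc 0 τ))
    (hg : ContinuousOn g (Icc 0 τ)) (hc : ∀ s, 0 ≤ (c s).re)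
    (h : ∀ s ∈ Icc 0 τ, HasDerivWithinAt f (-c s * f s + g s) (Icc 0 τ) s) {s : ℝ}
    (hs : s ∈ Icc 0 τ) : ‖f s‖ ≤ ‖f 0‖ + ∫ σ in (0 : ℝ)..s, ‖g σ‖ := by
  refine le_of_forall_pos_le_add fun ε hε => ?_
  have hτ : 0 ≤ τ := hs.1.trans hs.2
  let G : ℝ → ℝ := fun σ => ‖g (projIcc 0 τ hτ σ)‖
  have hG : Continuous G := (hg.comp_continuous
    (continuous_subtype_val.comp continuous_projIcc) fun σ => (projIcc 0 τ hτ σ).2).norm
  have hGe : ∀ σ ∈ Icc 0 τ, G σ = ‖g σ‖ := fun σ hσ => by simp only [G, projIcc_of_mem hτ hσ]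
  have hpos : ∀ t, 0 < ‖f t‖ ^ 2 + ε ^ 2 := fun t => by positivity
  have key := image_le_of_deriv_right_le_deriv_boundary (a := 0) (b := τ)
    (f := fun t => √(‖f t‖ ^ 2 + ε ^ 2))
    (f' := fun t => 2 * inner ℝ (f t) (-c t * f t + g t) / (2 * √(‖f t‖ ^ 2 + ε ^ 2)))
    (B := fun t => ‖f 0‖ + ε + ∫ σ in (0 : ℝ)..t, G σ) (B' := G)
    (((hf.norm.pow 2).add continuousOn_const).sqrt)
    (fun t ht => ((((h t (Ico_subset_Icc_self ht)).mono_of_mem_nhdsWithin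
      (Icc_mem_nhdsGE_of_mem ht)).norm_sq).add_const _).sqrt (hpos t).ne')
    (by
      rw [intervalIntegral.integral_same, add_zero]
      exact Real.sqrt_le_iff.2 ⟨by positivity, by nlinarith [norm_nonneg (f 0)]⟩)
    (continuousOn_const.add
      (intervalIntegral.continuous_primitive (fun a b => hG.intervalIntegrable a b) 0).continuousOn)
    (fun t _ => ((hG.integral_hasStrictDerivAt 0 t).hasDerivAt.const_add _).hasDerivWithinAt)
    (fun t ht => by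
      have h1 : ‖f t‖ ≤ √(‖f t‖ ^ 2 + ε ^ 2) := Real.le_sqrt_of_sq_le (by nlinarith)
      have h2 : inner ℝ (f t) (-c t * f t) = -((c t).re * ‖f t‖ ^ 2) := by
        rw [Complex.inner, Complex.sq_norm, Complex.normSq_apply]
        simp only [mul_re, mul_im, neg_re, neg_im, conj_re, conj_im]
        ring
      have h3 := real_inner_le_norm (f t) (g t)
      have h4 := mul_nonneg (hc t) (sq_nonneg ‖f t‖)
      rw [hGe t (Ico_subset_Icc_self ht), inner_add_right, h2,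
        div_le_iff₀ (mul_pos two_pos (Real.sqrt_pos.2 (hpos t)))]
      nlinarith [norm_nonneg (g t)]) hs
  have h5 : ‖f s‖ ≤ √(‖f s‖ ^ 2 + ε ^ 2) := Real.le_sqrt_of_sq_le (by nlinarith)
  have h6 : ∫ σ in (0 : ℝ)..s, G σ = ∫ σ in (0 : ℝ)..s, ‖g σ‖ :=
    intervalIntegral.integral_congr fun σ hσ => hGe σ (by
      rw [uIcc_of_le hs.1] at hσ; exact ⟨hσ.1, hσ.2.trans hs.2⟩)
  simp only [h6] at key
  linarith

theorem cont_nrm {τ : ℝ} {g : ℝ → WA d k} (hg : ContinuousOn g (Icc 0 τ)) {ρ : ℝ → ℝ}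
    (hρ : Continuous ρ) (h0 : ∀ s, 0 ≤ ρ s) {j : ℕ} (hj : j ≤ k) :
    ContinuousOn (fun σ => nrm (ρ σ) j (g σ)) (Icc 0 τ) :=
  (continuous_nrm hj).comp (f := fun σ => (ρ σ, g σ)) (hρ.continuousOn.prodMk hg)
    fun σ _ => ⟨h0 σ, mem_univ _⟩

/-- The estimate with a fixed weight, followed by a comparison of the weights. -/
theorem fixed {τ ρ : ℝ} (hρ : 0 ≤ ρ) {Λ : ℂ} (hΛ : 0 ≤ Λ.re) {z g : ℝ → WA d k}
    (hz : ContinuousOn z (Icc 0 τ)) (hg : ContinuousOn g (Icc 0 τ)) (θ : ℝ → Lat d → ℝ)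
    (h : ∀ s ∈ Icc 0 τ, ∀ n, HasDerivWithinAt (fun t => coef (z t) n)
      (-(Λ + I * θ s n) * coef (z s) n + coef (g s) n) (Icc 0 τ) s)
    {j : ℕ} (hj : j ≤ k) {s : ℝ} (hs : s ∈ Icc 0 τ) {Φ : ℝ → ℝ} (hΦ : ContinuousOn Φ (Icc 0 τ))
    (hle : ∀ σ ∈ Icc 0 s, nrm ρ j (g σ) ≤ Φ σ) :
    nrm ρ j (z s) ≤ nrm ρ j (z 0) + ∫ σ in (0 : ℝ)..s, Φ σ := by
  have hsub : uIcc 0 s ⊆ Icc 0 τ := by
    rw [uIcc_of_le hs.1]; exact Icc_subset_Icc_right hs.2
  have hc : ∀ (u : ℝ → WA d k), ContinuousOn u (Icc 0 τ) → ∀ n,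
      ContinuousOn (fun t => coef (u t) n) (Icc 0 τ) := fun u hu n =>
    (coefL n).continuous.comp_continuousOn hu
  have hi : ∀ n : Lat d, IntervalIntegrable (fun σ => (1 + ρ * ‖n‖) ^ j * ‖coef (g σ) n‖)
      volume 0 s := fun n =>
    ((continuousOn_const.mul (hc g hg n).norm).mono hsub).intervalIntegrable
  refine (summable_nrm hρ hj (z s)).tsum_le_of_sum_le fun F => ?_
  calc ∑ n ∈ F, (1 + ρ * ‖n‖) ^ j * ‖coef (z s) n‖
      ≤ ∑ n ∈ F, ((1 + ρ * ‖n‖) ^ j * ‖coef (z 0) n‖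
          + ∫ σ in (0 : ℝ)..s, (1 + ρ * ‖n‖) ^ j * ‖coef (g σ) n‖) := by
        refine Finset.sum_le_sum fun n _ => ?_
        rw [intervalIntegral.integral_const_mul, ← mul_add]
        exact mul_le_mul_of_nonneg_left (coef_le (c := fun s => Λ + I * θ s n) (hc z hz n)
          (hc g hg n) (fun s => by simpa using hΛ) (fun s hs => h s hs n) hs) (by positivity)
    _ ≤ _ := by
        rw [Finset.sum_add_distrib, ← intervalIntegral.integral_finsetSum fun n _ => hi n]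
        refine add_le_add ((summable_nrm hρ hj (z 0)).sum_le_tsum F fun n _ => by positivity)
          (intervalIntegral.integral_mono_on hs.1 ?_ (hΦ.mono hsub).intervalIntegrable
            fun σ hσ => ((summable_nrm hρ hj (g σ)).sum_le_tsum F
              fun n _ => by positivity).trans (hle σ hσ))
        exact ((continuousOn_finsetSum F fun n _ =>
          continuousOn_const.mul (hc g hg n).norm).mono hsub).intervalIntegrable

theorem pow_gain (k : ℕ) {γ x : ℝ} (h0 : 0 ≤ γ) (h1 : γ ≤ 1) (hx : 0 ≤ x) :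
    (1 + γ ^ 2 * x) ^ k ≤ γ ^ k * (1 + x) ^ k + 2 ^ k * (1 + x) ^ (k - 1) := by
  rcases le_or_gt (1 + γ ^ 2 * x) (γ * (1 + x)) with h | h
  · rw [← mul_pow]
    exact (pow_le_pow_left₀ (by positivity) h k).trans (le_add_of_nonneg_right (by positivity))
  · have h2 : γ * x ≤ 1 := by
      by_contra h3
      nlinarith [mul_nonneg (sub_nonneg.2 h1) (sub_nonneg.2 (not_le.1 h3).le)]
    have h3 : (1 + γ ^ 2 * x) ^ k ≤ 2 ^ k :=
      pow_le_pow_left₀ (by positivity) (by nlinarith [mul_nonneg h0 hx]) k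
    have h4 : (2 : ℝ) ^ k ≤ 2 ^ k * (1 + x) ^ (k - 1) :=
      le_mul_of_one_le_right (by positivity) (one_le_pow₀ (by linarith))
    exact (h3.trans h4).trans (le_add_of_nonneg_left (by positivity))

theorem nrm_gain {lam s σ : ℝ} (hlam : 0 ≤ lam) (h : σ ≤ s) (a : WA d k) :
    nrm (lam * Real.exp (-s / 2)) k a ≤
      Real.exp (-(k / 4) * (s - σ)) * nrm (lam * Real.exp (-σ / 2)) k a
        + 2 ^ k * nrm (lam * Real.exp (-σ / 2)) (k - 1) a := by
  have h1 : 0 ≤ lam * Real.exp (-σ / 2) := by positivity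
  have hA := (summable_nrm h1 le_rfl a).mul_left (Real.exp (-(k / 4) * (s - σ)))
  have hB := (summable_nrm h1 (Nat.sub_le k 1) a).mul_left (2 ^ k)
  unfold nrm
  rw [← tsum_mul_left, ← tsum_mul_left, ← hA.tsum_add hB]
  refine (summable_nrm (by positivity) le_rfl a).tsum_le_tsum (fun n => ?_) (hA.add hB)
  have h2 := pow_gain k (γ := Real.exp (-(s - σ) / 4)) (Real.exp_pos _).le
    (Real.exp_le_one_iff.2 (by linarith)) (x := lam * Real.exp (-σ / 2) * ‖n‖) (by positivity)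
  have h3 : Real.exp (-(s - σ) / 4) ^ 2 * (lam * Real.exp (-σ / 2) * ‖n‖)
      = lam * Real.exp (-s / 2) * ‖n‖ := by
    rw [← Real.exp_nat_mul, show -s / 2 = (2 : ℕ) * (-(s - σ) / 4) + -σ / 2 by push_cast; ring,
      Real.exp_add]
    ring
  rw [h3, ← Real.exp_nat_mul, show (k : ℝ) * (-(s - σ) / 4) = -(k / 4) * (s - σ) by ring] at h2
  nlinarith [mul_le_mul_of_nonneg_right h2 (norm_nonneg (coef a n))]

theorem nrm_plain {lam s σ : ℝ} (hlam : 0 ≤ lam) (h : σ ≤ s) {j : ℕ} (hj : j ≤ k) (a : WA d k) :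
    nrm (lam * Real.exp (-s / 2)) j a ≤ nrm (lam * Real.exp (-σ / 2)) j a := by
  have := nrm_scale_le (ρ := lam * Real.exp (-σ / 2)) (ρ' := lam * Real.exp (-s / 2)) (c := 1)
    (by positivity) (by positivity) le_rfl
    (by rw [one_mul]; exact mul_le_mul_of_nonneg_left (Real.exp_le_exp.2 (by linarith)) hlam) hj a
  rwa [one_pow, one_mul] at this

end Energy

/-- Energy inequality without gain. -/
theorem energy_plain {lam τ : ℝ} (hlam : 0 ≤ lam) {Λ : ℂ} (hΛ : 0 ≤ Λ.re) {z g : ℝ → WA d k}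
    (hz : ContinuousOn z (Icc 0 τ)) (hg : ContinuousOn g (Icc 0 τ)) (θ : ℝ → Lat d → ℝ)
    (h : ∀ s ∈ Icc 0 τ, ∀ n, HasDerivWithinAt (fun t => coef (z t) n)
      (-(Λ + I * θ s n) * coef (z s) n + coef (g s) n) (Icc 0 τ) s)
    {j : ℕ} (hj : j ≤ k) {s : ℝ} (hs : s ∈ Icc 0 τ) :
    nrm (lam * Real.exp (-s / 2)) j (z s) ≤ nrm lam j (z 0)
      + ∫ σ in (0 : ℝ)..s, nrm (lam * Real.exp (-σ / 2)) j (g σ) := by
  have h1 := Energy.fixed (ρ := lam * Real.exp (-s / 2)) (by positivity) hΛ hz hg θ h hj hs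
    (Energy.cont_nrm hg (ρ := fun σ => lam * Real.exp (-σ / 2)) (by fun_prop)
      (fun σ => by positivity) hj) fun σ hσ => Energy.nrm_plain hlam hσ.2 hj _
  have h2 := Energy.nrm_plain hlam hs.1 hj (z 0)
  rw [neg_zero, zero_div, Real.exp_zero, mul_one] at h2
  linarith

/-- Energy inequality with gain at high frequency. -/
theorem energy_gain {lam τ : ℝ} (hlam : 0 ≤ lam) {Λ : ℂ} (hΛ : 0 ≤ Λ.re) {z g : ℝ → WA d k}
    (hz : ContinuousOn z (Icc 0 τ)) (hg : ContinuousOn g (Icc 0 τ)) (θ : ℝ → Lat d → ℝ)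
    (h : ∀ s ∈ Icc 0 τ, ∀ n, HasDerivWithinAt (fun t => coef (z t) n)
      (-(Λ + I * θ s n) * coef (z s) n + coef (g s) n) (Icc 0 τ) s)
    {s : ℝ} (hs : s ∈ Icc 0 τ) :
    nrm (lam * Real.exp (-s / 2)) k (z s) ≤ Real.exp (-(k / 4) * s) * nrm lam k (z 0)
      + 2 ^ k * nrm lam (k - 1) (z 0)
      + ∫ σ in (0 : ℝ)..s, (Real.exp (-(k / 4) * (s - σ)) * nrm (lam * Real.exp (-σ / 2)) k (g σ)
        + 2 ^ k * nrm (lam * Real.exp (-σ / 2)) (k - 1) (g σ)) := by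
  have hc := fun j hj => Energy.cont_nrm hg (ρ := fun σ => lam * Real.exp (-σ / 2)) (by fun_prop)
    (fun σ => by positivity) (j := j) hj
  have h1 := Energy.fixed (ρ := lam * Real.exp (-s / 2)) (by positivity) hΛ hz hg θ h le_rfl hs
    (Φ := fun σ => Real.exp (-(k / 4) * (s - σ)) * nrm (lam * Real.exp (-σ / 2)) k (g σ)
      + 2 ^ k * nrm (lam * Real.exp (-σ / 2)) (k - 1) (g σ))
    ((ContinuousOn.mul (by fun_prop) (hc k le_rfl)).add
      (continuousOn_const.mul (hc _ (Nat.sub_le k 1)))) fun σ hσ => Energy.nrm_gain hlam hσ.2 _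
  have h2 := Energy.nrm_gain hlam hs.1 (z 0)
  rw [neg_zero, zero_div, Real.exp_zero, mul_one, sub_zero] at h2
  linarith

end Vale.Agent.P139Z
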