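import Vale.Agent.P139Z.Decay
import Vale.Agent.P139Z.ExtE.A

/-! The mass estimate at the levels seven and eight. -/

open Set Filter Topology MeasureTheory Complex
open scoped NNReal ENNReal ComplexConjugate ContDiff

namespace Vale.Agent.P139Z

/-- The flux at level `j`, at the point `ρ`. -/
noncomputable def fl (B j : ℕ) (F : ℝ → ℂ) (ρ : ℝ) : ℝ :=
  ρ ^ (B + j) * (4 * (conj (iteratedDeriv j F ρ) * iteratedDeriv (j + 1) F ρ).im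
    + ‖iteratedDeriv j F ρ‖ ^ 2 / 2)

/-- Weighted norm of the level `j` on `(ρ₀, ∞)` with the weight `ρ^p`. -/
noncomputable def wn (p : ℝ) (j : ℕ) (F H : ℝ → ℂ) (ρ₀ : ℝ) : ℝ :=
  ∫ ρ in Ioi ρ₀, ρ ^ p * (‖iteratedDeriv j F ρ‖ ^ 2 + ‖iteratedDeriv j H ρ‖ ^ 2)

/-- Boundary values of the levels below seven. -/
noncomputable def bv (B : ℕ) (F H : ℝ → ℂ) (ρ₀ : ℝ) : ℝ :=
  ρ₀ ^ B * ∑ i ∈ Finset.range 7, (‖iteratedDeriv i F ρ₀‖ ^ 2 + ‖iteratedDeriv i H ρ₀‖ ^ 2)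

namespace ExtE

theorem hasDerivAt_fl {A : ℂ} {l j : ℕ} {F R : ℝ → ℂ} (h : ContDiffOn ℝ 30 F (Ioi 0))
    (e : ∀ ρ : ℝ, 0 < ρ → Mop A (6 + l) F ρ = R ρ) (hj : j ≤ 8) {x : ℝ} (hx : 0 < x) :
    HasDerivAt (fl (6 + l) j F) ((x ^ (((l : ℝ) + 5 + j) / 2)) ^ 2
      * (conj (iteratedDeriv j F x) * iteratedDeriv j R x).im
      - (A.re + j - ((6 + l + j : ℕ) : ℝ) / 2) * (x ^ (((l : ℝ) + 5 + j) / 2)) ^ 2
        * ‖iteratedDeriv j F x‖ ^ 2) x := by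
  have h1 := hasDerivAt_mass (A + j) (B := 6 + l + j) (by omega) (cda h (j := j) (k := 2)
    (by omega) hx)
  have h2 : iteratedDeriv j R x = Mop (A + j) (6 + l + j) (iteratedDeriv j F) x := by
    rw [← iteratedDeriv_Mop A (6 + l) j ((h.contDiffAt (Ioi_mem_nhds hx)).of_le
      (by exact_mod_cast (show j + 2 ≤ 30 by omega)))]
    refine Filter.EventuallyEq.iteratedDeriv_eq j ?_
    filter_upwards [Ioi_mem_nhds hx] with y hy using (e y hy).symm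
  have h3 : (x ^ (((l : ℝ) + 5 + j) / 2)) ^ 2 = x ^ (6 + l + j - 1) := by
    rw [sq_half hx, ← Real.rpow_natCast, show 6 + l + j - 1 = l + 5 + j by omega]
    push_cast
    rfl
  have h4 : fl (6 + l) j F = fun x : ℝ => 4 * x ^ (6 + l + j)
      * (conj (iteratedDeriv j F x) * deriv (iteratedDeriv j F) x).im
      + x ^ (6 + l + j) * ‖iteratedDeriv j F x‖ ^ 2 / 2 := by
    funext y
    rw [fl, iteratedDeriv_succ]
    ring
  rw [h2, h3, h4]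
  simpa using h1

theorem tendsto_fl {l j : ℕ} {F : ℝ → ℂ} (hD : Decay ((l : ℝ) / 2) F) (hj7 : 7 ≤ j) (hj : j ≤ 8) :
    Tendsto (fl (6 + l) j F) atTop (𝓝 0) := by
  have hj7' : (7 : ℝ) ≤ j := by exact_mod_cast hj7
  have h1 := tend hD (j := j) (by omega) (p := ((6 + l + j : ℕ) : ℝ)) (by push_cast; linarith)
  have h2 := tend hD (j := j + 1) (by omega) (p := ((6 + l + j : ℕ) : ℝ)) (by push_cast; linarith)
  have h3 := (h1.const_mul 3).add (h2.const_mul 2)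
  simp only [mul_zero, add_zero, Real.rpow_natCast] at h3
  refine squeeze_zero_norm' ?_ h3
  filter_upwards [eventually_ge_atTop 0] with x hx
  have h4 : |(conj (iteratedDeriv j F x) * iteratedDeriv (j + 1) F x).im|
      ≤ ‖iteratedDeriv j F x‖ * ‖iteratedDeriv (j + 1) F x‖ := by
    simpa using abs_im_le_norm (conj (iteratedDeriv j F x) * iteratedDeriv (j + 1) F x)
  have h5 : |4 * (conj (iteratedDeriv j F x) * iteratedDeriv (j + 1) F x).im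
      + ‖iteratedDeriv j F x‖ ^ 2 / 2|
      ≤ 3 * ‖iteratedDeriv j F x‖ ^ 2 + 2 * ‖iteratedDeriv (j + 1) F x‖ ^ 2 := by
    obtain ⟨h6, h7⟩ := abs_le.1 h4
    have h8 := sq_nonneg (‖iteratedDeriv j F x‖ - ‖iteratedDeriv (j + 1) F x‖)
    have h9 := sq_nonneg ‖iteratedDeriv j F x‖
    exact abs_le.2 ⟨by nlinarith, by nlinarith⟩
  rw [fl, Real.norm_eq_abs, abs_mul, abs_of_nonneg (pow_nonneg hx _)]
  exact (mul_le_mul_of_nonneg_left h5 (pow_nonneg hx _)).trans (le_of_eq (by ring))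

theorem intg2 {F H : ℝ → ℂ} (hF : ContDiffOn ℝ 30 F (Ioi 0)) (hH : ContDiffOn ℝ 30 H (Ioi 0))
    {l : ℕ} (hDF : Decay ((l : ℝ) / 2) F) (hDH : Decay ((l : ℝ) / 2) H) {j : ℕ} (hj : j ≤ 10)
    {p a : ℝ} (ha : 1 ≤ a) (hp : p - l - 2 * j < -1) :
    IntegrableOn (fun x : ℝ => x ^ p * (‖iteratedDeriv j F x‖ ^ 2 + ‖iteratedDeriv j H x‖ ^ 2))
      (Ioi a) := by
  simp only [mul_add]
  exact (intg hF hDF hj ha hp).add (intg hH hDH hj ha hp)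

theorem wn_eq {F H : ℝ → ℂ} (hF : ContDiffOn ℝ 30 F (Ioi 0)) (hH : ContDiffOn ℝ 30 H (Ioi 0))
    {l : ℕ} (hDF : Decay ((l : ℝ) / 2) F) (hDH : Decay ((l : ℝ) / 2) H) {j : ℕ} (hj : j ≤ 10)
    {p a : ℝ} (ha : 1 ≤ a) (hp : p - l - 2 * j < -1) :
    wn p j F H a = (∫ x in Ioi a, x ^ p * ‖iteratedDeriv j F x‖ ^ 2)
      + ∫ x in Ioi a, x ^ p * ‖iteratedDeriv j H x‖ ^ 2 := by
  rw [← integral_add (intg hF hDF hj ha hp) (intg hH hDH hj ha hp)]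
  simp only [wn, mul_add]

theorem wn_nonneg (p : ℝ) (j : ℕ) (F H : ℝ → ℂ) {a : ℝ} (ha : 1 ≤ a) : 0 ≤ wn p j F H a :=
  int_nonneg (fun _ => by positivity) p ha

theorem wn_chain {F H : ℝ → ℂ} (hF : ContDiffOn ℝ 30 F (Ioi 0)) (hH : ContDiffOn ℝ 30 H (Ioi 0))
    {l : ℕ} (hDF : Decay ((l : ℝ) / 2) F) (hDH : Decay ((l : ℝ) / 2) H) {i : ℕ} (hi : i ≤ 7)
    {a : ℝ} (ha : 1 ≤ a) :
    wn (l - 4 + 2 * i) i F H a ≤ 20 ^ 7 * (wn (l + 12) 7 F H a + bv (6 + l) F H a) := by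
  rw [wn_eq hF hH hDF hDH (by omega) ha (by linarith),
    wn_eq hF hH hDF hDH (by omega) ha (by push_cast; linarith)]
  have h1 := hardy_chain hF hDF ha hi
  have h2 := hardy_chain hH hDH ha hi
  have h3 : ∑ k ∈ Finset.range 7, ‖iteratedDeriv k F a‖ ^ 2
      + ∑ k ∈ Finset.range 7, ‖iteratedDeriv k H a‖ ^ 2 ≤ bv (6 + l) F H a := by
    rw [← Finset.sum_add_distrib]
    exact le_mul_of_one_le_left (Finset.sum_nonneg fun _ _ => by positivity) (one_le_pow₀ ha)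
  linarith

theorem level {V₁ V₂ : ℝ → ℂ} {A A' : ℂ} {l : ℕ} {F H SF SH : ℝ → ℂ} {a M ε : ℝ} (hε : 0 ≤ ε)
    (h : RedSol V₁ V₂ A A' (6 + l) F H SF SH) (hV₁ : ContDiffOn ℝ ∞ V₁ (Ioi 0))
    (hV₂ : ContDiffOn ℝ ∞ V₂ (Ioi 0)) (hSF : ContDiffOn ℝ ∞ SF (Ioi 0))
    (hSH : ContDiffOn ℝ ∞ SH (Ioi 0)) (hA : (l : ℝ) / 2 ≤ A.re) (hA' : (l : ℝ) / 2 ≤ A'.re)
    (ha : 1 ≤ a)
    (hV : ∀ i ≤ 10, ∀ ρ : ℝ, a ≤ ρ → ‖iteratedDeriv i V₁ ρ‖ ≤ ε * ρ ^ (-(1 + (i : ℝ))) ∧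
        ‖iteratedDeriv i V₂ ρ‖ ≤ ε * ρ ^ (-(1 + (i : ℝ))))
    (hS : ∀ i ≤ 10, ∀ ρ : ℝ, a ≤ ρ → ‖iteratedDeriv i SF ρ‖ ≤ M * ρ ^ (-((l : ℝ) / 2 + i)) ∧
        ‖iteratedDeriv i SH ρ‖ ≤ M * ρ ^ (-((l : ℝ) / 2 + i)))
    (hDF : Decay ((l : ℝ) / 2) F) (hDH : Decay ((l : ℝ) / 2) H) {j : ℕ} (hj7 : 7 ≤ j)
    (hj : j ≤ 8) :
    wn (l + 5 + j) j F H a / 4 ≤ fl (6 + l) j F a + fl (6 + l) j H a
      + 4718592 * ε ^ 2 * ∑ i ∈ Finset.range (j + 1), wn (l - 4 + 2 * i) i F H a + 4 * M ^ 2 := by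
  have hj7' : (7 : ℝ) ≤ j := by exact_mod_cast hj7
  have ha0 : 0 < a := by linarith
  have i1 := intg2 h.smoothF h.smoothH hDF hDH (j := j) (by omega) (p := l + 5 + j) ha
    (by linarith)
  have i2 : ∀ i ∈ Finset.range (j + 1), IntegrableOn (fun x : ℝ => x ^ ((l : ℝ) - 4 + 2 * i)
      * (‖iteratedDeriv i F x‖ ^ 2 + ‖iteratedDeriv i H x‖ ^ 2)) (Ioi a) := fun i hi =>
    intg2 h.smoothF h.smoothH hDF hDH (by have := Finset.mem_range.1 hi; omega) ha (by linarith)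
  have i3 := (integrable_finsetSum _ i2).const_mul (4718592 * ε ^ 2)
  have i4 := (integrableOn_Ioi_rpow_of_lt (a := -2) (by norm_num) ha0).const_mul (4 * M ^ 2)
  have h1 := neg_le_integral (a := a) (Φ := fun x => fl (6 + l) j F x + fl (6 + l) j H x)
    (fun x hx => (hasDerivAt_fl h.smoothF h.eqF hj (ha0.trans_le hx)).add
      (hasDerivAt_fl h.smoothH h.eqH hj (ha0.trans_le hx)))
    (fun x hx => ?_) ((i3.add i4).sub (i1.div_const 4))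
    (by simpa using (tendsto_fl hDF hj7 hj).add (tendsto_fl hDH hj7 hj))
  · simp only [Pi.sub_apply, Pi.add_apply] at h1
    rw [integral_sub (by exact i3.add i4) (i1.div_const 4), integral_add i3 i4, integral_const_mul,
      integral_const_mul, integral_finsetSum _ i2, integral_div,
      integral_Ioi_rpow_of_lt (by norm_num) ha0] at h1
    have h2 : -a ^ (-2 + 1 : ℝ) / (-2 + 1) ≤ 1 := by
      have h3 := Real.rpow_le_one_of_one_le_of_nonpos ha (show (-2 + 1 : ℝ) ≤ 0 by norm_num)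
      rw [div_le_iff_of_neg (by norm_num)]
      linarith
    have h3 := mul_le_mul_of_nonneg_left h2 (show 0 ≤ 4 * M ^ 2 by positivity)
    unfold wn
    linarith
  · have hx0 := ha0.trans_le hx
    have c1 : ∀ {u : ℝ → ℂ}, ContDiffOn ℝ ∞ u (Ioi 0) → ContDiffAt ℝ j u x := fun hu =>
      (hu.contDiffAt (Ioi_mem_nhds hx0)).of_le (by exact_mod_cast le_top)
    have c2 : ∀ {u : ℝ → ℂ}, ContDiffOn ℝ 30 u (Ioi 0) → ContDiffAt ℝ j u x := fun hu =>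
      (hu.contDiffAt (Ioi_mem_nhds hx0)).of_le (by exact_mod_cast (show j ≤ 30 by omega))
    have k1 := src_le (l := l) hj7 hj (ha.trans hx) hε (c1 hV₁) (c1 hV₂) (c2 h.smoothF)
      (c2 h.smoothH) (c1 hSF) (fun i hi => hV i hi x hx) (hS j (by omega) x hx).1
    have k2 := src_le (l := l) hj7 hj (ha.trans hx) hε (c1 hV₁) (c1 hV₂) (c2 h.smoothH)
      (c2 h.smoothF) (c1 hSH) (fun i hi => hV i hi x hx) (hS j (by omega) x hx).2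
    simp only [add_comm ‖iteratedDeriv _ H x‖] at k2
    have hw := Real.rpow_nonneg hx0.le (((l : ℝ) + 5 + j) / 2)
    have k3 := mass_le (y := iteratedDeriv j F x)
      (ν := A.re + j - ((6 + l + j : ℕ) : ℝ) / 2) hw (by push_cast; linarith) k1
    have k4 := mass_le (y := iteratedDeriv j H x)
      (ν := A'.re + j - ((6 + l + j : ℕ) : ℝ) / 2) hw (by push_cast; linarith) k2
    have k5 := sq_src (u := fun i => ‖iteratedDeriv i F x‖) (v := fun i => ‖iteratedDeriv i H x‖)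
      (l := l) hj ε M hx0
    simp only [Pi.sub_apply, Pi.add_apply]
    rw [← sq_half hx0 ((l : ℝ) + 5 + j)]
    linarith

end ExtE

open ExtE in
theorem mass_estimate : ∃ ε₀ : ℝ, 0 < ε₀ ∧ ∃ C : ℝ, 0 < C ∧
    ∀ (V₁ V₂ : ℝ → ℂ) (A A' : ℂ) (l : ℕ) (F H SF SH : ℝ → ℂ) (ρ₀ M : ℝ),
      RedSol V₁ V₂ A A' (6 + l) F H SF SH → ContDiffOn ℝ ∞ V₁ (Ioi 0) → ContDiffOn ℝ ∞ V₂ (Ioi 0) →
      ContDiffOn ℝ ∞ SF (Ioi 0) → ContDiffOn ℝ ∞ SH (Ioi 0) → (l : ℝ) / 2 ≤ A.re →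
      (l : ℝ) / 2 ≤ A'.re → 1 ≤ ρ₀ → ρ₀ ≤ 16 →
      (∀ i ≤ 10, ∀ ρ : ℝ, ρ₀ ≤ ρ → ‖iteratedDeriv i V₁ ρ‖ ≤ ε₀ * ρ ^ (-(1 + (i : ℝ))) ∧
        ‖iteratedDeriv i V₂ ρ‖ ≤ ε₀ * ρ ^ (-(1 + (i : ℝ)))) →
      (∀ i ≤ 10, ∀ ρ : ℝ, ρ₀ ≤ ρ → ‖iteratedDeriv i SF ρ‖ ≤ M * ρ ^ (-((l : ℝ) / 2 + i)) ∧
        ‖iteratedDeriv i SH ρ‖ ≤ M * ρ ^ (-((l : ℝ) / 2 + i))) →
      Decay ((l : ℝ) / 2) F → Decay ((l : ℝ) / 2) H →
      wn (l + 12) 7 F H ρ₀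
          ≤ C * (max (fl (6 + l) 7 F ρ₀ + fl (6 + l) 7 H ρ₀) 0 + bv (6 + l) F H ρ₀ + M ^ 2) ∧
        wn (l + 13) 8 F H ρ₀ ≤ C * (max (fl (6 + l) 8 F ρ₀ + fl (6 + l) 8 H ρ₀) 0
          + max (fl (6 + l) 7 F ρ₀ + fl (6 + l) 7 H ρ₀) 0 + bv (6 + l) F H ρ₀ + M ^ 2) ∧
        ∀ i : ℕ, i ≤ 7 → IntegrableOn (fun ρ : ℝ => ρ ^ ((l : ℝ) - 4 + 2 * i)
            * (‖iteratedDeriv i F ρ‖ ^ 2 + ‖iteratedDeriv i H ρ‖ ^ 2)) (Ioi ρ₀) ∧
          wn (l - 4 + 2 * i) i F H ρ₀ ≤ C * (wn (l + 12) 7 F H ρ₀ + bv (6 + l) F H ρ₀) := by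
  refine ⟨1 / 10 ^ 9, by norm_num, 20 ^ 7, by norm_num, ?_⟩
  intro V₁ V₂ A A' l F H SF SH a M h hV₁ hV₂ hSF hSH hA hA' ha _ hV hS hDF hDH
  have h7 := level (by norm_num) h hV₁ hV₂ hSF hSH hA hA' ha hV hS hDF hDH (j := 7) le_rfl
    (by norm_num)
  have h8 := level (by norm_num) h hV₁ hV₂ hSF hSH hA hA' ha hV hS hDF hDH (j := 8) (by norm_num)
    le_rfl
  have hc := fun (i : ℕ) (hi : i ≤ 7) => wn_chain h.smoothF h.smoothH hDF hDH hi ha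
  have hT : ∑ i ∈ Finset.range 8, wn (l - 4 + 2 * i) i F H a
      ≤ 8 * (20 ^ 7 * (wn (l + 12) 7 F H a + bv (6 + l) F H a)) := by
    refine (Finset.sum_le_card_nsmul _ _ _ fun i hi =>
      hc i (Nat.lt_succ_iff.1 (Finset.mem_range.1 hi))).trans (le_of_eq ?_)
    simp
  have e7 : (l : ℝ) + 5 + (7 : ℕ) = l + 12 := by
    push_cast
    ring
  have e8 : (l : ℝ) + 5 + (8 : ℕ) = l + 13 := by
    push_cast
    ring
  have h9 : wn (l - 4 + 2 * (8 : ℕ)) 8 F H a ≤ wn (l + 13) 8 F H a :=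
    int_mono (fun _ => by positivity) ha (by push_cast; linarith)
      (intg2 h.smoothF h.smoothH hDF hDH (by norm_num) ha (by push_cast; linarith))
  rw [e7, show 7 + 1 = 8 from rfl] at h7
  rw [e8, Finset.sum_range_succ] at h8
  have p1 := wn_nonneg (l + 12) 7 F H ha
  have p2 := wn_nonneg (l + 13) 8 F H ha
  have p3 : 0 ≤ bv (6 + l) F H a :=
    mul_nonneg (pow_nonneg (by linarith) _) (Finset.sum_nonneg fun _ _ => by positivity)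
  have p4 := sq_nonneg M
  have p5 := le_max_left (fl (6 + l) 7 F a + fl (6 + l) 7 H a) 0
  have p6 := le_max_right (fl (6 + l) 7 F a + fl (6 + l) 7 H a) 0
  have p7 := le_max_left (fl (6 + l) 8 F a + fl (6 + l) 8 H a) 0
  have p8 := le_max_right (fl (6 + l) 8 F a + fl (6 + l) 8 H a) 0
  have k7 : wn (l + 12) 7 F H a ≤ 8 * max (fl (6 + l) 7 F a + fl (6 + l) 7 H a) 0
      + bv (6 + l) F H a + 32 * M ^ 2 := by linarith
  refine ⟨by linarith, ?_, fun i hi => ⟨?_, hc i hi⟩⟩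
  · generalize wn (l - 4 + 2 * (8 : ℕ)) 8 F H a = t at h8 h9
    linarith
  · exact intg2 h.smoothF h.smoothH hDF hDH (by omega) ha (by linarith)

end Vale.Agent.P139Z
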