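import Vale.Agent.P139Z.ExtE
import Vale.Agent.P139Z.ExtM.Core

/-! Exterior momentum estimate at high frequency. -/

open Set Filter Topology MeasureTheory Complex
open scoped NNReal ENNReal ComplexConjugate ContDiff

namespace Vale.Agent.P139Z

namespace ExtM

lemma red_val (l : ℕ) (f : ℝ → ℂ) {r : ℝ} (hr : 0 < r) :
    f r = ((r ^ l : ℝ) : ℂ) * red l f (r ^ 2) := by
  have h : (r : ℂ) ^ l ≠ 0 := pow_ne_zero _ (ofReal_ne_zero.mpr hr.ne')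
  unfold red
  rw [Real.sqrt_sq hr.le]
  push_cast
  field_simp

lemma red_der (l : ℕ) (f : ℝ → ℂ) {r : ℝ} (hr : 0 < r) {p : ℂ}
    (h : HasDerivAt (red l f) p (r ^ 2)) :
    r * deriv f r = ((r ^ l : ℝ) : ℂ) * (l * red l f (r ^ 2) + 2 * r ^ 2 * p) := by
  have h1 : f =ᶠ[𝓝 r] fun x : ℝ => ((x ^ l : ℝ) : ℂ) * red l f (x ^ 2) := by
    filter_upwards [Ioi_mem_nhds hr] with x hx using red_val l f hx
  have h2 : HasDerivAt (fun x : ℝ => red l f (x ^ 2)) ((2 * r : ℝ) • p) r := by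
    have := HasDerivAt.scomp (h := fun x : ℝ => x ^ 2) r h (hasDerivAt_pow 2 r)
    exact this.congr_deriv (by simp)
  have h3 := ((hasDerivAt_pow l r).ofReal_comp).fun_mul h2
  rw [h1.deriv_eq, h3.deriv]
  rcases l with _ | l
  · simp; ring
  · simp only [Nat.add_sub_cancel, real_smul]
    push_cast
    ring

lemma data_le {l : ℕ} {r c t s : ℝ} {f₀ f₁ x₀ x₁ : ℂ} (hr : 1 ≤ r) (hc : 0 < c) (ht : 1 ≤ t)
    (hl : (l : ℝ) ≤ t) (e₀ : f₀ = c * x₀) (e₁ : r * f₁ = c * (l * x₀ + 2 * r ^ 2 * x₁))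
    (h₀ : t * ‖f₀‖ ≤ s) (h₁ : ‖f₁‖ ≤ s) :
    ‖x₀‖ ≤ s / (c * t) ∧ ‖x₁‖ ≤ t * (s / (c * t)) ∧
      c ^ 2 * |(conj x₀ * x₁).im| ≤ |(conj f₀ * f₁).im| := by
  have ht0 : 0 < t := by linarith
  have hr0 : 0 < r := by linarith
  have hs : 0 ≤ s := (norm_nonneg _).trans h₁
  have n₀ : ‖f₀‖ = c * ‖x₀‖ := by rw [e₀, norm_mul, norm_real, Real.norm_of_nonneg hc.le]
  refine ⟨?_, ?_, ?_⟩
  · rw [le_div_iff₀ (mul_pos hc ht0)]
    rw [n₀] at h₀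
    linarith
  · have e₂ : ((2 * r ^ 2 * c : ℝ) : ℂ) * x₁ = r * f₁ - l * f₀ := by
      rw [e₁, e₀]; push_cast; ring
    have a1 : 2 * r ^ 2 * c * ‖x₁‖ ≤ r * ‖f₁‖ + l * ‖f₀‖ := by
      have := norm_sub_le ((r : ℂ) * f₁) (l * f₀)
      rwa [← e₂, norm_mul, norm_mul, norm_mul, norm_real, norm_real, Complex.norm_natCast,
        Real.norm_of_nonneg (by positivity), Real.norm_of_nonneg hr0.le] at this
    have a2 : r * ‖f₁‖ ≤ r * s := mul_le_mul_of_nonneg_left h₁ hr0.le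
    have a3 : l * ‖f₀‖ ≤ t * ‖f₀‖ := mul_le_mul_of_nonneg_right hl (norm_nonneg _)
    have a4 : 0 ≤ (2 * r ^ 2 - r - 1) * s := mul_nonneg (by nlinarith) hs
    have a5 : t * (s / (c * t)) = s / c := by field_simp
    rw [a5, le_div_iff₀ hc]
    refine le_of_mul_le_mul_left ?_ (show 0 < 2 * r ^ 2 by positivity)
    linarith
  · have a1 : r * (conj f₀ * f₁).im = r * (2 * r * c ^ 2 * (conj x₀ * x₁).im) := by
      have g : ((r : ℂ) * (conj f₀ * f₁)).im = (conj f₀ * (r * f₁)).im := by congr 1; ring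
      rw [im_ofReal_mul, e₁, e₀] at g
      rw [e₀, g]
      simp [pow_two]
      ring
    rw [mul_left_cancel₀ hr0.ne' a1, abs_mul, abs_of_nonneg (by positivity : 0 ≤ 2 * r * c ^ 2)]
    exact mul_le_mul_of_nonneg_right (by nlinarith [sq_nonneg c]) (abs_nonneg _)

lemma phi_le {l : ℕ} {r c w β : ℝ} {g₀ g₁ y₀ y₁ : ℂ} (hr : 1 ≤ r) (hβ : |β| ≤ 1)
    (e₀ : g₀ = c * y₀) (e₁ : r * g₁ = c * (l * y₀ + 2 * r ^ 2 * y₁)) :
    ‖g₁‖ ^ 2 + (w - Lc l / r ^ 2) * ‖g₀‖ ^ 2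
      ≤ c ^ 2 * (mom (r ^ 2) (w + β) (l + 11 / 2) y₀ y₁ + 22 * (‖y₀‖ * ‖y₁‖) + ‖y₀‖ ^ 2) := by
  have hr0 : 0 < r := by linarith
  have e₂ : g₁ = ((c / r : ℝ) : ℂ) * (l * y₀ + 2 * r ^ 2 * y₁) := by
    have : (r : ℂ) ≠ 0 := ofReal_ne_zero.mpr hr0.ne'
    push_cast
    field_simp
    linear_combination e₁
  have a1 : ‖g₁‖ ^ 2 + (w - Lc l / r ^ 2) * ‖g₀‖ ^ 2
      = c ^ 2 * (mom (r ^ 2) (w + β) (l + 11 / 2) y₀ y₁ - 22 * (conj y₀ * y₁).re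
        - (β + (11 * l + 11 / 2) / r ^ 2) * ‖y₀‖ ^ 2) := by
    rw [e₀, e₂]
    simp only [mom, sqn, Lc, re_ofReal_mul, im_ofReal_mul]
    simp [pow_two]
    field_simp
    ring
  rw [a1]
  refine mul_le_mul_of_nonneg_left ?_ (sq_nonneg _)
  have a2 := (neg_le_abs _).trans (abs_re_le y₀ y₁)
  have a3 : 0 ≤ (1 + (β + (11 * l + 11 / 2) / r ^ 2)) * ‖y₀‖ ^ 2 := by
    have := (abs_le.mp hβ).1
    have : (0 : ℝ) ≤ (11 * l + 11 / 2) / r ^ 2 := by positivity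
    exact mul_nonneg (by linarith) (sq_nonneg _)
  linarith

lemma A_re (m l : ℕ) (β : ℝ) (z : ℂ) :
    ((l : ℂ) / 2 + z + Lam m β).re = l / 2 + z.re + 1 / (2 * (m : ℝ)) := by
  have h : (l : ℂ) / 2 + z + Lam m β
      = ((l / 2 + 1 / (2 * (m : ℝ)) : ℝ) : ℂ) + z - I * β := by
    unfold Lam; push_cast; ring
  rw [h]
  simp only [sub_re, add_re, ofReal_re, mul_re, I_re, I_im, ofReal_im]
  ring

lemma A_im (m l : ℕ) (β : ℝ) (z : ℂ) : ((l : ℂ) / 2 + z + Lam m β).im = z.im - β := by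
  have h : (l : ℂ) / 2 + z + Lam m β
      = ((l / 2 + 1 / (2 * (m : ℝ)) : ℝ) : ℂ) + z - I * β := by
    unfold Lam; push_cast; ring
  rw [h]
  simp only [sub_im, add_im, ofReal_re, mul_im, I_re, I_im, ofReal_im]
  ring

lemma decay_conj {b : ℝ} {F : ℝ → ℂ} (h : Decay b F) : Decay b fun x => conj (F x) := by
  obtain ⟨C, hC⟩ := h
  refine ⟨C, fun j hj ρ hρ => ?_⟩
  rw [iter_conj, norm_conj]
  exact hC j hj ρ hρ

lemma final {K t c s M P x y u v n p : ℝ} (hK : 0 < K) (ht : 1 ≤ t) (hc : 0 < c) (hn : 0 ≤ n)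
    (hp : 0 ≤ p) (hu : 0 ≤ u) (hv : 0 ≤ v) (y0 : n ≤ s / (c * t)) (y1 : p ≤ t * (s / (c * t)))
    (ph : P ≤ c ^ 2 * (M + 22 * (n * p) + n ^ 2))
    (main : M ≤ K * (t * (x + y + (2 * (s / (c * t))) ^ 2))) (xJ : c ^ 2 * x ≤ u)
    (yJ : c ^ 2 * y ≤ v) : P ≤ 4 * (K + 23) * (t * (v + u) + s ^ 2 / t) := by
  have ht0 : 0 < t := by linarith
  have ce : s ^ 2 / t = c ^ 2 * (t * (s / (c * t)) ^ 2) := by field_simp
  rw [ce]
  generalize s / (c * t) = e at *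
  have he0 : 0 ≤ e := hn.trans y0
  have b1 : n * p ≤ e * (t * e) := mul_le_mul y0 y1 hp he0
  have b2 : n ^ 2 ≤ t * e ^ 2 :=
    (pow_le_pow_left₀ hn y0 2).trans (le_mul_of_one_le_left (sq_nonneg _) ht)
  have b3 := mul_le_mul_of_nonneg_left (add_le_add (add_le_add main
    (mul_le_mul_of_nonneg_left b1 (by norm_num : (0 : ℝ) ≤ 22))) b2) (sq_nonneg c)
  have b4 := mul_le_mul_of_nonneg_left (add_le_add xJ yJ) (mul_pos hK ht0).le
  have b5 : 0 ≤ (3 * K + 92) * (t * (v + u)) :=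
    mul_nonneg (by linarith) (mul_nonneg ht0.le (add_nonneg hv hu))
  have b6 : 0 ≤ c ^ 2 * (t * e ^ 2) := mul_nonneg (sq_nonneg _) (mul_nonneg ht0.le (sq_nonneg _))
  linarith

lemma params {m l : ℕ} {β σ₀ r t : ℝ} {lam : ℂ} (hm : 1 ≤ m) (hβ : |β| ≤ 1) (h0 : 0 ≤ lam.re)
    (hσ : lam.re ≤ σ₀) (hr : 1 ≤ r) (hr4 : r ≤ 4) (hω : 2 ≤ lam.im) (hL : Lc l ≤ 32 * lam.im)
    (ht : t = Real.sqrt (Om l lam)) :
    t ^ 2 = Om l lam ∧ 1 ≤ t ∧ (l : ℝ) ≤ t ∧ 0 < lam.re + 1 / (2 * (m : ℝ)) ∧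
      (l : ℝ) / 2 ≤ ((l : ℂ) / 2 + conj lam + Lam m β).re ∧
      Par (16 + 2 * |σ₀|) t (r ^ 2) (-((l : ℂ) / 2 + lam + Lam m β).im)
        ((l : ℂ) / 2 + conj lam + Lam m β).re (6 + l : ℕ) ∧
      Par (16 + 2 * |σ₀|) t (r ^ 2) (-((l : ℂ) / 2 + conj lam + Lam m β).im)
        ((l : ℂ) / 2 + conj lam + Lam m β).re (6 + l : ℕ) ∧
      t ^ 2 ≤ 70 * -((l : ℂ) / 2 + conj lam + Lam m β).im ∧
      |(l : ℝ) + 25 / 2 - 2 * (((l : ℂ) / 2 + conj lam + Lam m β).re + 7)| ≤ 16 + 2 * |σ₀| := by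
  have hl0 : (0 : ℝ) ≤ l := Nat.cast_nonneg l
  have hLc : (l : ℝ) ^ 2 ≤ Lc l := by unfold Lc; nlinarith
  have hl2 := sq_nonneg (l : ℝ)
  have hOm : Om l lam = lam.im + Lc l + 1 := by unfold Om; rw [abs_of_nonneg (by linarith)]
  have hO1 : 1 ≤ Om l lam := by linarith
  have t2 : t ^ 2 = Om l lam := ht ▸ Real.sq_sqrt (by linarith)
  have t1 : 1 ≤ t := ht ▸ Real.one_le_sqrt.mpr hO1
  have lt : (l : ℝ) ≤ t := ht ▸ Real.le_sqrt_of_sq_le (by linarith)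
  have hm' : (1 : ℝ) ≤ m := by exact_mod_cast hm
  have a0 : 0 < 1 / (2 * (m : ℝ)) := by positivity
  have a1 : 1 / (2 * (m : ℝ)) ≤ 1 / 2 := one_div_le_one_div_of_le (by norm_num) (by linarith)
  have hs := le_abs_self σ₀
  have hs0 := abs_nonneg σ₀
  have kt : 16 * t + 2 * |σ₀| ≤ (16 + 2 * |σ₀|) * t := by nlinarith
  have hβ' := abs_le.mp hβ
  have r1 : 1 ≤ r ^ 2 := by nlinarith
  have r2 : r ^ 2 ≤ 16 := by nlinarith
  rw [A_re, A_im, A_im, conj_re, conj_im]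
  have P : ∀ w : ℝ, |w| ≤ t ^ 2 → Par (16 + 2 * |σ₀|) t (r ^ 2) w
      (l / 2 + lam.re + 1 / (2 * (m : ℝ))) (6 + l : ℕ) := fun w hw =>
    ⟨by linarith, t1, r1, r2, hw, by linarith, by linarith, by push_cast; linarith,
      by push_cast; linarith⟩
  refine ⟨t2, t1, lt, by linarith, by linarith, P _ ?_, P _ ?_, by linarith, ?_⟩
  all_goals
    rw [abs_le]
    constructor <;> linarith

end ExtM

open ExtM in
theorem ext_X2 (σ₀ : ℝ) : ∃ ε₀ : ℝ, 0 < ε₀ ∧ ∃ C : ℝ, 0 < C ∧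
    ∀ (m : ℕ) (β : ℝ) (G : ℝ → ℂ) (l : ℕ) (lam : ℂ) (f g : ℝ → ℂ) (r₀ : ℝ), 1 ≤ m → |β| ≤ 1 →
      IsProfile m β G → GoodExt m G ε₀ (r₀ ^ 2) → RSol m β G l lam f g 0 0 → 0 ≤ lam.re →
      lam.re ≤ σ₀ → 1 ≤ r₀ → r₀ ≤ 4 → 2 ≤ lam.im → Lc l ≤ 32 * lam.im →
      Phi l lam.im g r₀ ≤ C * (Real.sqrt (Om l lam) * (|(conj (g r₀) * deriv g r₀).im|
        + |(conj (f r₀) * deriv f r₀).im|) + en l lam f g r₀ / Real.sqrt (Om l lam)) := by
  have hκ : 16 ≤ 16 + 2 * |σ₀| := by linarith [abs_nonneg σ₀]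
  obtain ⟨ε, hε, K, hK, hc⟩ := core hκ
  refine ⟨ε, hε, 4 * (K + 23), by linarith, ?_⟩
  intro m β G l lam f g r hm hβ hG hE R h0 hσ hr hr4 hω hL
  have hr0 : 0 < r := by linarith
  have ha0 : 0 < r ^ 2 := by positivity
  obtain ⟨t, ht⟩ : ∃ t, t = Real.sqrt (Om l lam) := ⟨_, rfl⟩
  obtain ⟨t2, t1, lt, a0, p1, p2, p3, p4, p5⟩ := params hm hβ h0 hσ hr hr4 hω hL ht
  rw [← ht]
  have z1 : red l 0 = fun _ => 0 := by funext x; simp [red]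
  have RS := R.redSol
  simp only [z1, map_zero] at RS
  have dd := R.decay hm hG (b := 0) a0 (by norm_num) (z1 ▸ Symb.zero _) (z1 ▸ Symb.zero _)
  rw [add_zero] at dd
  have n1 := sq_nonneg ‖deriv f r‖
  have n2 := sq_nonneg ‖deriv g r‖
  have n3 := sq_nonneg (t * ‖f r‖)
  have n4 := sq_nonneg (t * ‖g r‖)
  have hen : en l lam f g r = ‖deriv f r‖ ^ 2 + ‖deriv g r‖ ^ 2 + (t * ‖f r‖) ^ 2
      + (t * ‖g r‖) ^ 2 := by unfold en; rw [← t2]; ring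
  have s2 : Real.sqrt (en l lam f g r) ^ 2 = en l lam f g r := Real.sq_sqrt (by linarith)
  have hcp : 0 < r ^ l := pow_pos hr0 l
  have dF := hasDerivAt_iter RS.smoothF (j := 0) (by norm_num) ha0
  have dH := hasDerivAt_iter RS.smoothH (j := 0) (by norm_num) ha0
  simp only [iteratedDeriv_zero, zero_add, iteratedDeriv_one] at dF dH
  have dd2 := decay_conj dd.2
  obtain ⟨H, hH⟩ : ∃ H : ℝ → ℂ, H = fun ρ => conj (red l g ρ) := ⟨_, rfl⟩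
  rw [← hH] at RS dH dd2
  have dG : HasDerivAt (red l g) (conj (deriv H (r ^ 2))) (r ^ 2) := by
    have e : red l g = fun x => star (H x) := by funext x; simp [hH]
    rw [e]
    exact dH.star
  have g0 : conj (g r) = ((r ^ l : ℝ) : ℂ) * H (r ^ 2) := by
    rw [red_val l g hr0, map_mul, conj_ofReal, hH]
  have g1 : r * conj (deriv g r)
      = ((r ^ l : ℝ) : ℂ) * (l * H (r ^ 2) + 2 * r ^ 2 * deriv H (r ^ 2)) := by
    have e : conj (red l g (r ^ 2)) = H (r ^ 2) := by rw [hH]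
    have := congrArg conj (red_der l g hr0 dG)
    simpa only [map_mul, map_add, map_pow, conj_ofReal, map_natCast, map_ofNat, conj_conj, e]
      using this
  obtain ⟨x0, x1, xJ⟩ := data_le (s := Real.sqrt (en l lam f g r)) hr hcp t1 lt (red_val l f hr0)
    (red_der l f hr0 dF) (Real.le_sqrt_of_sq_le (by linarith))
    (Real.le_sqrt_of_sq_le (by linarith))
  obtain ⟨y0, y1, yJ⟩ := data_le (s := Real.sqrt (en l lam f g r)) hr hcp t1 lt g0 g1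
    (by rw [norm_conj]; exact Real.le_sqrt_of_sq_le (by linarith))
    (by rw [norm_conj]; exact Real.le_sqrt_of_sq_le (by linarith))
  have yJ' : |(conj (conj (g r)) * conj (deriv g r)).im| = |(conj (g r) * deriv g r).im| := by
    rw [← map_mul, conj_im, abs_neg]
  rw [yJ'] at yJ
  have ph := phi_le (w := lam.im) hr hβ g0 g1
  rw [norm_conj, norm_conj] at ph
  have wi : -((l : ℂ) / 2 + conj lam + Lam m β).im = lam.im + β := by rw [A_im, conj_im]; ring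
  have main := hc _ _ _ _ l _ _ (r ^ 2) t (2 * (Real.sqrt (en l lam f g r) / (r ^ l * t))) RS
    (symb_pot hm hG).1.smooth (symb_pot hm hG).2.smooth p1 (by rw [A_re, A_re, conj_re]) p2 p3 p4 p5
    (fun i hi ρ hρ => ⟨hE.v1 i hi ρ hρ, hE.v2 i hi ρ hρ⟩) dd.1 dd2 (by linarith) (by linarith)
  rw [wi] at main
  have := final hK t1 hcp (norm_nonneg _) (norm_nonneg _) (abs_nonneg _) (abs_nonneg _) y0 y1 ph
    main xJ yJ
  rwa [s2] at this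

end Vale.Agent.P139Z
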