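import Vale.Agent.P139Z.OBase
import Vale.Agent.P139Z.OCalc

/-! Level sequences of outgoing solutions. -/

open Set Filter Topology MeasureTheory Complex
open scoped NNReal ENNReal ComplexConjugate ContDiff

namespace Vale.Agent.P139Z

namespace Levels

theorem fence {f f' : ℝ → ℂ} {φ φ' : ℝ → ℝ} {a : ℝ} (hf : ∀ x, a ≤ x → HasDerivAt f (f' x) x)
    (hφ : ∀ x, a ≤ x → HasDerivAt φ (φ' x) x) (h0 : ‖f a‖ ≤ φ a)
    (h : ∀ x, a ≤ x → ‖f' x‖ ≤ φ' x) {x : ℝ} (hx : a ≤ x) : ‖f x‖ ≤ φ x :=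
  image_norm_le_of_norm_deriv_right_le_deriv_boundary' (a := a) (b := x)
    (fun y hy => (hf y hy.1).continuousAt.continuousWithinAt)
    (fun y hy => (hf y hy.1).hasDerivWithinAt) h0
    (fun y hy => (hφ y hy.1).continuousAt.continuousWithinAt)
    (fun y hy => (hφ y hy.1).hasDerivWithinAt) (fun y hy => h y hy.1) ⟨hx, le_rfl⟩

theorem fence_top {f f' : ℝ → ℂ} {φ φ' : ℝ → ℝ} {a : ℝ} (hf : ∀ x, a ≤ x → HasDerivAt f (f' x) x)
    (hφ : ∀ x, a ≤ x → HasDerivAt φ (φ' x) x) (h : ∀ x, a ≤ x → ‖f' x‖ ≤ -φ' x)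
    (h1 : Tendsto f atTop (𝓝 0)) (h2 : Tendsto φ atTop (𝓝 0)) : ‖f a‖ ≤ φ a := by
  have h3 : ∀ᶠ x in atTop, ‖f x - f a‖ ≤ φ a - φ x :=
    (eventually_ge_atTop a).mono fun x hx => fence (f := fun y => f y - f a)
      (φ := fun y => φ a - φ y) (fun y hy => (hf y hy).sub_const _)
      (fun y hy => (hφ y hy).const_sub _) (by simp) h hx
  simpa using le_of_tendsto_of_tendsto (h1.sub_const (f a)).norm (h2.const_sub (φ a)) h3

theorem sq_le_of_forall {x a b : ℝ} (hx : 0 ≤ x) (ha : 0 ≤ a) (hb : 0 ≤ b)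
    (h : ∀ t : ℝ, 0 < t → 2 * x ≤ t * a + t⁻¹ * b) : x ^ 2 ≤ a * b := by
  have h1 := discrim_le_zero (a := a) (b := -(2 * x)) (c := b) fun t => by
    rcases le_or_gt t 0 with ht | ht
    · nlinarith [mul_nonneg ha (mul_self_nonneg t), mul_nonneg hx (neg_nonneg.2 ht)]
    · have h2 := mul_le_mul_of_nonneg_left (h t ht) ht.le
      rw [mul_add, ← mul_assoc t t⁻¹, mul_inv_cancel₀ ht.ne'] at h2
      nlinarith
  rw [discrim] at h1
  nlinarith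

/-- Decay at the rate `c`. -/
def Dec (c : ℝ) (F : ℝ → ℂ) : Prop := ∃ C : ℝ, ∀ ρ : ℝ, 1 ≤ ρ → ‖F ρ‖ ≤ C * ρ ^ (-c)

theorem Dec.of_symb {M c : ℝ} {F : ℝ → ℂ} (h : Symb M F) (hc : M ≤ -c) : Dec c F := by
  obtain ⟨C, hC⟩ := (h.mono hc).bd 0
  exact ⟨C, fun ρ hρ => by simpa using hC ρ hρ⟩

theorem Dec.isBigO {c : ℝ} {F : ℝ → ℂ} (h : Dec c F) : F =O[atTop] fun ρ : ℝ => ρ ^ (-c) := by
  obtain ⟨C, hC⟩ := h
  refine Asymptotics.IsBigO.of_bound C ((eventually_ge_atTop 1).mono fun ρ hρ => ?_)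
  rw [Real.norm_of_nonneg (Real.rpow_nonneg (zero_le_one.trans hρ) _)]
  exact hC ρ hρ

theorem tendsto_mul {c d : ℝ} {B : ℕ} {F H : ℝ → ℂ} (hF : F =O[atTop] fun ρ : ℝ => ρ ^ (-c))
    (hH : H =O[atTop] fun ρ : ℝ => ρ ^ (-d)) (h : B < c + d) :
    Tendsto (fun ρ : ℝ => ρ ^ B * (‖F ρ‖ * ‖H ρ‖)) atTop (𝓝 0) := by
  have h1 := (Asymptotics.isBigO_refl (fun ρ : ℝ => ρ ^ B) atTop).mul (hF.norm_left.mul hH.norm_left)
  refine h1.trans_tendsto ((tendsto_rpow_neg_atTop (sub_pos.2 h)).congr' ?_)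
  filter_upwards [eventually_gt_atTop 0] with ρ hρ
  rw [← Real.rpow_natCast, ← Real.rpow_add hρ, ← Real.rpow_add hρ]
  congr 1
  ring

theorem improve {a : ℂ} {c : ℝ} (hc : 0 < c) (ha : c < a.re) {F G : ℝ → ℂ}
    (hF : ∀ ρ : ℝ, 1 ≤ ρ → DifferentiableAt ℝ F ρ)
    (e : ∀ ρ : ℝ, 1 ≤ ρ → G ρ = a * F ρ + ρ * deriv F ρ) (hG : Dec c G) : Dec c F := by
  obtain ⟨C, hC⟩ := hG
  have ha0 : a ≠ 0 := fun h => by
    rw [h, zero_re] at ha
    linarith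
  have hν : 0 < a.re - c := sub_pos.2 ha
  have hC0 : 0 ≤ C := by simpa using (norm_nonneg _).trans (hC 1 le_rfl)
  refine ⟨‖F 1‖ + C / (a.re - c), fun ρ hρ => ?_⟩
  have hρ0 : 0 < ρ := one_pos.trans_le hρ
  have h1 := fence (a := 1) (f := fun x : ℝ => (x : ℂ) ^ a * F x)
    (φ := fun x : ℝ => (‖F 1‖ + C / (a.re - c)) * x ^ (a.re - c))
    (fun x hx => (hasDerivAt_ofReal_cpow_const (one_pos.trans_le hx).ne' ha0).fun_mul
      (hF x hx).hasDerivAt)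
    (fun x hx => (Real.hasDerivAt_rpow_const (p := a.re - c)
      (Or.inl (one_pos.trans_le hx).ne')).const_mul _)
    (by simpa using div_nonneg hC0 hν.le) (fun x hx => ?_) hρ
  · rw [norm_mul, norm_cpow_eq_rpow_re_of_pos hρ0, sub_eq_add_neg a.re c, Real.rpow_add hρ0,
      mul_left_comm] at h1
    exact le_of_mul_le_mul_left h1 (Real.rpow_pos_of_pos hρ0 _)
  · have hx0 : 0 < x := one_pos.trans_le hx
    have e1 : a * (x : ℂ) ^ (a - 1) * F x + (x : ℂ) ^ a * deriv F x = (x : ℂ) ^ (a - 1) * G x := by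
      rw [e x hx, cpow_sub _ _ (ofReal_ne_zero.2 hx0.ne'), cpow_one]
      field_simp [ofReal_ne_zero.2 hx0.ne']
    have e2 : x ^ (a.re - c - 1) = x ^ (a.re - 1) * x ^ (-c) := by
      rw [← Real.rpow_add hx0]
      congr 1
      ring
    rw [e1, norm_mul, norm_cpow_eq_rpow_re_of_pos hx0, sub_re, one_re, e2]
    have h2 := Real.rpow_pos_of_pos hx0 (a.re - 1)
    have h3 := Real.rpow_pos_of_pos hx0 (-c)
    have h4 : C ≤ (‖F 1‖ + C / (a.re - c)) * (a.re - c) := by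
      rw [add_mul, div_mul_cancel₀ _ hν.ne']
      linarith [mul_nonneg (norm_nonneg (F 1)) hν.le]
    calc x ^ (a.re - 1) * ‖G x‖ ≤ x ^ (a.re - 1) * (C * x ^ (-c)) := by
          gcongr
          exact hC x hx
      _ = C * (x ^ (a.re - 1) * x ^ (-c)) := by ring
      _ ≤ (‖F 1‖ + C / (a.re - c)) * (a.re - c) * (x ^ (a.re - 1) * x ^ (-c)) := by gcongr
      _ = _ := by ring

/-- The level map. -/
noncomputable def lv (B : ℕ) (F : ℝ → ℂ) (ρ : ℝ) : ℂ :=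
  I * (4 * (ρ * iteratedDeriv 2 F ρ) + 4 * (B : ℂ) * deriv F ρ)

variable {A A₀ : ℂ} {B : ℕ} {M M' : ℝ} {F K U : ℝ → ℂ}

theorem cda (h : Symb M F) {ρ : ℝ} (hρ : 0 < ρ) (k : ℕ) : ContDiffAt ℝ k F ρ :=
  (h.smooth.contDiffAt (Ioi_mem_nhds hρ)).of_le (mod_cast le_top)

theorem da (h : Symb M F) {ρ : ℝ} (hρ : 0 < ρ) : DifferentiableAt ℝ F ρ :=
  (cda h hρ 1).differentiableAt (by simp)

theorem symb_lv (h : Symb M F) : Symb (M - 1) (lv B F) :=
  ((((h.iter 2).id_mul.mono (by norm_num; linarith)).const_mul 4).add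
    (h.der.const_mul (4 * (B : ℂ)))).const_mul I

theorem symb_iter (h : Symb M F) (n : ℕ) : Symb (M - n) ((lv B)^[n] F) := by
  induction n with
  | zero => simpa using h
  | succ n ih =>
    rw [Function.iterate_succ_apply']
    exact (symb_lv ih).mono (by push_cast; linarith)

theorem lv_eq {ρ : ℝ} (e : Mop A₀ B F ρ = -I * K ρ) :
    lv B F ρ = A₀ * F ρ + ρ * deriv F ρ + K ρ := by
  rw [Mop] at e
  rw [lv]
  linear_combination I * e - (K ρ + ρ * deriv F ρ + A₀ * F ρ) * I_mul_I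

theorem lv_ev (e : ∀ ρ : ℝ, 0 < ρ → Mop A₀ B F ρ = -I * K ρ) {ρ : ℝ} (hρ : 0 < ρ) :
    lv B F =ᶠ[𝓝 ρ] fun x => A₀ * F x + x * deriv F x + K x :=
  (eventually_gt_nhds hρ).mono fun x hx => lv_eq (e x hx)

theorem step (hF : Symb M F) (hK : Symb M' K) (e : ∀ ρ : ℝ, 0 < ρ → Mop A₀ B F ρ = -I * K ρ)
    (eK : ∀ ρ : ℝ, 0 < ρ → Mop A B K ρ = 0) {ρ : ℝ} (hρ : 0 < ρ) :
    Mop (A₀ + 1) B (lv B F) ρ = -I * lv B K ρ := by
  have h1 : Symb M fun x => A₀ * F x + x * deriv F x :=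
    (hF.const_mul A₀).add (hF.der.id_mul.mono (by linarith))
  have h2 : Mop A₀ B F =ᶠ[𝓝 ρ] fun x => -I * K x :=
    (eventually_gt_nhds hρ).mono e
  have h3 : Mop (A₀ + 1) B K ρ = Mop A B K ρ + I * (A₀ + 1 - A) * K ρ := by
    simp only [Mop]
    ring
  rw [Mop_congr _ _ (lv_ev e hρ), Mop_add _ _ (cda h1 hρ 2) (cda hK hρ 2),
    Mop_level _ _ (cda hF hρ 3), h2.deriv_eq, deriv_const_mul_field, e ρ hρ, h3, eK ρ hρ,
    lv_eq (A₀ := A) (K := fun _ => 0) (by rw [eK ρ hρ, mul_zero])]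
  ring

theorem step0 (hK : Symb M' K) (eK : ∀ ρ : ℝ, 0 < ρ → Mop A B K ρ = 0) {ρ : ℝ} (hρ : 0 < ρ) :
    Mop (A + 1) B (lv B K) ρ = 0 := by
  rw [step (A := 0) hK (Symb.zero 0) (fun x hx => by rw [eK x hx, mul_zero])
    (fun x _ => by simp [Mop]) hρ]
  simp [lv]

theorem iter0 (hK : Symb M' K) (eK : ∀ ρ : ℝ, 0 < ρ → Mop A B K ρ = 0) (n : ℕ) :
    ∀ ρ : ℝ, 0 < ρ → Mop (A + n) B ((lv B)^[n] K) ρ = 0 := by
  induction n with
  | zero => simpa using eK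
  | succ n ih =>
    intro ρ hρ
    rw [Function.iterate_succ_apply', Nat.cast_succ, ← add_assoc]
    exact step0 (symb_iter hK n) ih hρ

theorem iter1 (hF : Symb M F) (hK : Symb M' K) (e : ∀ ρ : ℝ, 0 < ρ → Mop A₀ B F ρ = -I * K ρ)
    (eK : ∀ ρ : ℝ, 0 < ρ → Mop A B K ρ = 0) (n : ℕ) :
    ∀ ρ : ℝ, 0 < ρ → Mop (A₀ + n) B ((lv B)^[n] F) ρ = -I * (lv B)^[n] K ρ := by
  induction n with
  | zero => simpa using e
  | succ n ih =>
    intro ρ hρ
    rw [Function.iterate_succ_apply', Function.iterate_succ_apply', Nat.cast_succ, ← add_assoc]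
    exact step (symb_iter hF n) (symb_iter hK n) ih (iter0 hK eK n) hρ

theorem der_lv (hF : Symb M F) (hK : Symb M' K) (e : ∀ ρ : ℝ, 0 < ρ → Mop A₀ B F ρ = -I * K ρ)
    {Z : ℝ} (hZ : 0 < Z) : 4 * Z * deriv (lv B F) (4 * Z) =
      (A₀ + 1 - B - I * Z) * (4 * Z * deriv F (4 * Z)) - I * Z * A₀ * F (4 * Z) +
        (4 * Z * deriv K (4 * Z) - I * Z * K (4 * Z)) := by
  have hρ : 0 < 4 * Z := by positivity
  have h1 := (((da hF hρ).hasDerivAt.const_mul A₀).fun_add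
    (ofRealCLM.hasDerivAt.fun_mul (da hF.der hρ).hasDerivAt)).fun_add (da hK hρ).hasDerivAt
  have h2 := e _ hρ
  rw [Mop, iteratedDeriv_succ, iteratedDeriv_one] at h2
  rw [(lv_ev e hρ).deriv_eq]
  simp only [ofRealCLM_apply] at h1
  rw [h1.deriv]
  push_cast at h2 ⊢
  linear_combination Z * h2

theorem dec_iter (hK : Symb M' K) (eK : ∀ ρ : ℝ, 0 < ρ → Mop A B K ρ = 0) {c : ℝ} (hc : 0 < c)
    {n : ℕ} (h : c < A.re + n) {k : ℕ} (hk : n ≤ k) : Dec c ((lv B)^[k] K) := by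
  obtain ⟨N, hN⟩ := exists_nat_ge (M' + c)
  refine Nat.decreasingInduction' (P := fun j => Dec c ((lv B)^[j] K)) (n := k + N) (m := k)
    (fun j _ hj ih => ?_) (Nat.le_add_right _ _)
    (Dec.of_symb (symb_iter hK _) (by push_cast; linarith [(Nat.cast_nonneg k : (0 : ℝ) ≤ k)]))
  have h1 : (n : ℝ) ≤ j := by exact_mod_cast hk.trans hj
  refine improve (a := A + j) hc (by simp; linarith)
    (fun ρ hρ => da (symb_iter hK j) (one_pos.trans_le hρ)) (fun ρ hρ => ?_) ih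
  rw [Function.iterate_succ_apply', lv_eq (A₀ := A + j) (K := fun _ => 0)
    (by rw [iter0 hK eK j ρ (one_pos.trans_le hρ), mul_zero]), add_zero]

theorem dec_der (hK : Symb M' K) (eK : ∀ ρ : ℝ, 0 < ρ → Mop A B K ρ = 0) {c : ℝ} (hc : 0 < c)
    {n : ℕ} (h : c < A.re + n) : deriv ((lv B)^[n] K) =O[atTop] fun ρ : ℝ => ρ ^ (-c) := by
  have h1 := (dec_iter hK eK hc h (Nat.le_succ n)).isBigO.sub
    ((dec_iter hK eK hc h le_rfl).isBigO.const_mul_left (A + n))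
  refine Asymptotics.IsBigO.trans (Asymptotics.IsBigO.of_bound 1 ?_) h1
  filter_upwards [eventually_ge_atTop 1] with ρ hρ
  rw [Function.iterate_succ_apply', lv_eq (A₀ := A + n) (K := fun _ => 0)
    (by rw [iter0 hK eK n ρ (one_pos.trans_le hρ), mul_zero]), add_zero, add_sub_cancel_left,
    norm_mul, one_mul, norm_real, Real.norm_of_nonneg (zero_le_one.trans hρ)]
  exact le_mul_of_one_le_left (norm_nonneg _) hρ

/-- The mass flux. -/
noncomputable def mass (B : ℕ) (F : ℝ → ℂ) (x : ℝ) : ℝ :=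
  4 * x ^ B * (conj (F x) * deriv F x).im + x ^ B * ‖F x‖ ^ 2 / 2

theorem mass_eq (hB : 1 ≤ B) (F : ℝ → ℂ) (Z : ℝ) :
    mass B F (4 * Z) = 4 * (4 * Z) ^ (B - 1) * flux Z (4 * Z * deriv F (4 * Z)) (F (4 * Z)) := by
  obtain ⟨b, rfl⟩ := Nat.exists_eq_add_of_le' hB
  have e1 : conj (F (4 * Z)) * (4 * Z * deriv F (4 * Z)) =
      ((4 * Z : ℝ) : ℂ) * (conj (F (4 * Z)) * deriv F (4 * Z)) := by
    push_cast
    ring
  rw [mass, flux, e1, im_ofReal_mul, Nat.add_sub_cancel]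
  ring

theorem mass_der (hB : 1 ≤ B) (hK : Symb M' K) (eK : ∀ ρ : ℝ, 0 < ρ → Mop A B K ρ = 0) {ρ : ℝ}
    (hρ : 0 < ρ) :
    HasDerivAt (mass B K) (-((A.re - (B : ℝ) / 2) * ρ ^ (B - 1) * ‖K ρ‖ ^ 2)) ρ := by
  have h1 := hasDerivAt_mass A hB (cda hK hρ 2)
  rw [eK ρ hρ, mul_zero, zero_im, mul_zero, zero_sub] at h1
  exact h1

theorem mass_tendsto (hB : 1 ≤ B) (hK : Symb M' K) (eK : ∀ ρ : ℝ, 0 < ρ → Mop A B K ρ = 0) {n : ℕ}
    (h : (B : ℝ) / 2 < A.re + n) : Tendsto (mass B ((lv B)^[n] K)) atTop (𝓝 0) := by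
  obtain ⟨c, h1, h2⟩ := exists_between h
  have hc : 0 < c := lt_of_le_of_lt (by positivity) h1
  have h3 := (dec_iter hK eK hc h2 le_rfl).isBigO
  have h4 := tendsto_mul h3 (dec_der hK eK hc h2) (B := B) (by linarith)
  have h5 := tendsto_mul h3 h3 (B := B) (by linarith)
  refine squeeze_zero_norm' ?_ (by simpa using (h4.const_mul 4).add (h5.div_const 2))
  filter_upwards [eventually_ge_atTop 0] with ρ hρ
  have h6 := (abs_im_le_norm (conj ((lv B)^[n] K ρ) * deriv ((lv B)^[n] K) ρ))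
  rw [norm_mul, norm_conj] at h6
  refine (norm_add_le _ _).trans (add_le_add ?_ (le_of_eq ?_))
  · rw [norm_mul, Real.norm_of_nonneg (by positivity), mul_assoc]
    gcongr
    exact h6
  · rw [Real.norm_of_nonneg (by positivity), pow_two]

theorem mass_nonneg (hB : 1 ≤ B) (hK : Symb M' K) (eK : ∀ ρ : ℝ, 0 < ρ → Mop A B K ρ = 0) {n : ℕ}
    (h : (B : ℝ) / 2 < A.re + n) {ρ : ℝ} (hρ : 0 < ρ) : 0 ≤ mass B ((lv B)^[n] K) ρ := by
  have h1 := fence_top (f := fun _ => 0) (a := ρ) (fun x _ => hasDerivAt_const x (0 : ℂ))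
    (fun x hx => mass_der hB (symb_iter hK n) (iter0 hK eK n) (hρ.trans_le hx)) (fun x hx => by
      have : 0 < (A + n).re - (B : ℝ) / 2 := by simpa using h
      have := hρ.trans_le hx
      rw [norm_zero, neg_neg]
      positivity) tendsto_const_nhds (mass_tendsto hB hK eK h)
  simpa using h1

theorem lev (hB : 1 ≤ B) {Z : ℝ} (hZ : 0 < Z) (hK : Symb M' K)
    (eK : ∀ ρ : ℝ, 0 < ρ → Mop A B K ρ = 0) :
    Lev A B Z (fun n => 4 * Z * deriv ((lv B)^[n] K) (4 * Z)) fun n => (lv B)^[n] K (4 * Z) := by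
  have hρ : 0 < 4 * Z := by positivity
  refine ⟨fun n => ?_, fun n => ?_, fun n h => ?_⟩
  · rw [Function.iterate_succ_apply', lv_eq (A₀ := A + n) (K := fun _ => 0)
      (by rw [iter0 hK eK n _ hρ, mul_zero])]
    push_cast
    ring
  · rw [Function.iterate_succ_apply', der_lv (A₀ := A + n) (symb_iter hK n) (Symb.zero 0)
      (fun x hx => by rw [iter0 hK eK n x hx, mul_zero]) hZ]
    simp
  · have h1 := mass_nonneg hB hK eK h hρ
    rw [mass_eq hB] at h1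
    exact nonneg_of_mul_nonneg_right h1 (by positivity)

theorem tail (hB : 1 ≤ B) {ρ : ℝ} (hρ : 0 < ρ) (hF : Symb M F) (hK : Symb M K) (hU : Symb M' U)
    (e : ∀ ρ : ℝ, 0 < ρ → Mop A₀ B F ρ = -I * K ρ) (eK : ∀ ρ : ℝ, 0 < ρ → Mop A B K ρ = 0)
    (eU : ∀ ρ : ℝ, 0 < ρ → Mop A₀ B U ρ = 0) (hu : 0 < A₀.re - (B : ℝ) / 2)
    (hk : 0 < A.re - (B : ℝ) / 2) (tU : Tendsto (mass B U) atTop (𝓝 0))
    (tK : Tendsto (mass B K) atTop (𝓝 0))
    (tW : Tendsto (fun x : ℝ => (x : ℂ) ^ B * cexp (I * x / 4) *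
      (deriv F x * U x - F x * deriv U x)) atTop (𝓝 0)) {t : ℝ} (ht : 0 < t) :
    2 * (4 * (ρ ^ B * ‖deriv F ρ * U ρ - F ρ * deriv U ρ‖)) ≤
      t * (mass B U ρ / (A₀.re - (B : ℝ) / 2)) + t⁻¹ * (mass B K ρ / (A.re - (B : ℝ) / 2)) := by
  have hn : ∀ x : ℝ, ‖cexp (I * x / 4)‖ = 1 := fun x => by simp [norm_exp]
  have h1 := fence_top (a := ρ)
    (φ := fun x => (t * (mass B U x / (A₀.re - (B : ℝ) / 2)) +
      t⁻¹ * (mass B K x / (A.re - (B : ℝ) / 2))) / 8)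
    (fun x hx => hasDerivAt_wron A₀ hB (cda hF (hρ.trans_le hx) 2) (cda hU (hρ.trans_le hx) 2))
    (fun x hx => ((((mass_der hB hU eU (hρ.trans_le hx)).div_const _).const_mul t).fun_add
      (((mass_der hB hK eK (hρ.trans_le hx)).div_const _).const_mul t⁻¹)).div_const 8)
    (fun x hx => ?_) tW
    (by simpa using (((tU.div_const _).const_mul t).add
      ((tK.div_const _).const_mul t⁻¹)).div_const 8)
  · rw [norm_mul, norm_mul, hn, norm_pow, norm_real, Real.norm_of_nonneg hρ.le] at h1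
    linarith
  · have hx0 := hρ.trans_le hx
    rw [e x hx0, eU x hx0, mul_zero, sub_zero, norm_mul, norm_div, norm_mul, hn, norm_pow,
      norm_real, Real.norm_of_nonneg hx0.le, norm_mul, norm_mul, norm_neg, norm_I]
    have h2 : 2 * (‖U x‖ * ‖K x‖) ≤ t * ‖U x‖ ^ 2 + t⁻¹ * ‖K x‖ ^ 2 := by
      have h3 := mul_nonneg (inv_pos.2 ht).le (sq_nonneg (t * ‖U x‖ - ‖K x‖))
      have e1 : t⁻¹ * (t * ‖U x‖ - ‖K x‖) ^ 2 =
          t * ‖U x‖ ^ 2 + t⁻¹ * ‖K x‖ ^ 2 - 2 * (‖U x‖ * ‖K x‖) := by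
        field_simp
        ring
      linarith
    have e2 : -((t * (-((A₀.re - (B : ℝ) / 2) * x ^ (B - 1) * ‖U x‖ ^ 2) / (A₀.re - (B : ℝ) / 2)) +
        t⁻¹ * (-((A.re - (B : ℝ) / 2) * x ^ (B - 1) * ‖K x‖ ^ 2) / (A.re - (B : ℝ) / 2))) / 8) =
        x ^ (B - 1) * (t * ‖U x‖ ^ 2 + t⁻¹ * ‖K x‖ ^ 2) / 8 := by
      generalize A₀.re - (B : ℝ) / 2 = u at hu
      generalize A.re - (B : ℝ) / 2 = v at hk
      field_simp
      ring
    rw [e2]
    have h4 := mul_le_mul_of_nonneg_left h2 (pow_nonneg hx0.le (B - 1))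
    simp only [norm_ofNat]
    linarith

theorem wron_tendsto {c d : ℝ} (h : B < c + d) (hF : F =O[atTop] fun ρ : ℝ => ρ ^ (-c))
    (hF' : deriv F =O[atTop] fun ρ : ℝ => ρ ^ (-c)) (hU : U =O[atTop] fun ρ : ℝ => ρ ^ (-d))
    (hU' : deriv U =O[atTop] fun ρ : ℝ => ρ ^ (-d)) :
    Tendsto (fun x : ℝ => (x : ℂ) ^ B * cexp (I * x / 4) *
      (deriv F x * U x - F x * deriv U x)) atTop (𝓝 0) := by
  have hn : ∀ x : ℝ, ‖cexp (I * x / 4)‖ = 1 := fun x => by simp [norm_exp]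
  refine squeeze_zero_norm' ?_ (by simpa using (tendsto_mul hF' hU h).add (tendsto_mul hF hU' h))
  filter_upwards [eventually_ge_atTop 0] with ρ hρ
  rw [norm_mul, norm_mul, hn, norm_pow, norm_real, Real.norm_of_nonneg hρ, mul_one, ← mul_add,
    ← norm_mul, ← norm_mul]
  gcongr
  exact norm_sub_le _ _

theorem rec_alg {z w a b dF F dU U dK K dF1 F1 dU1 U1 : ℂ} (h1 : U1 = z * dU + a * U)
    (h2 : z * dU1 = (a + 1 - b - w) * (z * dU) - w * a * U)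
    (h3 : z * dF1 = (a + 1 - b - w) * (z * dF) - w * a * F + (z * dK - w * K))
    (h4 : F1 = a * F + z * dF + K) :
    z * (dF1 * U1 - F1 * dU1) =
      a * (a + 1 - b) * (z * (dF * U - F * dU)) + (z * dK - w * K) * U1 - K * (z * dU1) := by
  linear_combination U1 * h3 - z * dU1 * h4 + ((a + 1 - b - w) * (z * dF) - w * a * F) * h1 -
    (a * F + z * dF) * h2

end Levels

open Levels

theorem lev_of_symb {A : ℂ} {B : ℕ} (hB : 1 ≤ B) {M Z : ℝ} (hZ : 0 < Z) {F : ℝ → ℂ} (hF : Symb M F)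
    (e : ∀ ρ : ℝ, 0 < ρ → Mop A B F ρ = 0) :
    ∃ P Y : ℕ → ℂ, Lev A B Z P Y ∧ P 0 = 4 * Z * deriv F (4 * Z) ∧ Y 0 = F (4 * Z) :=
  ⟨_, _, lev hB hZ hF e, rfl, rfl⟩

theorem wlev_of_symb {A₀ A : ℂ} {B : ℕ} (hB : 1 ≤ B) (hB' : B ≤ 7) (hA₀ : 0 ≤ A₀.re)
    (hA : 0 ≤ A.re) {Z : ℝ} (hZ : 0 < Z) {F U : ℝ → ℂ} (hF : Symb 7 F) (hU : Symb 7 U) (c : ℂ)
    (eU : ∀ ρ : ℝ, 0 < ρ → Mop A₀ B U ρ = 0)
    (eF : ∀ ρ : ℝ, 0 < ρ → Mop A B F ρ = -I * (c * U ρ)) :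
    ∃ Pu Yu Pk Yk D : ℕ → ℂ, WLev A₀ A B Z Pu Yu Pk Yk D ∧
      Pu 0 = 4 * Z * deriv U (4 * Z) ∧ Yu 0 = U (4 * Z) ∧
      Pk 0 = 4 * Z * (c * deriv U (4 * Z) + (A - A₀) * deriv F (4 * Z)) ∧
      Yk 0 = c * U (4 * Z) + (A - A₀) * F (4 * Z) ∧
      D 0 = 4 * Z * (deriv F (4 * Z) * U (4 * Z) - F (4 * Z) * deriv U (4 * Z)) := by
  have hρ : 0 < 4 * Z := by positivity
  have hB7 : (B : ℝ) ≤ 7 := by exact_mod_cast hB'
  obtain ⟨K, hKe⟩ : ∃ K : ℝ → ℂ, K = fun x => c * U x + (A - A₀) * F x := ⟨_, rfl⟩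
  have hK : Symb 7 K := hKe ▸ (hU.const_mul c).add (hF.const_mul _)
  have e : ∀ ρ : ℝ, 0 < ρ → Mop A₀ B F ρ = -I * K ρ := fun ρ h => by
    have h1 := eF ρ h
    rw [hKe]
    simp only [Mop] at h1 ⊢
    linear_combination h1
  have eK : ∀ ρ : ℝ, 0 < ρ → Mop A B K ρ = 0 := fun ρ h => by
    have h1 := eU ρ h
    rw [hKe, Mop_add _ _ (cda (hU.const_mul c) h 2) (cda (hF.const_mul _) h 2), Mop_const_mul,
      Mop_const_mul, eF ρ h]
    simp only [Mop] at h1 ⊢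
    linear_combination c * h1
  have lU := lev hB hZ hU eU
  refine ⟨_, _, _, _, fun n => 4 * Z * (deriv ((lv B)^[n] F) (4 * Z) * (lv B)^[n] U (4 * Z) -
    (lv B)^[n] F (4 * Z) * deriv ((lv B)^[n] U) (4 * Z)),
    ⟨lU, lev hB hZ hK eK, fun n => ?_, fun n hn => ?_⟩, rfl, rfl, ?_, by rw [hKe]; rfl, rfl⟩
  · have h1 := lU.recY n
    have h2 := lU.recP n
    have h3 := der_lv (symb_iter hF n) (symb_iter hK n) (iter1 hF hK e eK n) hZ
    have h4 := lv_eq (iter1 hF hK e eK n _ hρ)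
    rw [← Function.iterate_succ_apply' (lv B)] at h3 h4
    simp only [Nat.succ_eq_add_one] at h3 h4
    push_cast at h4
    exact rec_alg h1 h2 h3 h4
  · have hn' : (10 : ℝ) ≤ n := by exact_mod_cast hn
    have hu : 0 < (A₀ + n).re - (B : ℝ) / 2 := by simp; linarith
    have hk : 0 < (A + n).re - (B : ℝ) / 2 := by simp; linarith
    have h9 : (9 : ℝ) < A₀.re + n := by linarith
    have h1 := sq_le_of_forall (by positivity)
      (div_nonneg (mass_nonneg hB hU eU (n := n) (by linarith) hρ) hu.le)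
      (div_nonneg (mass_nonneg hB hK eK (n := n) (by linarith) hρ) hk.le) fun t ht =>
      tail hB hρ (symb_iter hF n) (symb_iter hK n) (symb_iter hU n) (iter1 hF hK e eK n)
        (iter0 hK eK n) (iter0 hU eU n) hu hk (mass_tendsto hB hU eU (by linarith))
        (mass_tendsto hB hK eK (by linarith))
        (wron_tendsto (c := 0) (d := 9) (by linarith)
          (Dec.of_symb (symb_iter hF n) (by linarith)).isBigO
          (Dec.of_symb (symb_iter hF n).der (by linarith)).isBigO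
          (dec_iter hU eU (by norm_num) h9 le_rfl).isBigO (dec_der hU eU (by norm_num) h9)) ht
    rw [mass_eq hB, mass_eq hB, div_mul_div_comm, le_div_iff₀ (mul_pos hu hk)] at h1
    obtain ⟨b, rfl⟩ := Nat.exists_eq_add_of_le' hB
    simp only [add_re, natCast_re, Nat.add_sub_cancel] at h1
    refine le_of_mul_le_mul_left ?_ (show 0 < (4 * (4 * Z) ^ b) ^ 2 by positivity)
    have e1 : ‖(4 * Z : ℂ)‖ = 4 * Z := by
      rw [norm_mul, norm_real, Real.norm_of_nonneg hZ.le, norm_ofNat]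
    rw [norm_mul, e1]
    refine le_trans (le_of_eq ?_) (h1.trans_eq ?_) <;> ring
  · have h1 := ((da hU hρ).hasDerivAt.const_mul c).fun_add
      ((da hF hρ).hasDerivAt.const_mul (A - A₀))
    rw [hKe, ← h1.deriv]
    rfl

end Vale.Agent.P139Z
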