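import Vale.Agent.P139Z.OBase
import Vale.Agent.P139Z.Levels
import Vale.Agent.P139Z.Alg
import Vale.Agent.P139Z.NumP.Cells
import Vale.Agent.P139Z.NumP.Far

/-! Signs of the logarithmic derivative of the outgoing solution. -/

open Set Filter Topology MeasureTheory Complex
open scoped NNReal ENNReal ComplexConjugate ContDiff

namespace Vale.Agent.P139Z

namespace NumP

theorem quot {P Y : ℂ} {x y r : ℤ} (h : ‖P + 5 / 2 * Y - sc x y * Y‖ ≤ sr r * ‖Y‖) (hY : Y ≠ 0) :
    sr x - sr r - 5 / 2 ≤ (P / Y).re ∧ (P / Y).re ≤ sr x + sr r - 5 / 2 ∧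
      sr y - sr r ≤ (P / Y).im ∧ (P / Y).im ≤ sr y + sr r := by
  have h1 : ‖P / Y + ((5 / 2 : ℝ) : ℂ) - sc x y‖ ≤ sr r := by
    have e : P + 5 / 2 * Y - sc x y * Y = (P / Y + ((5 / 2 : ℝ) : ℂ) - sc x y) * Y := by
      push_cast
      field_simp
    rw [e, norm_mul] at h
    exact le_of_mul_le_mul_right h (norm_pos_iff.2 hY)
  have h2 := abs_le.1 ((abs_re_le_norm _).trans h1)
  have h3 := abs_le.1 ((abs_im_le_norm _).trans h1)
  simp only [sub_re, add_re, sub_im, add_im, ofReal_re, ofReal_im, sc] at h2 h3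
  refine ⟨by linarith [h2.1], by linarith [h2.2], by linarith [h3.1], by linarith [h3.2]⟩

theorem sr_sub (x y : ℤ) : sr (x - y) = sr x - sr y := by
  simp only [sr]
  push_cast
  ring

theorem sr_add (x y : ℤ) : sr (x + y) = sr x + sr y := by
  simp only [sr]
  push_cast
  ring

theorem sr_mono {x y : ℤ} (h : x ≤ y) : sr x ≤ sr y :=
  div_le_div_of_nonneg_right (by exact_mod_cast h) S_pos.le

end NumP

open NumP

theorem nump_box {β Z : ℝ} (hβ : InB β) (hZ : InZ Z) {U : ℝ → ℂ} (hU : Symb 0 U)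
    (e : ∀ ρ : ℝ, 0 < ρ → Mop (-I * β) 6 U ρ = 0) (hne : ∃ ρ : ℝ, 0 < ρ ∧ U ρ ≠ 0) :
    U (4 * Z) ≠ 0 ∧
      (Z ≤ 2.7049 → 1 / 1000000 ≤ (4 * Z * deriv U (4 * Z) / U (4 * Z)).re) ∧
      (2.7053 ≤ Z → (4 * Z * deriv U (4 * Z) / U (4 * Z)).re ≤ -(1 / 1000000)) ∧
      (β = 0.33473 → 1 / 1000000 ≤ (4 * Z * deriv U (4 * Z) / U (4 * Z)).im) ∧
      (β = 0.33483 → (4 * Z * deriv U (4 * Z) / U (4 * Z)).im ≤ -(1 / 1000000)) := by
  have b1 : (0.33473 : ℝ) ≤ β := hβ.1
  have b2 : β ≤ (0.33483 : ℝ) := hβ.2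
  have z1 : (2.7048 : ℝ) ≤ Z := hZ.1
  have z2 : Z ≤ (2.7054 : ℝ) := hZ.2
  have hZ0 : 0 < Z := by linarith
  have hb : |β| ≤ 1 := abs_le.2 ⟨by linarith, by linarith⟩
  obtain ⟨P, Y, hL, hP, hY⟩ := lev_of_symb (by norm_num) hZ0 hU e
  rw [← hP, ← hY]
  have hY0 : Y 0 ≠ 0 := by
    intro h0
    obtain ⟨x, y, r, -, h⟩ := grid_sound g_all le_rfl le_rfl hb hZ0 (by norm_num [sr, S]; linarith)
      (by norm_num [sr, S]; linarith) (by norm_num [sr, S]; linarith)
      (by norm_num [sr, S]; linarith) hL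
    have hP0 : P 0 = 0 := by simpa [h0] using h
    obtain ⟨ρ, hρ, hne⟩ := hne
    have hd : deriv U (4 * Z) = 0 := by
      rw [hP0] at hP
      have : (4 * Z : ℂ) ≠ 0 := by exact_mod_cast (by positivity : (4 * Z : ℝ) ≠ 0)
      exact (mul_eq_zero.1 hP.symm).resolve_left this
    refine hne (free_unique (A := -I * β) (B := 6) (H := fun _ => 0) (ρ₀ := 4 * Z)
      (hU.smooth.of_le (by norm_cast)) contDiffOn_const (fun x hx => ?_) (by positivity)
      (by rw [← hY, h0]) (by simpa using hd) hρ)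
    rw [e x hx]
    simp [Mop]
  refine ⟨hY0, fun h => ?_, fun h => ?_, fun h => ?_, fun h => ?_⟩
  · obtain ⟨x, y, r, hc, h'⟩ := grid_sound g_left (by norm_num) (by norm_num) hb hZ0
      (by norm_num [sr, S]; linarith) (by norm_num [sr, S]; linarith)
      (by norm_num [sr, S]; linarith) (by norm_num [sr, S]; linarith) hL
    have h1 := sr_mono (of_decide_eq_true hc)
    rw [sr_sub] at h1
    have h2 : sr 2500001000000 = 2500001 / 1000000 := by norm_num [sr, S]
    linarith [(quot h' hY0).1]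
  · obtain ⟨x, y, r, hc, h'⟩ := grid_sound g_right (by norm_num) (by norm_num) hb hZ0
      (by norm_num [sr, S]; linarith) (by norm_num [sr, S]; linarith)
      (by norm_num [sr, S]; linarith) (by norm_num [sr, S]; linarith) hL
    have h1 := sr_mono (of_decide_eq_true hc)
    rw [sr_add] at h1
    have h2 : sr 2499999000000 = 2499999 / 1000000 := by norm_num [sr, S]
    linarith [(quot h' hY0).2.1]
  · obtain ⟨x, y, r, hc, h'⟩ := grid_sound g_low (by norm_num) (by norm_num) hb hZ0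
      (by norm_num [sr, S]; linarith) (by norm_num [sr, S]; linarith)
      (by norm_num [sr, S]; linarith) (by norm_num [sr, S]; linarith) hL
    have h1 := sr_mono (of_decide_eq_true hc)
    rw [sr_sub] at h1
    have h2 : sr 1000000 = 1 / 1000000 := by norm_num [sr, S]
    linarith [(quot h' hY0).2.2.1]
  · obtain ⟨x, y, r, hc, h'⟩ := grid_sound g_high (by norm_num) (by norm_num) hb hZ0
      (by norm_num [sr, S]; linarith) (by norm_num [sr, S]; linarith)
      (by norm_num [sr, S]; linarith) (by norm_num [sr, S]; linarith) hL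
    have h1 := sr_mono (of_decide_eq_true hc)
    rw [sr_add] at h1
    have h2 : sr (-1000000) = -(1 / 1000000) := by norm_num [sr, S]
    linarith [(quot h' hY0).2.2.2]

theorem nump_mono {β : ℝ} (hβ : InB β) {U : ℝ → ℂ} (hU : Symb 0 U)
    (e : ∀ ρ : ℝ, 0 < ρ → Mop (-I * β) 6 U ρ = 0) {ρ : ℝ} (hρ : 11.2 ≤ ρ) :
    (conj (U ρ) * deriv U ρ).re ≤ 0 := by
  have b1 : (0.33473 : ℝ) ≤ β := hβ.1
  have b2 : β ≤ (0.33483 : ℝ) := hβ.2
  have hb : |β| ≤ 1 := abs_le.2 ⟨by linarith, by linarith⟩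
  obtain ⟨Z, rfl⟩ : ∃ Z : ℝ, ρ = 4 * Z := ⟨ρ / 4, by ring⟩
  have hZ0 : 0 < Z := by linarith
  obtain ⟨P, Y, hL, hP, hY⟩ := lev_of_symb (by norm_num) hZ0 hU e
  have key : (conj (Y 0) * P 0).re ≤ 0 := by
    rcases le_total 4 Z with h | h
    · exact far_mono hβ h hL
    · obtain ⟨x, y, r, hc, h'⟩ := grid_sound g_mono (by norm_num) (by norm_num) hb hZ0
        (by norm_num [sr, S]; linarith) (by norm_num [sr, S]; linarith)
        (by norm_num [sr, S]; linarith) (by norm_num [sr, S]; linarith) hL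
      have h1 := sr_mono (of_decide_eq_true hc)
      rw [sr_add] at h1
      have h2 : sr 2500000000000 = 5 / 2 := by norm_num [sr, S]
      have h3 := (ball_im h').2.2.2
      have h4 : (conj (Y 0) * (P 0 + 5 / 2 * Y 0)).re
          = (conj (Y 0) * P 0).re + 5 / 2 * ‖Y 0‖ ^ 2 := by
        rw [show (5 / 2 : ℂ) = ((5 / 2 : ℝ) : ℂ) by push_cast; ring]
        simp only [nsq, mul_re, mul_im, add_re, add_im, conj_re, conj_im, ofReal_re, ofReal_im]
        ring
      have h5 : ((sc x y).re + sr r) * ‖Y 0‖ ^ 2 ≤ 5 / 2 * ‖Y 0‖ ^ 2 := by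
        gcongr
        simp only [sc]
        linarith
      linarith
  rw [hP, hY] at key
  have e2 : (conj (U (4 * Z)) * (4 * Z * deriv U (4 * Z))).re
      = 4 * Z * (conj (U (4 * Z)) * deriv U (4 * Z)).re := by
    simp only [mul_re, mul_im, conj_re, conj_im, ofReal_re, ofReal_im, re_ofNat, im_ofNat]
    ring
  rw [e2] at key
  by_contra hneg
  nlinarith [mul_pos hZ0 (not_le.1 hneg)]

end Vale.Agent.P139Z
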