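import Vale.Agent.P139Z.OBase
import Vale.Agent.P139Z.OCalc
import Vale.Agent.P139Z.Borel
import Vale.Agent.P139Z.NumP
import Vale.Agent.P139Z.ExtP.Main

/-! Exterior profiles. -/

open Set Filter Topology MeasureTheory Complex
open scoped NNReal ENNReal ComplexConjugate ContDiff

namespace Vale.Agent.P139Z

theorem extp {x₁ : ℝ} (hx : x₁ < 1) :
    ∃ (U : ℝ → ℝ → ℂ) (c ρ₃ : ℝ) (C : ℕ → ℝ), OutFam U c ∧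
      ∀ η : ℝ, 0 < η → ∃ m₀ : ℕ, ∀ m : ℕ, m₀ ≤ m → ∃ E : ℝ → ℝ → ℝ → ℂ,
        ContinuousOn (fun p : ℝ × ℝ => (E p.1 p.2 11.2, deriv (E p.1 p.2) 11.2))
          ({β | InB β} ×ˢ Icc (1 / 2) x₁) ∧
        ∀ β x : ℝ, InB β → x ∈ Icc (1 / 2) x₁ → IsExt m β (E β x) (U β) x η ρ₃ C := by
  obtain ⟨U, c, ρ₃, C, hU, h⟩ := ExtP.main (le_max_right x₁ (1 / 2)) (max_lt hx (by norm_num))
  refine ⟨U, c, ρ₃, C, hU, fun η hη => ?_⟩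
  obtain ⟨m₀, h₀⟩ := h η hη
  refine ⟨m₀, fun m hm => ?_⟩
  obtain ⟨E, cE, hE⟩ := h₀ m hm
  have hs : Icc (1 / 2) x₁ ⊆ Icc (1 / 2) (max x₁ (1 / 2)) := Icc_subset_Icc_right (le_max_left _ _)
  exact ⟨E, cE.mono (prod_mono_right hs), fun β x hβ hx' => hE β x hβ (hs hx')⟩

/-- The free solution with data `(1, 0)` at `T` loses modulus quadratically. -/
theorem free_drop {β T : ℝ} (hβ : InB β) (hT : T ∈ Icc (10.8 : ℝ) 10.9) {W : ℝ → ℂ}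
    (hW : ContDiffOn ℝ ∞ W (Ioi 0)) (e : ∀ ρ : ℝ, 0 < ρ → Mop (-I * β) 6 W ρ = 0) (h₀ : W T = 1)
    (h₁ : deriv W T = 0) {ρ : ℝ} (hρ : ρ ∈ Icc T 11.2) :
    9 / 10 ≤ ‖W ρ‖ ∧ ‖W ρ‖ ≤ 1 - (ρ - T) ^ 2 / 1000 :=
  ExtP.drop hβ hT hW e h₀ h₁ hρ

end Vale.Agent.P139Z
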