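import Vale.Agent.P139Z.Match
import Vale.Agent.P139Z.Family.Conv

/-! The family of profiles. -/

open Set Filter Topology MeasureTheory Complex
open scoped NNReal ENNReal ComplexConjugate ContDiff

namespace Vale.Agent.P139Z

namespace Family

theorem of_seq {x₁ c ρ₃ : ℝ} {U : ℝ → ℝ → ℂ} {C : ℕ → ℝ} (hx₁ : x₁ < 1) (hU : OutFam U c)
    {m : ℕ → ℕ} {β T x η : ℕ → ℝ} {ζ : ℕ → ℂ} {G E : ℕ → ℝ → ℂ} {βi Z xi : ℝ} {ζi : ℂ}
    (hβ : ∀ j, InB (β j)) (hx : ∀ j, x j ∈ Icc (1 / 2) x₁) (hT : ∀ j, InZ (T j / 4))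
    (hζ : ∀ j, ‖ζ j‖ = 1) (hP : ∀ j, IsProfile (m j) (β j) (G j))
    (hS : ∀ j, IsShot (m j) (β j) (G j) (T j) (η j))
    (hE : ∀ j, IsExt (m j) (β j) (E j) (U (β j)) (x j) (η j) ρ₃ C)
    (hG : ∀ j, ∀ᶠ ρ in 𝓝ˢ (Ici (11.2 : ℝ)), G j ρ = ζ j * E j ρ) (hβi : InB βi) (hZ : InZ Z)
    (tm : Tendsto m atTop atTop) (tη : Tendsto η atTop (𝓝 0)) (tβ : Tendsto β atTop (𝓝 βi))
    (tT : Tendsto T atTop (𝓝 (4 * Z))) (tx : Tendsto x atTop (𝓝 xi))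
    (tζ : Tendsto ζ atTop (𝓝 ζi)) : IsFamily m β G βi Z fun ρ => ζi * xi * U βi ρ := by
  obtain ⟨hZ1, hZ2⟩ := id hZ
  have hT1 : ∀ j, 10.8 ≤ T j ∧ T j ≤ 10.9 := fun j => by
    obtain ⟨h1, h2⟩ := hT j
    constructor <;> linarith
  have ha : ∀ j, 0 ≤ 1 / (2 * (m j : ℝ)) := fun j => by positivity
  have ta : Tendsto (fun j => 1 / (2 * (m j : ℝ))) atTop (𝓝 0) :=
    tendsto_const_nhds.div_atTop ((tendsto_natCast_atTop_atTop.comp tm).const_mul_atTop two_pos)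
  have hη : ∀ ε : ℝ, 0 < ε → ∀ᶠ j in atTop, η j ≤ ε := fun ε hε =>
    tη.eventually (eventually_le_nhds hε)
  have g0 : ∀ j i, ∀ ρ : ℝ, 11.2 ≤ ρ → iteratedDeriv i (G j) ρ = ζ j * iteratedDeriv i (E j) ρ :=
    fun j i ρ hρ => by
      rw [← iteratedDeriv_const_mul_field]
      exact EventuallyEq.iteratedDeriv_eq i (eventually_nhdsSet_iff_forall.1 (hG j) ρ hρ)
  have g1 : ∀ j, ∀ ρ : ℝ, 11.2 ≤ ρ → G j ρ = ζ j * E j ρ := fun j ρ hρ => by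
    simpa using g0 j 0 ρ hρ
  have g2 : ∀ j, ∀ ρ : ℝ, 11.2 ≤ ρ → deriv (G j) ρ = ζ j * deriv (E j) ρ := fun j ρ hρ => by
    simpa using g0 j 1 ρ hρ
  have g3 : ∀ j, ∀ ρ : ℝ, 11.2 ≤ ρ → |ρ ^ (1 / (2 * (m j : ℝ))) * ‖G j ρ‖ - x j * ‖U (β j) ρ‖|
      ≤ η j := fun j ρ hρ => by
    refine le_trans (le_of_eq ?_) ((abs_norm_sub_norm_le _ _).trans ((hE j).close ρ hρ).1)
    rw [g1 j ρ hρ, norm_mul, norm_mul, norm_mul, hζ j, one_mul, norm_real, norm_real,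
      Real.norm_of_nonneg (Real.rpow_nonneg (by linarith) _),
      Real.norm_of_nonneg (by linarith [(hx j).1])]
  set V : ℝ → ℂ := fun ρ => ζi * xi * U βi ρ with hV
  have hV' : deriv V = fun ρ => ζi * xi * deriv (U βi) ρ :=
    funext fun ρ => deriv_const_mul_field _
  have sV : Symb 0 V := (hU.symb βi hβi).const_mul _
  have oV : ∀ ρ : ℝ, 0 < ρ → Mop (-I * βi) 6 V ρ = 0 := fun ρ hρ => by
    rw [hV, Mop_const_mul, hU.ode βi hβi ρ hρ, mul_zero]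
  have e1 : ∀ R ε : ℝ, 0 < ε → ∀ᶠ j in atTop, ∀ ρ ∈ Icc (11.2 : ℝ) R,
      ‖G j ρ - V ρ‖ ≤ ε ∧ ‖deriv (G j) ρ - deriv V ρ‖ ≤ ε := fun R ε hε => by
    filter_upwards [ext_conv hU.cont hβ hβi tβ tx tζ ta tη ha hζ
      (fun j ρ hρ => ((hE j).close ρ hρ).1) R hε, ext_conv (Φ := fun b => deriv (U b)) hU.cont'
      hβ hβi tβ tx tζ ta tη ha hζ (fun j ρ hρ => ((hE j).close ρ hρ).2) R hε] with j h1 h2 ρ hρ
    rw [g1 j ρ hρ.1, g2 j ρ hρ.1, hV']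
    exact ⟨h1 ρ hρ, h2 ρ hρ⟩
  obtain ⟨W, hW, cW, cW'⟩ := exists_W
  have hZ0 : 0 < 4 * Z := by linarith
  have e2 : ∀ ε : ℝ, 0 < ε → ∀ᶠ j in atTop, ∀ ρ ∈ Icc (T j) 11.2,
      ‖G j ρ - W (βi, 4 * Z) ρ‖ ≤ ε ∧ ‖deriv (G j) ρ - deriv (W (βi, 4 * Z)) ρ‖ ≤ ε := by
    intro ε hε
    have hs : {p : ℝ × ℝ | 0 < p.2} ×ˢ Icc (10.8 : ℝ) 11.2 ⊆ {p : ℝ × ℝ | 0 < p.2} ×ˢ Ioi 0 :=
      prod_mono subset_rfl fun ρ hρ => lt_of_lt_of_le (by norm_num) hρ.1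
    have hp : ∀ j, (β j, T j) ∈ {p : ℝ × ℝ | 0 < p.2} := fun j =>
      lt_of_lt_of_le (by norm_num) (hT1 j).1
    filter_upwards [unif isCompact_Icc (cW.mono hs) hp hZ0 (tβ.prodMk_nhds tT) (half_pos hε),
      unif (F := fun p => deriv (W p)) isCompact_Icc (cW'.mono hs) hp hZ0 (tβ.prodMk_nhds tT)
        (half_pos hε), hη _ (half_pos hε)] with j h1 h2 h3 ρ hρ
    obtain ⟨w1, w2, w3, w4⟩ := hW _ (hp j)
    obtain ⟨k1, k2⟩ := (hS j).out _ w1 w2 w3 w4 ρ hρ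
    have hρ' : ρ ∈ Icc (10.8 : ℝ) 11.2 := ⟨(hT1 j).1.trans hρ.1, hρ.2⟩
    exact ⟨(norm_sub_le_norm_sub_add_norm_sub _ (W (β j, T j) ρ) _).trans
        (by linarith [h1 ρ hρ']),
      (norm_sub_le_norm_sub_add_norm_sub _ (deriv (W (β j, T j)) ρ) _).trans
        (by linarith [h2 ρ hρ'])⟩
  obtain ⟨w1, w2, w3, w4⟩ := hW (βi, 4 * Z) hZ0
  have e3 : EqOn (W (βi, 4 * Z)) V (Ioi 0) := by
    have h : ∀ ε : ℝ, 0 < ε → ‖W (βi, 4 * Z) 11.2 - V 11.2‖ ≤ ε ∧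
        ‖deriv (W (βi, 4 * Z)) 11.2 - deriv V 11.2‖ ≤ ε := fun ε hε => by
      obtain ⟨j, h1, h2⟩ := ((e1 11.2 _ (half_pos hε)).and (e2 _ (half_pos hε))).exists
      obtain ⟨k1, k2⟩ := h1 11.2 ⟨le_rfl, le_rfl⟩
      obtain ⟨k3, k4⟩ := h2 11.2 ⟨by linarith [(hT1 j).2], le_rfl⟩
      rw [norm_sub_rev] at k3 k4
      exact ⟨(norm_sub_le_norm_sub_add_norm_sub _ (G j 11.2) _).trans (by linarith),
        (norm_sub_le_norm_sub_add_norm_sub _ (deriv (G j) 11.2) _).trans (by linarith)⟩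
    refine free_unique (w1.of_le (by decide)) (sV.smooth.of_le (by decide))
      (fun ρ hρ => (w2 ρ hρ).trans (oV ρ hρ).symm) (ρ₀ := 11.2) (by norm_num) ?_ ?_
    · exact sub_eq_zero.1 (norm_le_zero_iff.1 (le_of_forall_pos_le_add fun ε hε => by
        linarith [(h ε hε).1]))
    · exact sub_eq_zero.1 (norm_le_zero_iff.1 (le_of_forall_pos_le_add fun ε hε => by
        linarith [(h ε hε).2]))
  have e4 : EqOn (deriv (W (βi, 4 * Z))) (deriv V) (Ioi 0) := fun ρ hρ =>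
    (e3.eventuallyEq_of_mem (Ioi_mem_nhds hρ)).deriv_eq
  have v0 : V (4 * Z) = 1 := (e3 hZ0).symm.trans w3
  have v1 : deriv V (4 * Z) = 0 := (e4 hZ0).symm.trans w4
  have e5 : ∀ R ε : ℝ, 0 < ε → ∀ᶠ j in atTop, ∀ ρ ∈ Icc (T j) R,
      ‖G j ρ - V ρ‖ ≤ ε ∧ ‖deriv (G j) ρ - deriv V ρ‖ ≤ ε := fun R ε hε => by
    filter_upwards [e1 R ε hε, e2 ε hε] with j h1 h2 ρ hρ
    rcases le_total ρ 11.2 with h | h
    · have h0 : 0 < ρ := by linarith [hρ.1, (hT1 j).1]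
      rw [← e3 h0, ← e4 h0]
      exact h2 ρ ⟨hρ.1, h⟩
    · exact h1 ρ ⟨h, hρ.2⟩
  have cV : ContinuousAt V (4 * Z) := sV.smooth.continuousOn.continuousAt (Ioi_mem_nhds hZ0)
  have cV' : ContinuousAt (deriv V) (4 * Z) :=
    sV.der.smooth.continuousOn.continuousAt (Ioi_mem_nhds hZ0)
  have c1 : ∀ R, TendstoUniformlyOn G (fun _ => 1) atTop (Icc 0 (4 * Z)) ∧
      TendstoUniformlyOn G V atTop (Icc (4 * Z) (max R 12)) := fun R =>
    glue tT continuousAt_const cV v0.symm hZ0 (lt_max_of_lt_right (by linarith))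
      (fun ε hε => (hη ε hε).mono fun j hj ρ hρ => ((hS j).near ρ hρ).1.trans hj)
      fun ε hε => (e5 _ ε hε).mono fun j hj ρ hρ => (hj ρ hρ).1
  have hc : ∀ R, TendstoUniformlyOn G V atTop (Icc (4 * Z) R) :=
    fun R => (c1 R).2.mono (Icc_subset_Icc_right (le_max_left _ _))
  refine ⟨⟨hβi, hZ, sV, oV, v0, v1⟩, hP, tm, tβ, fun j => (hS j).upper, fun ε hε => ?_,
    fun δ hδ => ?_, (c1 0).1, ?_, hc, fun R => ?_, fun ϑ δ hϑ hδ hδ1 => ?_, fun δ hδ => ?_,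
    ⟨max ρ₃ 11.2, fun i => ⟨C i, fun j ρ hρ => ?_⟩⟩, c / 4, by linarith [hU.pos], ?_⟩
  · filter_upwards [hη ε hε] with j hj ρ hρ
    have h0 : 0 ≤ Pf (m j) (G j) ρ := by unfold Pf; positivity
    linarith [(hS j).mono ρ hρ, mul_le_mul_of_nonneg_right hj h0]
  · filter_upwards [tT.eventually (eventually_ge_nhds (sub_lt_self _ hδ))] with j hj ρ hρ
    exact (hS j).core ρ ⟨hρ.1, hρ.2.trans hj⟩
  · refine (glue (v := fun ρ => (Real.sqrt ρ : ℂ) * deriv V ρ) (b := 16) tT continuousAt_const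
      (ContinuousAt.mul (by fun_prop) cV') (by rw [v1, mul_zero]) hZ0 (by linarith)
      (fun ε hε => ?_) fun ε hε => ?_).1
    · filter_upwards [hη ε hε] with j hj ρ hρ
      rw [sub_zero, norm_mul, norm_real, Real.norm_of_nonneg (Real.sqrt_nonneg _)]
      exact ((hS j).near ρ hρ).2.trans hj
    · filter_upwards [e5 16 (ε / 4) (by positivity)] with j hj ρ hρ
      rw [← mul_sub, norm_mul, norm_real, Real.norm_of_nonneg (Real.sqrt_nonneg _)]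
      have h4 : Real.sqrt ρ ≤ 4 := Real.sqrt_le_iff.2 ⟨by norm_num, by linarith [hρ.2]⟩
      linarith [mul_le_mul h4 (hj ρ hρ).2 (norm_nonneg _) (by norm_num)]
  · refine (glue (u := fun _ => 0) (a := 1) (b := max R 12) tT continuousAt_const cV' v1.symm
      (by linarith) (lt_max_of_lt_right (by linarith)) (fun ε hε => ?_)
      fun ε hε => (e5 _ ε hε).mono fun j hj ρ hρ => (hj ρ hρ).2).2.mono
      (Icc_subset_Icc_right (le_max_left _ _))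
    filter_upwards [hη ε hε] with j hj ρ hρ
    rw [sub_zero]
    exact (le_mul_of_one_le_left (norm_nonneg _) (Real.one_le_sqrt.2 hρ.1)).trans
      (((hS j).near ρ ⟨zero_le_one.trans hρ.1, hρ.2⟩).2.trans hj)
  · filter_upwards [hη ϑ hϑ, tT.eventually (eventually_ge_nhds (sub_lt_self _ hδ))] with j h1 h2
    exact ((hS j).tv _ ⟨by linarith, h2⟩).trans h1
  · refine ⟨min ((1 - x₁) / 2) (δ ^ 2 / 4000), lt_min (by linarith) (by positivity), ?_⟩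
    have t1 : Tendsto (fun j => (11.2 : ℝ) ^ (1 / (2 * (m j : ℝ))) * (1 - δ ^ 2 / 2000)) atTop
        (𝓝 (1 - δ ^ 2 / 2000)) := by
      simpa using ((tendsto_const_nhds (x := (11.2 : ℝ))).rpow ta (.inl (by norm_num))).mul_const
        (1 - δ ^ 2 / 2000)
    have hd : 0 < δ ^ 2 := by positivity
    filter_upwards [hη ((1 - x₁) / 2) (by linarith),
      t1.eventually (eventually_le_nhds (b := 1 - δ ^ 2 / 4000) (by linarith)),
      Metric.tendstoUniformlyOn_iff.1 (hc 11.2) (δ ^ 2 / 2000) (by positivity)]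
      with j h1 h2 h3 ρ hρ
    rcases le_total ρ 11.2 with h | h
    · refine le_trans ?_ (h2.trans (sub_le_sub_left (min_le_right _ _) _))
      have h4 := (free_drop hβi (T := 4 * Z) ⟨by linarith, by linarith⟩ sV.smooth oV v0 v1
        ⟨by linarith, h⟩).2
      have h5 := h3 ρ ⟨by linarith, h⟩
      rw [dist_comm, dist_eq_norm] at h5
      have h6 : δ ^ 2 ≤ (ρ - 4 * Z) ^ 2 := pow_le_pow_left₀ hδ.le (by linarith) 2
      refine mul_le_mul (Real.rpow_le_rpow (by linarith) h (ha j)) ?_ (norm_nonneg _)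
        (by positivity)
      linarith [norm_sub_norm_le (G j ρ) (V ρ)]
    · refine le_trans ?_ (sub_le_sub_left (min_le_left _ _) _)
      have h4 := mul_le_of_le_one_right (by linarith [(hx j).1] : 0 ≤ x j)
        (hU.bd _ (hβ j) ρ h).2
      linarith [(abs_le.1 (g3 j ρ h)).2, (hx j).2]
  · rw [g0 j i ρ (le_of_max_le_right hρ), norm_mul, hζ j, one_mul]
    exact (hE j).symb i ρ (le_of_max_le_left hρ)
  · filter_upwards [hη (c / 4) (by linarith [hU.pos])] with j h1 ρ hρ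
    have h : (11.2 : ℝ) ≤ ρ := by linarith
    have h4 := mul_le_mul (hx j).1 (hU.bd _ (hβ j) ρ h).1 hU.pos.le (by linarith [(hx j).1])
    linarith [(abs_le.1 (g3 j ρ h)).1]

end Family

theorem exists_family : ∃ (m : ℕ → ℕ) (β : ℕ → ℝ) (G : ℕ → ℝ → ℂ) (βi Z : ℝ) (U : ℝ → ℂ),
    IsFamily m β G βi Z U := by
  obtain ⟨x₁, U, c, ρ₃, C, hx₁, hU, h⟩ := exists_match
  choose m₀ h using fun j : ℕ => h (1 / ((j : ℝ) + 1)) Nat.one_div_pos_of_nat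
  choose β T x ζ G E h1 h2 h3 h4 h5 h6 h7 h8 using fun j => h j (max (m₀ j) j) (le_max_left _ _)
  obtain ⟨⟨βi, Z, xi, ζi⟩, ⟨a1, a2, -⟩, φ, hφ, ht⟩ :=
    ((isCompact_Icc (a := (0.33473 : ℝ)) (b := 0.33483)).prod
      ((isCompact_Icc (a := (2.7048 : ℝ)) (b := 2.7054)).prod
        ((isCompact_Icc (a := (1 / 2 : ℝ)) (b := x₁)).prod
          (isCompact_sphere (0 : ℂ) 1)))).tendsto_subseq
      (x := fun j => (β j, T j / 4, x j, ζ j))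
      fun j => ⟨h1 j, h2 j, h3 j, mem_sphere_zero_iff_norm.2 (h4 j)⟩
  refine ⟨_, _, _, βi, Z, _, Family.of_seq (xi := xi) (ζi := ζi) hx₁ hU (fun j => h1 (φ j))
    (fun j => h3 (φ j)) (fun j => h2 (φ j)) (fun j => h4 (φ j)) (fun j => h5 (φ j))
    (fun j => h6 (φ j)) (fun j => h7 (φ j)) (fun j => h8 (φ j)) a1 a2
    (tendsto_atTop_mono (fun j => le_max_right _ _) hφ.tendsto_atTop)
    (tendsto_one_div_add_atTop_nhds_zero_nat.comp hφ.tendsto_atTop) ht.fst_nhds ?_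
    ht.snd_nhds.snd_nhds.fst_nhds ht.snd_nhds.snd_nhds.snd_nhds⟩
  refine (ht.snd_nhds.fst_nhds.const_mul 4).congr fun j => ?_
  simp only [Function.comp_apply]
  ring

end Vale.Agent.P139Z
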