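import Mathlib

/-!
Block FLOW: global flow of a linear equation with strongly continuous coefficient.
-/

open Set Filter Topology

namespace Vale.Agent.P139Z

namespace Flow

variable {X : Type*} [NormedAddCommGroup X] [NormedSpace ℝ X]

/-- The terms of the Dyson series. -/
noncomputable def dy (A : ℝ → X →L[ℝ] X) (x : X) : ℕ → ℝ → X
  | 0 => fun _ => x
  | n + 1 => fun t => ∫ s in (0 : ℝ)..t, A s (dy A x n s)

theorem cont_app {A : ℝ → X →L[ℝ] X} (hA : Continuous fun p : ℝ × X => A p.1 p.2) {f : ℝ → X}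
    (hf : Continuous f) : Continuous fun s => A s (f s) :=
  hA.comp (continuous_id.prodMk hf)

theorem dy_cont [CompleteSpace X] {A : ℝ → X →L[ℝ] X}
    (hA : Continuous fun p : ℝ × X => A p.1 p.2) (x : X) (n : ℕ) : Continuous (dy A x n) := by
  induction n with
  | zero => exact continuous_const
  | succ n ih =>
    rw [continuous_iff_continuousAt]
    intro t
    exact ((cont_app hA ih).integral_hasStrictDerivAt 0 t).hasDerivAt.continuousAt

theorem dy_deriv [CompleteSpace X] {A : ℝ → X →L[ℝ] X}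
    (hA : Continuous fun p : ℝ × X => A p.1 p.2) (x : X) (n : ℕ) (t : ℝ) :
    HasDerivAt (dy A x (n + 1)) (A t (dy A x n t)) t :=
  ((cont_app hA (dy_cont hA x n)).integral_hasStrictDerivAt 0 t).hasDerivAt

theorem dy_bound {A : ℝ → X →L[ℝ] X} {R M : ℝ} (hM : 0 ≤ M) (hb : ∀ s, |s| ≤ R → ‖A s‖ ≤ M)
    (x : X) (n : ℕ) : ∀ t, |t| ≤ R → ‖dy A x n t‖ ≤ (M * |t|) ^ n / n.factorial * ‖x‖ := by
  induction n with
  | zero => intro t _; simp [dy]
  | succ n ih =>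
    intro t ht
    have h1 : ‖dy A x (n + 1) t‖ ≤
        ∫ s in uIoc 0 t, |s - 0| ^ n * (M ^ (n + 1) / n.factorial * ‖x‖) := by
      show ‖∫ s in (0 : ℝ)..t, A s (dy A x n s)‖ ≤ _
      rw [intervalIntegral.norm_intervalIntegral_eq]
      apply MeasureTheory.norm_integral_le_of_norm_le (Continuous.integrableOn_uIoc (by fun_prop))
      apply (MeasureTheory.ae_restrict_mem measurableSet_uIoc).mono
      intro s hs
      have hs' : |s| ≤ |t| := by
        have h2 := abs_sub_left_of_mem_uIcc (uIoc_subset_uIcc hs)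
        simpa using h2
      have h3 := ih s (hs'.trans ht)
      calc ‖A s (dy A x n s)‖ ≤ ‖A s‖ * ‖dy A x n s‖ := (A s).le_opNorm _
        _ ≤ M * ((M * |s|) ^ n / n.factorial * ‖x‖) :=
            mul_le_mul (hb s (hs'.trans ht)) h3 (norm_nonneg _) hM
        _ = _ := by rw [sub_zero]; ring
    rw [MeasureTheory.integral_mul_const, integral_pow_abs_sub_uIoc, sub_zero] at h1
    refine h1.trans (le_of_eq ?_)
    rw [Nat.factorial_succ]
    push_cast
    rw [mul_pow]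
    field_simp

theorem lip {A : X →L[ℝ] X} {M : ℝ} (h : ‖A‖ ≤ M) :
    LipschitzOnWith (Real.toNNReal M) (fun y => A y) univ := by
  refine (A.lipschitz.weaken ?_).lipschitzOnWith
  rw [← NNReal.coe_le_coe, coe_nnnorm]
  exact h.trans (Real.le_coe_toNNReal M)

/-- Uniqueness of global solutions. -/
theorem unique_univ {A : ℝ → X →L[ℝ] X} (hb : ∀ R : ℝ, ∃ M : ℝ, ∀ s, |s| ≤ R → ‖A s‖ ≤ M)
    {Z W : ℝ → X} (hZ : ∀ s, HasDerivAt Z (A s (Z s)) s) (hW : ∀ s, HasDerivAt W (A s (W s)) s)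
    (h0 : Z 0 = W 0) (t : ℝ) : Z t = W t := by
  obtain ⟨M, hM⟩ := hb (|t| + 1)
  have h1 : ∀ s ∈ Ioo (-(|t| + 1)) (|t| + 1), |s| ≤ |t| + 1 := fun s hs =>
    abs_le.2 ⟨hs.1.le, hs.2.le⟩
  have h2 := abs_nonneg t
  refine ODE_solution_unique_of_mem_Ioo (v := fun s y => A s y) (s := fun _ => univ)
    (K := Real.toNNReal M) (a := -(|t| + 1)) (b := |t| + 1) (t₀ := 0)
    (fun s hs => lip (hM s (h1 s hs))) ⟨by linarith, by linarith⟩
    (fun s _ => ⟨hZ s, mem_univ _⟩) (fun s _ => ⟨hW s, mem_univ _⟩) h0 ?_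
  exact ⟨by linarith [neg_abs_le t], by linarith [le_abs_self t]⟩

/-- Uniqueness on `[0, τ]`. -/
theorem unique_Icc {A : ℝ → X →L[ℝ] X} (hb : ∀ R : ℝ, ∃ M : ℝ, ∀ s, |s| ≤ R → ‖A s‖ ≤ M)
    {τ : ℝ} {Z W : ℝ → X} (hZ : ∀ s ∈ Icc 0 τ, HasDerivWithinAt Z (A s (Z s)) (Icc 0 τ) s)
    (hW : ∀ s ∈ Icc 0 τ, HasDerivWithinAt W (A s (W s)) (Icc 0 τ) s)
    (h0 : Z 0 = W 0) : ∀ t ∈ Icc 0 τ, Z t = W t := by
  obtain ⟨M, hM⟩ := hb τ
  have h1 : ∀ s ∈ Ico 0 τ, |s| ≤ τ := fun s hs => by rw [abs_of_nonneg hs.1]; exact hs.2.le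
  have h2 : ∀ s ∈ Ico 0 τ, Icc 0 τ ∈ 𝓝[Ici s] s := fun s hs =>
    Icc_mem_nhdsGE_of_mem hs
  exact ODE_solution_unique_of_mem_Icc_right (v := fun s y => A s y) (s := fun _ => univ)
    (K := Real.toNNReal M) (fun s hs => lip (hM s (h1 s hs)))
    (fun s hs => (hZ s hs).continuousWithinAt)
    (fun s hs => (hZ s (Ico_subset_Icc_self hs)).mono_of_mem_nhdsWithin (h2 s hs))
    (fun _ _ => mem_univ _) (fun s hs => (hW s hs).continuousWithinAt)
    (fun s hs => (hW s (Ico_subset_Icc_self hs)).mono_of_mem_nhdsWithin (h2 s hs))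
    (fun _ _ => mem_univ _) h0

/-- Growth bound on `[0, τ]`. -/
theorem bound_Icc {A : ℝ → X →L[ℝ] X} {τ M : ℝ} (hM : ∀ s, |s| ≤ τ → ‖A s‖ ≤ M)
    {Z : ℝ → X} (hZ : ∀ s ∈ Icc 0 τ, HasDerivWithinAt Z (A s (Z s)) (Icc 0 τ) s) :
    ∀ t ∈ Icc 0 τ, ‖Z t‖ ≤ ‖Z 0‖ * Real.exp (M * t) := by
  intro t ht
  have h1 : ∀ s ∈ Ico 0 τ, |s| ≤ τ := fun s hs => by rw [abs_of_nonneg hs.1]; exact hs.2.le
  have h2 : ∀ s ∈ Ico 0 τ, Icc 0 τ ∈ 𝓝[Ici s] s := fun s hs =>
    Icc_mem_nhdsGE_of_mem hs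
  have h3 := norm_le_gronwallBound_of_norm_deriv_right_le (f := Z) (f' := fun s => A s (Z s))
    (δ := ‖Z 0‖) (K := M) (ε := 0) (a := 0) (b := τ) (fun s hs => (hZ s hs).continuousWithinAt)
    (fun s hs => (hZ s (Ico_subset_Icc_self hs)).mono_of_mem_nhdsWithin (h2 s hs)) le_rfl
    (fun s hs => by
      rw [add_zero]
      exact ((A s).le_opNorm _).trans
        (mul_le_mul_of_nonneg_right (hM s (h1 s hs)) (norm_nonneg _))) t ht
  rwa [gronwallBound_ε0, sub_zero] at h3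

/-- Growth bound for global solutions. -/
theorem bound_univ {A : ℝ → X →L[ℝ] X} {R M : ℝ} (hM : ∀ s, |s| ≤ R → ‖A s‖ ≤ M)
    {Z : ℝ → X} (hZ : ∀ s, HasDerivAt Z (A s (Z s)) s) {t : ℝ} (ht : |t| ≤ R) :
    ‖Z t‖ ≤ ‖Z 0‖ * Real.exp (M * |t|) := by
  rcases le_total 0 t with h | h
  · rw [abs_of_nonneg h] at ht ⊢
    exact bound_Icc hM (fun s _ => (hZ s).hasDerivWithinAt) t ⟨h, ht⟩
  · rw [abs_of_nonpos h] at ht ⊢
    have h1 := bound_Icc (A := fun s => -A (-s)) (τ := R) (M := M) (Z := fun s => Z (-s))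
      (fun s hs => by rw [norm_neg]; exact hM _ (by rwa [abs_neg]))
      (fun s _ => by
        have h2 := (hZ (-s)).scomp s (hasDerivAt_neg s)
        rw [neg_one_smul] at h2
        exact h2.hasDerivWithinAt) (-t) ⟨by linarith, ht⟩
    simpa using h1

end Flow

open Vale.Agent.P139Z.Flow in
/-- Linear equations with a strongly continuous, locally bounded coefficient: global flow. -/
theorem exists_linear_flow {X : Type*} [NormedAddCommGroup X] [NormedSpace ℝ X] [CompleteSpace X]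
    (A : ℝ → X →L[ℝ] X) (hA : Continuous fun p : ℝ × X => A p.1 p.2)
    (hb : ∀ R : ℝ, ∃ M : ℝ, ∀ s, |s| ≤ R → ‖A s‖ ≤ M) (x : X) :
    ∃ Z : ℝ → X, Z 0 = x ∧ ∀ s, HasDerivAt Z (A s (Z s)) s := by
  have h0 : ∀ n, dy A x (n + 1) 0 = 0 := fun n => intervalIntegral.integral_same
  refine ⟨fun t => x + ∑' n, dy A x (n + 1) t, by simp [h0], fun t => ?_⟩
  obtain ⟨M, hM⟩ := hb (|t| + 1)
  have ht0 := abs_nonneg t
  have hM0 : 0 ≤ M := (norm_nonneg _).trans (hM 0 (by rw [abs_zero]; linarith))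
  have hbd : ∀ n, ∀ s, |s| ≤ |t| + 1 →
      ‖dy A x n s‖ ≤ (M * (|t| + 1)) ^ n / n.factorial * ‖x‖ := by
    intro n s hs
    refine (dy_bound hM0 hM x n s hs).trans ?_
    gcongr
  have hsum : Summable fun n : ℕ => (M * (|t| + 1)) ^ n / n.factorial * ‖x‖ :=
    (Real.summable_pow_div_factorial _).mul_right _
  have h1 : HasDerivAt (fun s => ∑' n, dy A x (n + 1) s) (∑' n, A t (dy A x n t)) t := by
    refine hasDerivAt_tsum_of_isPreconnected (g := fun n => dy A x (n + 1))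
      (g' := fun n s => A s (dy A x n s)) (y₀ := 0) (hsum.mul_left M)
      (isOpen_Ioo (a := -(|t| + 1)) (b := |t| + 1)) isPreconnected_Ioo
      (fun n s _ => dy_deriv hA x n s) (fun n s hs => ?_) ⟨by linarith, by linarith⟩
      (by simp [h0]) ⟨by linarith [neg_abs_le t], by linarith [le_abs_self t]⟩
    have hs' : |s| ≤ |t| + 1 := abs_le.2 ⟨hs.1.le, hs.2.le⟩
    exact ((A s).le_opNorm _).trans (mul_le_mul (hM s hs') (hbd n s hs') (norm_nonneg _) hM0)
  have h2 : Summable fun n => dy A x n t :=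
    Summable.of_norm_bounded hsum fun n => hbd n t (by linarith)
  have h3 : ∑' n, A t (dy A x n t) = A t (x + ∑' n, dy A x (n + 1) t) := by
    rw [← (A t).map_tsum h2, h2.tsum_eq_zero_add]
    rfl
  rw [← h3]
  exact h1.const_add x

end Vale.Agent.P139Z
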