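import Vale.Agent.P139Z.IntM
import Vale.Agent.P139Z.ExtX
import Vale.Agent.P139Z.ExtM
import Vale.Agent.P139Z.HF.C

/-! No eigenvalue at high frequency. -/

open Set Filter Topology MeasureTheory Complex
open scoped NNReal ENNReal ComplexConjugate ContDiff

namespace Vale.Agent.P139Z

namespace HF

variable {m : ℕ} {β : ℝ} {G : ℝ → ℂ} {l : ℕ} {lam : ℂ} {f g : ℝ → ℂ} {r : ℝ}

theorem goodInt_mono {C₀ ε ε' ϑ ρb : ℝ} (h : GoodInt m β G C₀ ε ϑ ρb) (he : ε ≤ ε') :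
    GoodInt m β G C₀ ε' ϑ ρb := by
  refine ⟨h.one_le, h.beta, h.lower, h.upper, h.deriv_bd, fun ρ hρ => (h.mono ρ hρ).trans ?_, h.tv⟩
  have : 0 ≤ Pf m G ρ := by
    unfold Pf
    positivity
  gcongr

theorem goodExt_mono {ε ε' ρa ρa' : ℝ} (h : GoodExt m G ε ρa) (he : ε ≤ ε') (h0 : 0 ≤ ρa)
    (hρ : ρa ≤ ρa') : GoodExt m G ε' ρa' :=
  ⟨fun i hi ρ h1 => (h.v1 i hi ρ (hρ.trans h1)).trans
      (mul_le_mul_of_nonneg_right he (Real.rpow_nonneg (h0.trans (hρ.trans h1)) _)),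
    fun i hi ρ h1 => (h.v2 i hi ρ (hρ.trans h1)).trans
      (mul_le_mul_of_nonneg_right he (Real.rpow_nonneg (h0.trans (hρ.trans h1)) _))⟩

theorem pot_le {ε ρa ρ : ℝ} (h : GoodExt m G ε ρa) (he : ε ≤ 1) (h1 : 1 ≤ ρa) (hρ : ρa ≤ ρ) :
    ‖pot1 m (G ρ)‖ ≤ 1 ∧ ‖pot2 m (G ρ)‖ ≤ 1 := by
  have h' := goodExt_mono h he (by linarith) le_rfl
  have k : 1 * ρ ^ (-(1 + ((0 : ℕ) : ℝ))) ≤ 1 := by
    rw [one_mul]
    exact Real.rpow_le_one_of_one_le_of_nonpos (h1.trans hρ) (by norm_num)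
  exact ⟨(h'.v1 0 (by norm_num) ρ hρ).trans k, (h'.v2 0 (by norm_num) ρ hρ).trans k⟩

theorem G_ne {C₀ ε ϑ ρb : ℝ} (h : GoodInt m β G C₀ ε ϑ ρb) :
    ∀ x ∈ Icc (0 : ℝ) 4, G (x ^ 2) ≠ 0 := fun x hx h0 => by
  have := h.lower (x ^ 2) ⟨sq_nonneg _, by nlinarith [hx.1, hx.2]⟩
  rw [h0, norm_zero, mul_zero] at this
  linarith

theorem L2_zero (r : ℝ) : L2 0 0 r = 0 := by simp [L2]

theorem flux_le {C₀ ε ϑ ρb σ₀ : ℝ} (hG : IsProfile m β G) (hI : GoodInt m β G C₀ ε ϑ ρb)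
    (h : RSol m β G l lam f g 0 0) (h0 : 0 ≤ lam.re) (hσ : lam.re ≤ σ₀) (hr : 1 ≤ r)
    (hr4 : r ≤ 4) : |(conj (g r) * deriv g r).im| ≤ 4 * (4 + |σ₀|) * ‖Cr G f g r‖
      + |(conj (f r) * deriv f r).im| + (‖f r‖ ^ 2 + ‖g r‖ ^ 2) := by
  have e := flux_id hG h (r₀ := r) (by linarith) fun x hx => G_ne hI x ⟨hx.1, hx.2.trans hr4⟩
  have hm : (1 : ℝ) ≤ m := by exact_mod_cast hI.one_le
  have a1 : 0 ≤ 1 / (2 * (m : ℝ)) := by positivity
  have a2 : 1 / (2 * (m : ℝ)) ≤ 1 := by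
    rw [div_le_one (by positivity)]
    linarith
  have a3 : |3 - lam.re - 1 / (2 * (m : ℝ))| ≤ 4 + |σ₀| := by
    have := le_abs_self σ₀
    rw [abs_le]
    constructor <;> linarith
  have a4 := congrArg abs e
  rw [abs_mul, abs_mul, abs_mul, abs_of_nonneg (show 0 ≤ r ^ 11 by positivity),
    abs_of_pos (show (0 : ℝ) < 4 by norm_num)] at a4
  have a5 : 4 * |3 - lam.re - 1 / (2 * (m : ℝ))| * |(Cr G f g r).im|
      ≤ 4 * (4 + |σ₀|) * ‖Cr G f g r‖ := by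
    have := abs_im_le_norm (Cr G f g r)
    gcongr
  have a6 := le_mul_of_one_le_left (abs_nonneg ((conj (f r) * deriv f r).im
    + (conj (g r) * deriv g r).im + r / 4 * (‖f r‖ ^ 2 - ‖g r‖ ^ 2))) (one_le_pow₀ (n := 11) hr)
  have a7 := abs_le.1 (a6.trans (a4.trans_le a5))
  have a8 := neg_abs_le (conj (f r) * deriv f r).im
  have a9 := le_abs_self (conj (f r) * deriv f r).im
  have b1 := mul_le_mul_of_nonneg_right hr4 (sq_nonneg ‖f r‖)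
  have b2 := mul_le_mul_of_nonneg_right hr4 (sq_nonneg ‖g r‖)
  have b3 : 0 ≤ r * ‖f r‖ ^ 2 := by positivity
  have b4 : 0 ≤ r * ‖g r‖ ^ 2 := by positivity
  rw [abs_le]
  constructor <;> nlinarith [sq_nonneg ‖f r‖, sq_nonneg ‖g r‖]

/-- The interior estimate at a good point. -/
theorem closing (C₀ σ₀ : ℝ) : ∃ ε₀ : ℝ, 0 < ε₀ ∧ ∃ ϑ₀ : ℝ, 0 < ϑ₀ ∧ ∃ D : ℝ, 0 < D ∧
    ∀ (m : ℕ) (β : ℝ) (G : ℝ → ℂ) (ρb : ℝ) (l : ℕ) (lam : ℂ) (f g : ℝ → ℂ) (r t : ℝ),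
      IsProfile m β G → GoodInt m β G C₀ ε₀ ϑ₀ ρb → GoodExt m G ε₀ (r ^ 2) → ρb ≤ 16 →
      RSol m β G l lam f g 0 0 → 0 ≤ lam.re → lam.re ≤ σ₀ → 0 ≤ lam.im → 67 ≤ Om l lam → 1 ≤ r →
      r ≤ 4 → r ^ 2 ≤ ρb →
      (Lc l ≤ 32 * lam.im ∧ ‖deriv f r‖ ^ 2 + lam.im * ‖f r‖ ^ 2
          + en l lam f g r / Real.sqrt (Om l lam) ≤ t ∨
        32 * lam.im ≤ Lc l ∧ ‖deriv f r‖ ^ 2 + ‖deriv g r‖ ^ 2
          + en l lam f g r / Real.sqrt (Om l lam) ≤ t) →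
      N2 l f g r ≤ D * (N2 l f g r / Real.sqrt (Om l lam) + t) := by
  obtain ⟨εm, hεm, ϑ₀, hϑ, Cm, hCm, hmain⟩ := int_main C₀ σ₀
  obtain ⟨ε₂, hε₂, C₂, hC₂, hX⟩ := ext_X2 σ₀
  obtain ⟨Ca, hCa, haux⟩ := int_aux C₀
  refine ⟨min εm ε₂, lt_min hεm hε₂, ϑ₀, hϑ,
    Cm * (102 * Ca + 16 + C₂ * (408 * (4 + |σ₀|) * Ca + 36)), by positivity, ?_⟩
  intro m β G ρb l lam f g r t hG hI hE hρ h h0 hσ hω hΩ hr hr4 hrb hc
  have k1 := hmain m β G ρb l lam f g 0 0 r hG (goodInt_mono hI (min_le_left _ _)) hρ h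
    continuous_zero continuous_zero h0 hσ hr hrb
  obtain ⟨-, k2, k3⟩ := haux m β G _ _ ρb l lam f g 0 0 r hG hI h continuous_zero continuous_zero
    hr hr4
  rw [L2_zero, add_zero] at k1 k2 k3
  obtain ⟨-, s1, -, s2⟩ := small_en l lam f g r
  have hW := one_le_W l lam
  have hW2 := sq_W l lam
  have hN := N2_nonneg l f g (show 0 ≤ r by linarith)
  have hb := bd1_nonneg f g r
  have hLa := La_nonneg G f g (show 0 ≤ r by linarith)
  have hL := Lc_nonneg l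
  have hL2 := Lc_div l (show 0 < r by linarith) hr4
  have hen := en_nonneg l lam f g r
  have hOm : Om l lam = lam.im + Lc l + 1 := by rw [Om, abs_of_nonneg hω]
  set W := Real.sqrt (Om l lam)
  have hW0 : 0 < W := by linarith
  have hNW : 0 ≤ N2 l f g r / W := by positivity
  have heW : 0 ≤ en l lam f g r / W := by positivity
  have hWW : W ≤ W ^ 2 := le_self_pow₀ hW two_ne_zero
  have p1 : Phi l (-lam.im) f r ≤ ‖deriv f r‖ ^ 2 := by
    have := mul_nonneg (show 0 ≤ lam.im + Lc l / r ^ 2 by linarith) (sq_nonneg ‖f r‖)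
    unfold Phi
    linarith
  rw [mul_assoc]
  refine k1.trans (mul_le_mul_of_nonneg_left ?_ hCm.le)
  rcases hc with ⟨hA, ht⟩ | ⟨hB, ht⟩
  · have a0 : 0 ≤ lam.im * ‖f r‖ ^ 2 := by positivity
    have t0 : 0 ≤ t := le_trans (by positivity) ht
    have t1 : en l lam f g r / W ≤ t := by linarith [sq_nonneg ‖deriv f r‖]
    have a1 : W ^ 2 ≤ 34 * lam.im := by linarith
    have a2 : W ^ 2 ≤ 34 * ‖lam‖ := by linarith [(le_abs_self _).trans (abs_im_le_norm lam)]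
    set u := N2 l f g r / W + t
    have hu : t ≤ u := le_add_of_nonneg_left hNW
    have a3 : (N2 l f g r + bd1 f g r) / W ≤ 3 * u := by
      have := div_le_self hb hW
      rw [add_div]
      simp only [u]
      linarith
    have a4 : W * ‖Cr G f g r‖ ≤ 102 * Ca * u := by
      have b1 : W * ‖Cr G f g r‖ ≤ 34 * Ca * ((N2 l f g r + bd1 f g r) / W) := by
        rw [← mul_div_assoc, le_div_iff₀ hW0]
        have := mul_le_mul_of_nonneg_right a2 (norm_nonneg (Cr G f g r))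
        linarith
      have b2 := mul_le_mul_of_nonneg_left a3 (show 0 ≤ 34 * Ca by positivity)
      linarith
    have a5 : La G f g r ≤ 102 * Ca * u := by
      have b1 : La G f g r ≤ 34 * Ca * ((N2 l f g r + bd1 f g r) / W) := by
        rw [← mul_div_assoc, le_div_iff₀ hW0]
        have := mul_le_mul_of_nonneg_right (hWW.trans a2) hLa
        linarith
      have b2 := mul_le_mul_of_nonneg_left a3 (show 0 ≤ 34 * Ca by positivity)
      linarith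
    have a6 : W * |(conj (f r) * deriv f r).im| ≤ 17 * t := by
      have b1 := mul_le_mul_of_nonneg_left (im_le (f r) (deriv f r)) hW0.le
      have b2 := mul_le_mul_of_nonneg_right a1 (sq_nonneg ‖f r‖)
      nlinarith [sq_nonneg (W * ‖f r‖ - ‖deriv f r‖), sq_nonneg ‖deriv f r‖]
    have a7 := mul_le_mul_of_nonneg_left (flux_le hG hI h h0 hσ hr hr4) hW0.le
    have a8 := mul_le_mul_of_nonneg_left a4 (show 0 ≤ 4 * (4 + |σ₀|) by positivity)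
    have a9 := hX m β G l lam f g r hI.one_le hI.beta hG
      (goodExt_mono hE (min_le_right _ _) (sq_nonneg _) le_rfl) h h0 hσ hr hr4 (by linarith) hA
    have a10 : W * (|(conj (g r) * deriv g r).im| + |(conj (f r) * deriv f r).im|)
        + en l lam f g r / W ≤ (408 * (4 + |σ₀|) * Ca + 36) * u := by
      linarith
    have a11 := a9.trans (mul_le_mul_of_nonneg_left a10 hC₂.le)
    have a12 : 0 ≤ C₂ * ((408 * (4 + |σ₀|) * Ca + 36) * u) := by positivity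
    have a13 : max (Phi l (-lam.im) f r + Phi l lam.im g r) 0
        ≤ t + C₂ * ((408 * (4 + |σ₀|) * Ca + 36) * u) :=
      max_le (by linarith) (by positivity)
    linarith
  · have t0 : 0 ≤ t := le_trans (by positivity) ht
    have t1 : en l lam f g r / W ≤ t := by
      linarith [sq_nonneg ‖deriv f r‖, sq_nonneg ‖deriv g r‖]
    have a1 : W ≤ 2 * Lc l := by linarith
    have a2 : La G f g r ≤ 16 * (N2 l f g r / W) := by
      rw [← mul_div_assoc, le_div_iff₀ hW0]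
      have b1 := mul_le_mul_of_nonneg_right a1 hLa
      have b2 := La_le hG h.bf h.bg (G_ne hI) l ⟨show 0 ≤ r by linarith, hr4⟩
      linarith
    have p2 : Phi l lam.im g r ≤ ‖deriv g r‖ ^ 2 := by
      have := mul_nonneg (show 0 ≤ Lc l / r ^ 2 - lam.im by linarith) (sq_nonneg ‖g r‖)
      unfold Phi
      linarith
    have a3 : max (Phi l (-lam.im) f r + Phi l lam.im g r) 0 ≤ t := max_le (by linarith) t0
    have a4 : 0 ≤ (102 * Ca + C₂ * (408 * (4 + |σ₀|) * Ca + 36)) * (N2 l f g r / W + t) := by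
      positivity
    linarith

theorem triv_of_en (hG : IsProfile m β G) (h : RSol m β G l lam f g 0 0) (hr : 0 < r)
    (he : en l lam f g r / Real.sqrt (Om l lam) ≤ 0) : ∀ r : ℝ, 0 < r → f r = 0 ∧ g r = 0 := by
  have hW := one_le_W l lam
  rw [div_le_iff₀ (by linarith), zero_mul] at he
  have c15 := le_mul_of_one_le_left (show 0 ≤ ‖f r‖ ^ 2 + ‖g r‖ ^ 2 by positivity) (one_le_Om l lam)
  have z : ∀ u : ℂ, ‖u‖ ^ 2 ≤ 0 → u = 0 := fun u hu =>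
    norm_eq_zero.1 (pow_eq_zero_iff two_ne_zero |>.1 (le_antisymm hu (sq_nonneg _)))
  unfold en at he
  have q1 := sq_nonneg ‖f r‖
  have q2 := sq_nonneg ‖g r‖
  have q3 := sq_nonneg ‖deriv f r‖
  have q4 := sq_nonneg ‖deriv g r‖
  exact h.unique hG hr (z _ (by linarith)) (z _ (by linarith))
    (z _ (by linarith)) (z _ (by linarith))

/-- The mass is controlled by the interior norm. -/
theorem mass_le (C₀ : ℝ) : ∃ Ca : ℝ, 0 < Ca ∧
    ∀ (m : ℕ) (β : ℝ) (G : ℝ → ℂ) (ε ϑ ρb : ℝ) (l : ℕ) (lam : ℂ) (f g : ℝ → ℂ) (s d : ℝ),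
      IsProfile m β G → GoodInt m β G C₀ ε ϑ ρb → RSol m β G l lam f g 0 0 → 0 ≤ lam.im →
      1 ≤ s → 0 < d → (∀ x, s ≤ x → ‖pot1 m (G (x ^ 2))‖ ≤ 1 ∧ ‖pot2 m (G (x ^ 2))‖ ≤ 1) →
      ∃ y ∈ Icc s (s + d), ∀ r, s + d ≤ r → r ≤ 4 → EE l lam f g r - EE l lam f g y ≤
        (Ca + 3 / d) * (N2 l f g r + bd1 f g r) := by
  obtain ⟨Ca, hCa, haux⟩ := int_aux C₀
  refine ⟨3 * 4 ^ 11 + 28 + 8 * Ca, by positivity, ?_⟩
  intro m β G ε ϑ ρb l lam f g s d hG hI h hω hs hd hV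
  obtain ⟨y, hy, ey⟩ := mvt (a := s) (b := s + d) (by linarith) fun x _ => der_N2 l h.bf h.bg x
  refine ⟨y, Ioo_subset_Icc_self hy, fun r hr hr4 => ?_⟩
  have y1 := hy.1
  have y2 := hy.2
  have hN := N2_nonneg l f g (show 0 ≤ r by linarith)
  have hb := bd1_nonneg f g r
  have c4 := EE_le hG h hI.beta (G_ne hI) hω (y := y) (r := r) (by linarith) (by linarith) hr4
    fun z hz => hV z (by linarith [hz.1])
  have c5 := (le_abs_self _).trans (YY_le_bd1 f g (show 0 ≤ r by linarith) hr4)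
  have c6 : -YY f y ≤ N2 l f g r / d := by
    refine (neg_le_abs _).trans ((YY_le_n2 l f g (by linarith)).trans ?_)
    rw [le_div_iff₀ hd]
    rw [add_sub_cancel_left] at ey
    have b1 := mono_le hr (fun x _ => der_N2 l h.bf h.bg x) fun x hx =>
      n2_nonneg l f g (by linarith [hx.1])
    linarith [N2_nonneg l f g (show 0 ≤ s by linarith)]
  have c7 := (haux m β G _ _ _ l lam f g 0 0 r hG hI h continuous_zero continuous_zero
    (by linarith) hr4).2.2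
  rw [L2_zero, add_zero] at c7
  have c8 := mul_le_mul_of_nonneg_right ((le_abs_self _).trans (abs_im_le_norm lam))
    (La_nonneg G f g (show 0 ≤ r by linarith))
  have b2 : 0 ≤ 3 / d * bd1 f g r := by positivity
  have b3 : 3 / d * N2 l f g r = 3 * (N2 l f g r / d) := by ring
  linarith

theorem triv_pos (C₀ σ₀ : ℝ) : ∃ ε₀ : ℝ, 0 < ε₀ ∧ ∃ ϑ₀ : ℝ, 0 < ϑ₀ ∧ ∀ δ : ℝ, 0 < δ → ∃ Ω₀ : ℝ,
    ∀ (m : ℕ) (β : ℝ) (G : ℝ → ℂ) (ρa : ℝ) (l : ℕ) (lam : ℂ), IsProfile m β G →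
      GoodInt m β G C₀ ε₀ ϑ₀ (ρa + δ) → GoodExt m G ε₀ ρa → 1 ≤ ρa → ρa + δ ≤ 16 → 0 ≤ lam.re →
      lam.re ≤ σ₀ → Ω₀ ≤ Om l lam → 0 ≤ lam.im → Triv m β G l lam := by
  obtain ⟨εc, hεc, ϑ₀, hϑ, D, hD, hcl⟩ := closing C₀ σ₀
  obtain ⟨ε₁, hε₁, C₁, hC₁, N, hX⟩ := ext_X1 σ₀
  obtain ⟨Ca, hCa, haux⟩ := mass_le C₀
  refine ⟨min (min εc ε₁) 1, lt_min (lt_min hεc hε₁) one_pos, ϑ₀, hϑ, fun δ hδ => ?_⟩
  obtain ⟨d, hd⟩ : ∃ d : ℝ, d = δ / 30 := ⟨_, rfl⟩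
  have hd0 : 0 < d := by rw [hd]; positivity
  obtain ⟨Ω₁, hcount⟩ := exists_count (C₁ / d)
    (ε := d ^ 2 / (66 * ((Ca + 3 / d) * (2 * D + 3)))) (by positivity) N
  refine ⟨max (max Ω₁ 67) ((2 * D) ^ 2), ?_⟩
  intro m β G ρa l lam hG hI hE h1 h16 h0 hσ hΩ hω f g h
  obtain ⟨k, hk1, hk2, hk3⟩ := hcount _ ((le_max_left _ _).trans ((le_max_left _ _).trans hΩ))
  have hΩ67 : 67 ≤ Om l lam := (le_max_right _ _).trans ((le_max_left _ _).trans hΩ)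
  have hWD : 2 * D ≤ Real.sqrt (Om l lam) := Real.le_sqrt_of_sq_le ((le_max_right _ _).trans hΩ)
  obtain ⟨s, hs1, hs2⟩ : ∃ s : ℝ, 1 ≤ s ∧ s ^ 2 = ρa :=
    ⟨Real.sqrt ρa, Real.one_le_sqrt.2 h1, Real.sq_sqrt (by linarith)⟩
  have hs4 : s ≤ 4 := by nlinarith
  have hd1 : d ≤ 1 / 2 := by linarith
  have hsd : (s + 3 * d) ^ 2 ≤ ρa + δ := by nlinarith
  have hsd4 : s + 3 * d ≤ 4 := by nlinarith
  have hsq : ∀ x, s ≤ x → ρa ≤ x ^ 2 := fun x hx => hs2 ▸ pow_le_pow_left₀ (by linarith) hx 2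
  have hV : ∀ x, s ≤ x → ‖pot1 m (G (x ^ 2))‖ ≤ 1 ∧ ‖pot2 m (G (x ^ 2))‖ ≤ 1 := fun x hx =>
    pot_le hE (min_le_right _ _) h1 (hsq x hx)
  have monoE : ∀ a b, 0 ≤ a → a ≤ b → EE l lam f g a ≤ EE l lam f g b := fun a b ha hab =>
    mono_le hab (fun x _ => der_EE l lam h.bf h.bg x) fun x hx =>
      ee_nonneg l lam f g (ha.trans hx.1)
  obtain ⟨y, hy, hmass⟩ := haux m β G _ _ _ l lam f g s d hG hI h hω hs1 hd0 hV
  have hOm : 0 ≤ C₁ * Om l lam ^ N := by positivity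
  obtain ⟨x, x1, x2, x3⟩ := good_window (der_EE l lam h.bf h.bg) (fun x => ee_nonneg l lam f g)
    (zero_le_one.trans hs1) hd0 hOm hk1 (by rwa [mul_div_right_comm]) (fun z hz => by
      have z1 := hz.1
      have z2 := hz.2
      have g1 := hX m β G l lam f g z hI.one_le hI.beta hG
        (goodExt_mono hE ((min_le_left _ _).trans (min_le_right _ _)) (by linarith)
          (hsq z (by linarith))) h h0 hσ (by linarith) (by linarith)
      rw [← EE_sub l lam h.bf h.bg] at g1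
      have g2 := mul_le_mul_of_nonneg_left (en_le_ee l lam f g (show 1 ≤ z by linarith)) hOm
      have g6 := monoE (s + 3 * d) 4 (by linarith) hsd4
      linarith) hy
  have y1 := hy.1
  have y2 := hy.2
  have hk0 : (1 : ℝ) ≤ k := by exact_mod_cast hk1
  obtain ⟨w, hw⟩ : ∃ w : ℝ, w = d / k := ⟨_, rfl⟩
  rw [← hw] at x2 x3
  have hw0 : 0 < w := by rw [hw]; positivity
  obtain ⟨t, ht⟩ : ∃ t : ℝ, t = 33 / (w ^ 2 * Real.sqrt (Om l lam))
    * (EE l lam f g x - EE l lam f g y) := ⟨_, rfl⟩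
  have hpt : ∃ r ∈ Ioo x (x + w), Lc l ≤ 32 * lam.im ∧ ‖deriv f r‖ ^ 2 + lam.im * ‖f r‖ ^ 2
          + en l lam f g r / Real.sqrt (Om l lam) ≤ t ∨
        32 * lam.im ≤ Lc l ∧ ‖deriv f r‖ ^ 2 + ‖deriv g r‖ ^ 2
          + en l lam f g r / Real.sqrt (Om l lam) ≤ t := by
    rcases le_total (Lc l) (32 * lam.im) with hc | hc
    · obtain ⟨r, hr, e⟩ := point_f h hI.beta hw0 (by linarith) (by linarith) (by linarith)
        (fun z hz => hV z (by linarith [hz.1])) x3 hω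
      exact ⟨r, hr, Or.inl ⟨hc, e.trans_eq ht.symm⟩⟩
    · obtain ⟨r, hr, e⟩ := point_fg h hI.beta hw0 (by linarith) (by linarith) (by linarith)
        (fun z hz => hV z (by linarith [hz.1])) x3 hω hc
      exact ⟨r, hr, Or.inr ⟨hc, e.trans_eq ht.symm⟩⟩
  obtain ⟨r, ⟨r1, r2⟩, hc⟩ := hpt
  have hr1 : 1 ≤ r := by linarith
  have hr4 : r ≤ 4 := by linarith
  have t1 : en l lam f g r / Real.sqrt (Om l lam) ≤ t := by
    have : 0 ≤ lam.im * ‖f r‖ ^ 2 := by positivity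
    rcases hc with ⟨-, hc⟩ | ⟨-, hc⟩ <;> linarith [sq_nonneg ‖deriv f r‖, sq_nonneg ‖deriv g r‖]
  have c1 := hcl m β G (ρa + δ) l lam f g r t hG
    (goodInt_mono hI ((min_le_left _ _).trans (min_le_left _ _)))
    (goodExt_mono hE ((min_le_left _ _).trans (min_le_left _ _)) (by linarith)
      (hsq r (by linarith))) h16 h h0 hσ hω hΩ67 hr1 hr4
    ((pow_le_pow_left₀ (by linarith) (by linarith) 2).trans hsd) hc
  have c2 := absorb hD (show 0 < Ca + 3 / d by positivity) rfl hWD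
    (N2_nonneg l f g (show 0 ≤ r by linarith)) c1 (b := bd1 f g r)
    (by linarith [(small_en l lam f g r).2.2.2])
    ((sub_le_sub_right (monoE x r (by linarith) r1.le) _).trans (hmass r (by linarith) hr4))
    (sub_nonneg.2 (monoE y x (by linarith) (by linarith))) hd0 (by linarith) hw ht hk3
  exact triv_of_en hG h (by linarith) (t1.trans_eq c2)

end HF

theorem triv_high (C₀ σ₀ : ℝ) : ∃ ε₀ : ℝ, 0 < ε₀ ∧ ∃ ϑ₀ : ℝ, 0 < ϑ₀ ∧ ∀ δ : ℝ, 0 < δ → ∃ Ω₀ : ℝ,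
    ∀ (m : ℕ) (β : ℝ) (G : ℝ → ℂ) (ρa : ℝ) (l : ℕ) (lam : ℂ), IsProfile m β G →
      GoodInt m β G C₀ ε₀ ϑ₀ (ρa + δ) → GoodExt m G ε₀ ρa → 1 ≤ ρa → ρa + δ ≤ 16 → 0 ≤ lam.re →
      lam.re ≤ σ₀ → Ω₀ ≤ Om l lam → Triv m β G l lam := by
  obtain ⟨ε₀, hε, ϑ₀, hϑ, h⟩ := HF.triv_pos C₀ σ₀
  refine ⟨ε₀, hε, ϑ₀, hϑ, fun δ hδ => ?_⟩
  obtain ⟨Ω₀, h⟩ := h δ hδ
  refine ⟨Ω₀, fun m β G ρa l lam hG hI hE h1 h16 h0 hσ hΩ => ?_⟩
  rcases le_total 0 lam.im with hω | hω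
  · exact h m β G ρa l lam hG hI hE h1 h16 h0 hσ hΩ hω
  · have k := (h m β G ρa l (conj lam) hG hI hE h1 h16 h0 hσ
      (by rwa [Om, conj_im, abs_neg]) (by rw [conj_im]; linarith)).conj
    rwa [conj_conj] at k

end Vale.Agent.P139Z
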