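import Vale.Agent.P139Z.Prob
import Vale.Agent.P139Z.Hk.Local
import Vale.Agent.P139Z.Hk.Ae

/-! Local well-posedness in `H^k`, `k > d/2`, and the blow-up alternative. -/

open Set Filter Topology MeasureTheory ProbabilityTheory
open scoped NNReal ENNReal

namespace Vale.Agent.P139Z

open Vale.Agent.P139.A

/-- Local existence with a time that depends only on the norm of the datum. -/
theorem hk_local {d m k : ℕ} (hk : d < 2 * k) (M : ℝ) : ∃ T : ℝ, 0 < T ∧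
    ∀ a : (Fin d → ℤ) → ℂ, MemSobolev k a → sobolevSq k a ≤ M →
      ∃ u, IsSolution d (2 * m + 1) k T u ∧ u 0 = a :=
  Hk.local_exists hk m M

theorem lifespan_pos_of_mem {d m k : ℕ} (hk : d < 2 * k) {a : (Fin d → ℤ) → ℂ}
    (ha : MemSobolev k a) : 0 < lifespan d (2 * m + 1) k a := by
  obtain ⟨T, hT, H⟩ := hk_local (m := m) hk (sobolevSq k a)
  obtain ⟨u, hu, hu0⟩ := H a ha le_rfl
  exact lt_of_lt_of_le (ENNReal.ofReal_pos.2 hT) (Vale.Agent.P139.lifespan_ge hT.le ⟨u, hu0, hu⟩)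

/-- A finite lifespan means that the `H^k` norm is unbounded. -/
theorem blowup_alternative {d m k : ℕ} (hk : d < 2 * k) {a : (Fin d → ℤ) → ℂ}
    (ha : MemSobolev k a) (h : lifespan d (2 * m + 1) k a ≠ ⊤) (M : ℝ) :
    ∃ (T : ℝ) (u : ℝ → (Fin d → ℤ) → ℂ), 0 ≤ T ∧ IsSolution d (2 * m + 1) k T u ∧ u 0 = a ∧
      M ≤ sobolevSq k (u T) := by
  by_contra hcon
  obtain ⟨T₁, hT₁, H⟩ := hk_local (m := m) hk M
  have hlt : lifespan d (2 * m + 1) k a - ENNReal.ofReal T₁ < lifespan d (2 * m + 1) k a :=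
    ENNReal.sub_lt_self h (lifespan_pos_of_mem hk ha).ne' (ENNReal.ofReal_pos.2 hT₁).ne'
  have hlt' := hlt
  conv_rhs at hlt' => unfold lifespan
  obtain ⟨T, hT⟩ := lt_iSup_iff.1 hlt'
  obtain ⟨⟨u, hu, hu0⟩, hT'⟩ := lt_iSup_iff.1 hT
  have hM : sobolevSq k (u T) ≤ M :=
    (not_le.1 fun hle => hcon ⟨T, u, T.2, hu, hu0, hle⟩).le
  obtain ⟨v, hv, hv0⟩ := H (u T) (hu.mem T ⟨T.2, le_rfl⟩) hM
  have h1 := Vale.Agent.P139.lifespan_ge (a := a) (add_nonneg T.2 hT₁.le)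
    ⟨_, by simpa using hu0, Hk.glue T.2 hT₁.le hu hv hv0⟩
  have h2 : ENNReal.ofReal ((T : ℝ) + T₁) = (T : ℝ≥0∞) + ENNReal.ofReal T₁ := by
    rw [ENNReal.ofReal_add T.coe_nonneg hT₁.le, ENNReal.ofReal_coe_nnreal]
  have h3 : (T : ℝ≥0∞) + ENNReal.ofReal T₁ ≤ lifespan d (2 * m + 1) k a := h2 ▸ h1
  exact absurd (ENNReal.le_sub_of_add_le_right ENNReal.ofReal_ne_top h3) (not_le.2 hT')

theorem ae_memSobolev {d k : ℕ} {Ω : Type} [MeasurableSpace Ω] (P : Measure Ω)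
    [IsProbabilityMeasure P] (g : (Fin d → ℤ) → Ω → ℂ) (hm : ∀ n, Measurable (g n))
    (hg : ∀ n, P.map (g n) = stdComplexGaussian) {α : ℝ} (hα : (k : ℝ) < α - (d : ℝ) / 2) :
    ∀ᵐ ω ∂P, MemSobolev k (datum g α ω) :=
  Hk.ae_mem P g hm hg hα

end Vale.Agent.P139Z
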