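import Vale.Agent.P139Z.IntB
import Vale.Agent.P139Z.IntA.Harm

/-! Auxiliary interior estimates. -/

open Set Filter Topology MeasureTheory Complex
open scoped NNReal ENNReal ComplexConjugate ContDiff

namespace Vale.Agent.P139Z

open IntA in
theorem int_aux (C₀ : ℝ) : ∃ C : ℝ, 0 < C ∧
    ∀ (m : ℕ) (β : ℝ) (G : ℝ → ℂ) (ε ϑ ρb : ℝ) (l : ℕ) (lam : ℂ) (f g SF SG : ℝ → ℂ) (r₀ : ℝ),
      IsProfile m β G → GoodInt m β G C₀ ε ϑ ρb → RSol m β G l lam f g SF SG → Continuous SF →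
      Continuous SG → 1 ≤ r₀ → r₀ ≤ 4 →
      Pa m G f g r₀ ≤ C * (N2 l f g r₀ + bd1 f g r₀ + L2 SF SG r₀) ∧
        ‖lam‖ * ‖Cr G f g r₀‖ ≤ C * (N2 l f g r₀ + bd1 f g r₀ + L2 SF SG r₀) ∧
        ‖lam‖ * La G f g r₀ ≤ C * (N2 l f g r₀ + bd1 f g r₀ + L2 SF SG r₀) := by
  refine ⟨2 * (4 ^ 10 * (1 + 8 * C₀ ^ 2) ^ 2), by positivity, ?_⟩
  intro m β G ε ϑ ρb l lam f g SF SG r₀ hG hI h hSF hSG h1 h4
  have h0 : (0 : ℝ) ≤ r₀ := by linarith
  have sub : Icc (0 : ℝ) r₀ ⊆ Icc 0 4 := Icc_subset_Icc le_rfl h4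
  have ca := ctl_al hG hI h.bf h.bg
  have ce := ctl_et hG hI h.bf h.bg
  have e1 : ∀ r ∈ Ioo (0 : ℝ) 4, iteratedDeriv 2 (et G f g) r
      + (((11 + 2 * sf G (r ^ 2)) / r : ℝ) : ℂ) * deriv (et G f g) r
      - ((Lc l / r ^ 2 : ℝ) : ℂ) * et G f g r + lam * al G f g r
      + 1 * (vel G r : ℂ) * deriv (al G f g) r = et G SF SG r := by
    intro r hr
    rw [one_mul]
    exact eq_et hI.one_le hG h hr.1 (ne0 hI (Ioo_subset_Icc_self hr))
  have e2 : ∀ r ∈ Ioo (0 : ℝ) 4, iteratedDeriv 2 (al G f g) r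
      + (((11 + 2 * sf G (r ^ 2)) / r : ℝ) : ℂ) * deriv (al G f g) r
      - ((Lc l / r ^ 2 : ℝ) : ℂ) * al G f g r
      + (-(lam * et G f g r) - (Pf m G (r ^ 2) : ℂ) * al G f g r)
      + -1 * (vel G r : ℂ) * deriv (et G f g) r = al G SF SG r := by
    intro r hr
    linear_combination eq_al hI.one_le hG h hr.1 (ne0 hI (Ioo_subset_Icc_self hr))
  have cP : ContinuousOn (fun r : ℝ => (Pf m G (r ^ 2) : ℂ)) (Icc 0 4) :=
    (Complex.continuous_ofReal.comp (continuous_Pf hG)).continuousOn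
  have cM : ContinuousOn (fun r => lam * al G f g r) (Icc 0 4) := continuousOn_const.mul ca.cont
  have t1 := test hG hI h.bf h.bg hSF hSG norm_one ce ce ca cM (contOn_et hG hI hSF hSG)
    (fun r hr => et_le (ne0 hI hr)) e1 h1 h4
  have t2 := test hG hI h.bf h.bg hSF hSG norm_one ce ca ca cM (contOn_et hG hI hSF hSG)
    (fun r hr => et_le (ne0 hI hr)) e1 h1 h4
  have t3 := test hG hI h.bf h.bg hSF hSG (σ := -1) (by simp) ca ca ce
    ((continuousOn_const.mul ce.cont).neg.sub (cP.mul ca.cont)) (contOn_al hG hI hSF hSG)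
    (fun r hr => al_le (ne0 hI hr)) e2 h1 h4
  have i1 : ∫ r in (0 : ℝ)..r₀, (wm G r : ℂ) * (lam * al G f g r * conj (et G f g r))
      = lam * Cr G f g r₀ := by
    rw [Cr, ← intervalIntegral.integral_const_mul]
    congr 1
    funext r
    ring
  have i2 : ∫ r in (0 : ℝ)..r₀, (wm G r : ℂ) * (lam * al G f g r * conj (al G f g r))
      = lam * (La G f g r₀ : ℂ) := by
    rw [La, ← intervalIntegral.integral_ofReal, ← intervalIntegral.integral_const_mul]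
    congr 1
    funext r
    rw [mul_assoc lam, Complex.mul_conj, Complex.normSq_eq_norm_sq]
    push_cast
    ring
  have cw : ContinuousOn (fun x => (wm G x : ℂ)) (Icc 0 4) :=
    (Complex.continuous_ofReal.comp (continuous_wm hG)).continuousOn
  have cC : ContinuousOn (fun r => (wm G r : ℂ) * (al G f g r * conj (et G f g r))) (Icc 0 4) :=
    cw.mul (ca.cont.mul (Complex.continuous_conj.comp_continuousOn ce.cont))
  have cQ : ContinuousOn (fun r => wm G r * Pf m G (r ^ 2) * ‖al G f g r‖ ^ 2) (Icc 0 4) :=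
    ((continuous_wm hG).mul (continuous_Pf hG)).continuousOn.mul (ca.cont.norm.pow 2)
  have i3 : ∫ r in (0 : ℝ)..r₀, (wm G r : ℂ)
      * ((-(lam * et G f g r) - (Pf m G (r ^ 2) : ℂ) * al G f g r) * conj (al G f g r))
      = -(lam * conj (Cr G f g r₀)) - (Pa m G f g r₀ : ℂ) := by
    have j1 : IntervalIntegrable
        (fun r => -lam * conj ((wm G r : ℂ) * (al G f g r * conj (et G f g r)))) volume 0 r₀ :=
      ((continuousOn_const.mul (Complex.continuous_conj.comp_continuousOn cC)).mono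
        sub).intervalIntegrable_of_Icc h0
    have j2 : IntervalIntegrable
        (fun r => ((wm G r * Pf m G (r ^ 2) * ‖al G f g r‖ ^ 2 : ℝ) : ℂ)) volume 0 r₀ :=
      ((Complex.continuous_ofReal.comp_continuousOn cQ).mono sub).intervalIntegrable_of_Icc h0
    rw [Cr, Pa, ← intervalIntegral.integral_ofReal, ← intervalIntegral.intervalIntegral_conj,
      ← neg_mul, ← intervalIntegral.integral_const_mul, ← intervalIntegral.integral_sub j1 j2]
    congr 1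
    funext r
    have e := Complex.mul_conj (al G f g r)
    rw [Complex.normSq_eq_norm_sq] at e
    simp only [map_mul, Complex.conj_conj, Complex.conj_ofReal]
    push_cast at e ⊢
    linear_combination -(wm G r : ℂ) * (Pf m G (r ^ 2) : ℂ) * e
  rw [i1, norm_mul] at t1
  rw [i2, norm_mul, Complex.norm_real, Real.norm_of_nonneg (La_nonneg G f g h0)] at t2
  simp only [Pi.sub_apply, Pi.neg_apply, Pi.mul_apply] at t3
  rw [i3] at t3
  have p0 : 0 ≤ 4 ^ 10 * (1 + 8 * C₀ ^ 2) ^ 2 * (N2 l f g r₀ + bd1 f g r₀ + L2 SF SG r₀) :=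
    le_trans (by positivity) t1
  refine ⟨?_, by linarith, by linarith⟩
  have b1 : Pa m G f g r₀ ≤ ‖(Pa m G f g r₀ : ℂ)‖ := by
    rw [Complex.norm_real]
    exact le_abs_self _
  have b2 : ‖(Pa m G f g r₀ : ℂ)‖ ≤ ‖-(lam * conj (Cr G f g r₀))‖
      + ‖-(lam * conj (Cr G f g r₀)) - (Pa m G f g r₀ : ℂ)‖ := by
    refine le_trans (le_of_eq ?_) (norm_sub_le _ _)
    congr 1
    ring
  rw [norm_neg, norm_mul, Complex.norm_conj] at b2
  linarith

open IntA in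
/-- Testing the first equation with the harmonic function `r^l`. -/
theorem harm_test (C₀ K : ℝ) : ∃ C : ℝ, 0 < C ∧
    ∀ (m : ℕ) (β : ℝ) (G : ℝ → ℂ) (ε ϑ ρb : ℝ) (l : ℕ) (lam : ℂ) (f g SF SG : ℝ → ℂ) (r₀ κ : ℝ),
      IsProfile m β G → GoodInt m β G C₀ ε ϑ ρb → RSol m β G l lam f g SF SG → Continuous SF →
      Continuous SG → 1 ≤ r₀ → r₀ ≤ 4 → (l : ℝ) ≤ K → ‖lam‖ ≤ K →
      (∀ r ∈ Icc 0 r₀, ‖deriv (Qr G) r‖ ≤ κ) →
      ‖deriv (et G f g) r₀ - (l : ℂ) / r₀ * et G f g r₀‖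
        ≤ C * (‖al G f g r₀‖ + Real.sqrt (La G f g r₀) + κ * Real.sqrt (N2 l f g r₀)
          + ∫ r in (0 : ℝ)..r₀, ‖et G SF SG r‖) := by
  refine ⟨4 * (1 / 2 + 4 * C₀ ^ 2) + C₀ ^ 2 * (|K| * (2 * 4 ^ 5))
    + C₀ ^ 2 * ((|K| * (1 / 2 + 4 * C₀ ^ 2) + 6 + |K|) * (2 * 4 ^ 6))
    + C₀ ^ 2 * (2 * 4 ^ 11), by positivity, ?_⟩
  intro m β G ε ϑ ρb l lam f g SF SG r₀ κ hG hI h hSF hSG h1 h4 hl hlam hκ
  have h0 : (0 : ℝ) ≤ r₀ := by linarith
  have K0 : 0 ≤ K := le_trans (Nat.cast_nonneg l) hl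
  have κ0 : 0 ≤ κ := le_trans (norm_nonneg _) (hκ 0 ⟨le_rfl, h0⟩)
  rw [abs_of_nonneg K0]
  have b1 := hF_le hG hI h hSF hSG h1 h4 hl hlam hκ
  have hr' : (r₀ : ℂ) ≠ 0 := by exact_mod_cast (show r₀ ≠ 0 by linarith)
  have e1 : hF G l f g r₀ = (wm G r₀ : ℂ) * (deriv (et G f g) r₀ - (l : ℂ) / r₀ * et G f g r₀
      + (vel G r₀ : ℂ) * al G f g r₀) := by
    rw [hF, wm_eq]
    push_cast
    field_simp
  rw [e1, norm_mul, Complex.norm_real, Real.norm_of_nonneg (wm_nonneg h0)] at b1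
  have b2 := le_trans (le_mul_of_one_le_left (norm_nonneg (deriv (et G f g) r₀
    - (l : ℂ) / r₀ * et G f g r₀ + (vel G r₀ : ℂ) * al G f g r₀)) (one_le_wm hI h1 h4))
    (le_trans (le_of_eq (mul_assoc _ _ _)) (mul_le_mul_of_nonneg_left b1 (sq_nonneg C₀)))
  have b3 : ‖(vel G r₀ : ℂ) * al G f g r₀‖ ≤ 4 * (1 / 2 + 4 * C₀ ^ 2) * ‖al G f g r₀‖ := by
    rw [norm_mul, Complex.norm_real, Real.norm_eq_abs]
    gcongr
    refine le_trans (vel_le hG hI ⟨h0, h4⟩) ?_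
    gcongr
  have b4 : ‖deriv (et G f g) r₀ - (l : ℂ) / r₀ * et G f g r₀‖
      ≤ ‖deriv (et G f g) r₀ - (l : ℂ) / r₀ * et G f g r₀ + (vel G r₀ : ℂ) * al G f g r₀‖
        + ‖(vel G r₀ : ℂ) * al G f g r₀‖ := by
    refine le_trans (le_of_eq ?_) (norm_sub_le _ _)
    rw [add_sub_cancel_right]
  have p4 : 0 ≤ ∫ r in (0 : ℝ)..r₀, ‖et G SF SG r‖ :=
    intervalIntegral.integral_nonneg h0 (fun _ _ => norm_nonneg _)
  refine le_trans b4 (le_trans (add_le_add b2 b3) ?_)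
  generalize (∫ r in (0 : ℝ)..r₀, ‖et G SF SG r‖) = x₄ at p4 ⊢
  have p1 := norm_nonneg (al G f g r₀)
  have p2 := Real.sqrt_nonneg (La G f g r₀)
  have p3 := mul_nonneg κ0 (Real.sqrt_nonneg (N2 l f g r₀))
  have key : ∀ a b c d x y z t : ℝ, 0 ≤ a → 0 ≤ b → 0 ≤ c → 0 ≤ d → 0 ≤ x → 0 ≤ y → 0 ≤ z →
      0 ≤ t → a * x + b * z + c * y + d * t ≤ (a + b + c + d) * (x + y + z + t) := by
    intro a b c d x y z t ha hb hc hd hx hy hz ht
    have : 0 ≤ a * (y + z + t) + b * (x + y + t) + c * (x + z + t) + d * (x + y + z) := by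
      positivity
    linarith
  refine le_trans (le_of_eq ?_) (key _ _ _ _ _ _ _ _ (by positivity) (by positivity)
    (by positivity) (by positivity) p1 p2 p3 p4)
  ring

open IntA in
/-- Oscillation of `al` on `[r₁, r₀]`, and its size at one point. -/
theorem al_bound (C₀ : ℝ) : ∃ C : ℝ, 0 < C ∧
    ∀ (m : ℕ) (β : ℝ) (G : ℝ → ℂ) (ε ϑ ρb : ℝ) (l : ℕ) (f g : ℝ → ℂ) (r₁ r₀ : ℝ),
      IsProfile m β G → GoodInt m β G C₀ ε ϑ ρb → BddC 30 f → BddC 30 g → 2 ≤ r₁ → r₁ ≤ r₀ →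
      r₀ ≤ 4 → ∀ h : ℝ, 0 < h → h ≤ 1 → ∀ r ∈ Icc r₁ r₀,
      ‖al G f g r‖ ^ 2 ≤ C * (La G f g r₁ / h + (r₀ - r₁ + h) * N2 l f g r₀) := by
  refine ⟨2 * (C₀ ^ 2 * (1 + (8 * C₀ ^ 2) ^ 2)) + 1, by positivity, ?_⟩
  intro m β G ε ϑ ρb l f g r₁ r₀ hG hI hf hg h2 h10 h4 h hh hh1 r hr
  have ca := ctl_al hG hI hf hg
  have cw := (continuous_wm hG).continuousOn (s := Icc 0 4)
  have cL : ContinuousOn (fun x => wm G x * ‖al G f g x‖ ^ 2) (Icc 0 4) :=
    cw.mul (ca.cont.norm.pow 2)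
  have s1 : Icc (r₁ - h) r₁ ⊆ Icc (0 : ℝ) 4 := Icc_subset_Icc (by linarith) (by linarith)
  obtain ⟨t, ht, hmin⟩ := (isCompact_Icc (a := r₁ - h) (b := r₁)).exists_isMinOn
    ⟨r₁, by constructor <;> linarith⟩ (cL.mono s1)
  have a1 : h * (wm G t * ‖al G f g t‖ ^ 2) ≤ La G f g r₁ := by
    have c1 : ∫ _ in (r₁ - h)..r₁, wm G t * ‖al G f g t‖ ^ 2
        ≤ ∫ x in (r₁ - h)..r₁, wm G x * ‖al G f g x‖ ^ 2 :=
      intervalIntegral.integral_mono_on (by linarith) intervalIntegrable_const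
        ((cL.mono s1).intervalIntegrable_of_Icc (by linarith)) (fun x hx => hmin hx)
    rw [intervalIntegral.integral_const, smul_eq_mul, sub_sub_cancel] at c1
    refine le_trans c1 (intervalIntegral.integral_mono_interval (by linarith) (by linarith) le_rfl
      ?_ ((cL.mono (Icc_subset_Icc le_rfl (by linarith))).intervalIntegrable_of_Icc
        (by linarith)))
    filter_upwards [ae_restrict_mem measurableSet_Ioc] with x hx
    exact mul_nonneg (wm_nonneg hx.1.le) (by positivity)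
  have t1 : 1 ≤ t := by linarith [ht.1]
  have t4 : t ≤ 4 := by linarith [ht.2]
  have tr : t ≤ r := le_trans ht.2 hr.1
  have r4 : r ≤ 4 := le_trans hr.2 h4
  have s2 : Icc t r ⊆ Icc (0 : ℝ) 4 := Icc_subset_Icc (by linarith) r4
  have a2 : ‖al G f g t‖ ^ 2 ≤ C₀ ^ 2 * (La G f g r₁ / h) := by
    have c1 : wm G t * ‖al G f g t‖ ^ 2 ≤ La G f g r₁ / h := by
      rw [le_div_iff₀ hh]
      linarith
    calc ‖al G f g t‖ ^ 2 ≤ C₀ ^ 2 * wm G t * ‖al G f g t‖ ^ 2 :=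
          le_mul_of_one_le_left (by positivity) (one_le_wm hI t1 t4)
      _ = C₀ ^ 2 * (wm G t * ‖al G f g t‖ ^ 2) := by ring
      _ ≤ _ := by gcongr
  have ftc : ∫ x in t..r, deriv (al G f g) x = al G f g r - al G f g t :=
    intervalIntegral.integral_eq_sub_of_hasDerivAt_of_le tr (ca.cont.mono s2)
      (fun x hx => (c2_facts (ca.c2 x (s2 (Ioo_subset_Icc_self hx)))).1)
      ((ca.cont'.mono s2).intervalIntegrable_of_Icc tr)
  have a3 : ‖al G f g r - al G f g t‖ ≤ ∫ x in t..r, ‖deriv (al G f g) x‖ := by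
    rw [← ftc]
    exact intervalIntegral.norm_integral_le_integral_norm tr
  have a4 := cs_sq (M := C₀ ^ 2 * (1 + (8 * C₀ ^ 2) ^ 2)) tr (ca.cont'.mono s2).norm
    (continuous_nI l hf hg).continuousOn (fun x hx => by
      have x1 : 1 ≤ x := le_trans t1 hx.1
      have x0 : 0 ≤ x := by linarith
      have hL := Lc_nonneg l
      have c1 := ca.b1 x (s2 hx)
      have c2 := one_le_wm hI x1 (le_trans hx.2 r4)
      have c3 : (‖Qr G x‖ * ‖deriv (al G f g) x‖) ^ 2 ≤ (1 + (8 * C₀ ^ 2) ^ 2)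
          * ((‖deriv f x‖ ^ 2 + ‖deriv g x‖ ^ 2) + (‖f x‖ ^ 2 + ‖g x‖ ^ 2)) := by
        refine le_trans (pow_le_pow_left₀ (by positivity) c1 2) ?_
        generalize 8 * C₀ ^ 2 = k
        generalize ‖deriv f x‖ = a'
        generalize ‖deriv g x‖ = b'
        generalize ‖f x‖ = a
        generalize ‖g x‖ = b
        have d1 := sq_nonneg (a' + b' - k * (a + b))
        have d2 := sq_nonneg (a' - b')
        have d3 := sq_nonneg (k * (a - b))
        have d4 := sq_nonneg (k * a')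
        have d5 := sq_nonneg (k * b')
        have d6 := sq_nonneg a
        have d7 := sq_nonneg b
        linarith
      have c4 : x ^ 11 * ((‖deriv f x‖ ^ 2 + ‖deriv g x‖ ^ 2) + (‖f x‖ ^ 2 + ‖g x‖ ^ 2))
          ≤ nI l f g x := by
        rw [nI_eq]
        have p2 : 0 ≤ Lc l * x ^ 9 * (‖f x‖ ^ 2 + ‖g x‖ ^ 2) := by positivity
        linarith
      calc ‖deriv (al G f g) x‖ ^ 2 ≤ C₀ ^ 2 * wm G x * ‖deriv (al G f g) x‖ ^ 2 :=
            le_mul_of_one_le_left (by positivity) c2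
        _ = C₀ ^ 2 * (x ^ 11 * (‖Qr G x‖ * ‖deriv (al G f g) x‖) ^ 2) := by
            unfold wm
            ring
        _ ≤ C₀ ^ 2 * (x ^ 11 * ((1 + (8 * C₀ ^ 2) ^ 2)
            * ((‖deriv f x‖ ^ 2 + ‖deriv g x‖ ^ 2) + (‖f x‖ ^ 2 + ‖g x‖ ^ 2)))) := by gcongr
        _ = C₀ ^ 2 * (1 + (8 * C₀ ^ 2) ^ 2)
            * (x ^ 11 * ((‖deriv f x‖ ^ 2 + ‖deriv g x‖ ^ 2) + (‖f x‖ ^ 2 + ‖g x‖ ^ 2))) := by
            ring
        _ ≤ _ := by gcongr)
  have h0 : (0 : ℝ) ≤ r₀ := by linarith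
  have a5 : ∫ x in t..r, nI l f g x ≤ N2 l f g r₀ := by
    refine intervalIntegral.integral_mono_interval (by linarith) tr hr.2 ?_
      ((continuous_nI l hf hg).intervalIntegrable _ _)
    filter_upwards [ae_restrict_mem measurableSet_Ioc] with x hx
    exact nI_nonneg l f g hx.1.le
  have p1 := N2_nonneg l f g h0
  have p2 : 0 ≤ La G f g r₁ / h := div_nonneg (La_nonneg G f g (by linarith)) hh.le
  have p3 : 0 ≤ r₀ - r₁ + h := by linarith
  have a6 : ‖al G f g r - al G f g t‖ ^ 2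
      ≤ C₀ ^ 2 * (1 + (8 * C₀ ^ 2) ^ 2) * ((r₀ - r₁ + h) * N2 l f g r₀) := by
    refine le_trans (pow_le_pow_left₀ (norm_nonneg _) a3 2) (le_trans a4 ?_)
    have c1 : r - t ≤ r₀ - r₁ + h := by linarith [hr.2, ht.1]
    have c2 : 0 ≤ ∫ x in t..r, nI l f g x :=
      intervalIntegral.integral_nonneg tr (fun x hx => nI_nonneg l f g (s2 hx).1)
    calc (r - t) * (C₀ ^ 2 * (1 + (8 * C₀ ^ 2) ^ 2) * ∫ x in t..r, nI l f g x)
        ≤ (r₀ - r₁ + h) * (C₀ ^ 2 * (1 + (8 * C₀ ^ 2) ^ 2) * N2 l f g r₀) := by gcongr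
      _ = _ := by ring
  have a7 : ‖al G f g r‖ ≤ ‖al G f g t‖ + ‖al G f g r - al G f g t‖ := by
    refine le_trans (le_of_eq ?_) (norm_add_le _ _)
    rw [add_sub_cancel]
  have a8 : ‖al G f g r‖ ^ 2 ≤ 2 * ‖al G f g t‖ ^ 2 + 2 * ‖al G f g r - al G f g t‖ ^ 2 := by
    refine le_trans (pow_le_pow_left₀ (norm_nonneg _) a7 2) ?_
    linarith [sq_nonneg (‖al G f g t‖ - ‖al G f g r - al G f g t‖)]
  have p4 : 0 ≤ (r₀ - r₁ + h) * N2 l f g r₀ := mul_nonneg p3 p1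
  have p5 : 0 ≤ C₀ ^ 2 * (8 * C₀ ^ 2) ^ 2 * (La G f g r₁ / h) := by positivity
  linarith

end Vale.Agent.P139Z
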