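import Vale.Agent.P139Z.Modes
import Vale.Agent.P139Z.IntB.Jet

/-! The linearized system in the variables `al`, `et`. -/

open Set Filter Topology MeasureTheory Complex
open scoped NNReal ENNReal ComplexConjugate ContDiff

namespace Vale.Agent.P139Z

open IntB

variable {m : ℕ} {β : ℝ} {G : ℝ → ℂ} {l : ℕ} {lam : ℂ} {f g SF SG : ℝ → ℂ} {r : ℝ}

theorem IntB.c2 {f : ℝ → ℂ} (hf : BddC 30 f) (r : ℝ) : ContDiffAt ℝ 2 f r :=
  hf.smooth.contDiffAt.of_le (by norm_num)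

theorem contDiffAt_al (hG : IsProfile m β G) (hf : BddC 30 f) (hg : BddC 30 g)
    (h0 : G (r ^ 2) ≠ 0) : ContDiffAt ℝ 2 (al G f g) r ∧ ContDiffAt ℝ 2 (et G f g) r := by
  have h1 : ContDiffAt ℝ 2 (fun x => f x / Qr G x) r := by
    simp only [div_eq_mul_inv]
    exact (c2 hf r).mul ((jetQ hG r).c.inv h0)
  have h2 : ContDiffAt ℝ 2 (fun x => g x / conj (Qr G x)) r := by
    simp only [div_eq_mul_inv]
    exact (c2 hg r).mul ((jetQ hG r).cj.c.inv ((map_ne_zero _).2 h0))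
  exact ⟨(h1.add h2).div_const _, (h1.sub h2).div_const _⟩

theorem f_eq (h0 : G (r ^ 2) ≠ 0) :
    f r = Qr G r * (al G f g r + I * et G f g r) ∧
      g r = conj (Qr G r) * (al G f g r - I * et G f g r) := by
  have h1 : Qr G r ≠ 0 := h0
  have h2 : conj (Qr G r) ≠ 0 := (map_ne_zero _).2 h0
  unfold al et
  constructor <;> field_simp <;> ring

theorem IntB.pot2_mul (hm : 1 ≤ m) (z : ℂ) :
    pot2 m z * conj z = m * (‖z‖ : ℂ) ^ (2 * m) * z := by
  obtain ⟨k, rfl⟩ : ∃ k, m = k + 1 := ⟨m - 1, by omega⟩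
  have h : z * conj z = (‖z‖ : ℂ) ^ 2 := by rw [mul_conj, normSq_eq_norm_sq]; push_cast; rfl
  rw [pot2, Nat.add_sub_cancel]
  linear_combination ((k + 1 : ℕ) : ℂ) * (‖z‖ : ℂ) ^ (2 * k) * z * h

/-- both equations at once -/
theorem IntB.eqs (hm : 1 ≤ m) (hG : IsProfile m β G) (h : RSol m β G l lam f g SF SG) (hr : 0 < r)
    (h0 : G (r ^ 2) ≠ 0) {a₀ a₁ a₂ b₀ b₁ b₂ A v L P : ℂ} (ha : Jet (al G f g) r a₀ a₁ a₂)
    (hb : Jet (et G f g) r b₀ b₁ b₂) (hA : A = (((11 + 2 * sf G (r ^ 2)) / r : ℝ) : ℂ))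
    (hv : v = (vel G r : ℂ)) (hL : L = ((Lc l / r ^ 2 : ℝ) : ℂ)) (hP : P = (Pf m G (r ^ 2) : ℂ)) :
    SF r / Qr G r = a₂ + I * b₂ + (A + I * v) * (a₁ + I * b₁) - L * (a₀ + I * b₀)
        + I * lam * (a₀ + I * b₀) - P * a₀ ∧
      SG r / conj (Qr G r) = a₂ - I * b₂ + (A - I * v) * (a₁ - I * b₁) - L * (a₀ - I * b₀)
        - I * lam * (a₀ - I * b₀) - P * a₀ := by
  have h1 : Qr G r ≠ 0 := h0
  have h2 : conj (Qr G r) ≠ 0 := (map_ne_zero _).2 h0
  have hr' : (r : ℂ) ≠ 0 := ofReal_ne_zero.2 hr.ne'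
  have hQ := Jet.of (jetQ hG r).c
  obtain ⟨f0, f1, f2⟩ := (Jet.of (c2 h.bf r)).unique (hQ.mul (ha.add (hb.const_mul I)))
    ((ev_ne hG h0).mono fun x hx => (f_eq hx).1)
  obtain ⟨g0, g1, g2⟩ := (Jet.of (c2 h.bg r)).unique (hQ.cj.mul (ha.sub (hb.const_mul I)))
    ((ev_ne hG h0).mono fun x hx => (f_eq hx).2)
  have o1 := odeQ hG hr
  have o2 := congrArg conj o1
  simp only [map_add, map_mul, map_div₀, conj_ofReal, conj_I, map_pow, map_ofNat] at o2
  have p1 := pot2_mul hm (Qr G r)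
  have p2 := congrArg conj p1
  simp only [map_mul, conj_conj, conj_ofReal, map_pow, map_natCast] at p2
  set p := deriv (Qr G) r / Qr G r with hp
  have q1 : deriv (Qr G) r = p * Qr G r := by rw [hp]; field_simp
  have q2 : conj (deriv (Qr G) r) = conj p * conj (Qr G r) := by rw [q1, map_mul]
  have r1 : (p.re : ℂ) + p.im * I = p := re_add_im p
  have r2 : (p.re : ℂ) - p.im * I = conj p := by apply Complex.ext <;> simp
  have eA : A = 11 / (r : ℂ) + 2 * p.re := by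
    rw [hA, sf_eq hG]; push_cast; field_simp; rfl
  have ev : v = r / 2 + 2 * p.im := by rw [hv, vel]; push_cast; rfl
  have eL : L = (l : ℂ) * ((l : ℂ) + 10) / (r : ℂ) ^ 2 := by rw [hL, Lc]; push_cast; rfl
  have eP : P = 2 * m * (‖Qr G r‖ : ℂ) ^ (2 * m) := by rw [hP, Pf, Qr]; push_cast; rfl
  constructor
  · rw [div_eq_iff h1, ← h.eqF r hr, opF, f2, f1, f0, g0, ← eL, eA, ev, eP, pot1]
    linear_combination (a₀ + I * b₀) * o1 - (a₀ - I * b₀) * p1
      + 2 * (a₁ + I * b₁) * q1 - 2 * (a₁ + I * b₁) * Qr G r * r1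
  · rw [div_eq_iff h2, ← h.eqG r hr, opG, g2, g1, g0, f0, ← eL, eA, ev, eP, pot1]
    linear_combination (a₀ - I * b₀) * o2 - (a₀ + I * b₀) * p2
      + 2 * (a₁ - I * b₁) * q2 - 2 * (a₁ - I * b₁) * conj (Qr G r) * r2

theorem eq_et (hm : 1 ≤ m) (hG : IsProfile m β G) (h : RSol m β G l lam f g SF SG) (hr : 0 < r)
    (h0 : G (r ^ 2) ≠ 0) :
    iteratedDeriv 2 (et G f g) r + (((11 + 2 * sf G (r ^ 2)) / r : ℝ) : ℂ) * deriv (et G f g) r
      - ((Lc l / r ^ 2 : ℝ) : ℂ) * et G f g r + lam * al G f g r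
      + (vel G r : ℂ) * deriv (al G f g) r = et G SF SG r := by
  obtain ⟨c₁, c₂⟩ := contDiffAt_al hG h.bf h.bg h0
  obtain ⟨e₁, e₂⟩ := eqs hm hG h hr h0 (Jet.of c₁) (Jet.of c₂) rfl rfl rfl rfl
  rw [show et G SF SG r = (SF r / Qr G r - SG r / conj (Qr G r)) / (2 * I) from rfl, e₁, e₂,
    eq_div_iff (mul_ne_zero two_ne_zero I_ne_zero)]
  ring

theorem eq_al (hm : 1 ≤ m) (hG : IsProfile m β G) (h : RSol m β G l lam f g SF SG) (hr : 0 < r)
    (h0 : G (r ^ 2) ≠ 0) :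
    iteratedDeriv 2 (al G f g) r + (((11 + 2 * sf G (r ^ 2)) / r : ℝ) : ℂ) * deriv (al G f g) r
      - ((Lc l / r ^ 2 : ℝ) : ℂ) * al G f g r - lam * et G f g r
      - (vel G r : ℂ) * deriv (et G f g) r
      = (Pf m G (r ^ 2) : ℂ) * al G f g r + al G SF SG r := by
  obtain ⟨c₁, c₂⟩ := contDiffAt_al hG h.bf h.bg h0
  obtain ⟨e₁, e₂⟩ := eqs hm hG h hr h0 (Jet.of c₁) (Jet.of c₂) rfl rfl rfl rfl
  rw [show al G SF SG r = (SF r / Qr G r + SG r / conj (Qr G r)) / 2 from rfl, e₁, e₂]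
  linear_combination (-((vel G r : ℂ) * deriv (et G f g) r) - lam * et G f g r) * I_mul_I

theorem hasDerivAt_wm (hG : IsProfile m β G) (hr : 0 < r) (h0 : G (r ^ 2) ≠ 0) :
    HasDerivAt (wm G) (wm G r * ((11 + 2 * sf G (r ^ 2)) / r)) r := by
  refine ((hasDerivAt_pow 11 r).fun_mul (hasDerivAt_nQ hG hr h0)).congr_deriv ?_
  unfold wm
  field_simp
  push_cast
  ring

theorem hasDerivAt_wm_vel (hG : IsProfile m β G) (hr : 0 < r) (h0 : G (r ^ 2) ≠ 0) :
    HasDerivAt (fun x => wm G x * vel G x) (2 * (3 - 1 / (2 * (m : ℝ))) * wm G r) r := by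
  have hQ := Jet.of (jetQ hG r).c
  have h1 := (((hasDerivAt_pow 12 r).fun_mul hQ.d_normSq).div_const 2).fun_add
    (((hasDerivAt_pow 11 r).fun_mul hQ.d_im).const_mul 2)
  refine (h1.congr_of_eventuallyEq ((ev_ne hG h0).mono fun x hx => ?_)).congr_deriv ?_
  · simp only [wm, vel]
    rw [conj_mul_eq hx, im_ofReal_mul]
    ring
  · have o := congrArg (fun z => (conj (Qr G r) * z).im) (odeQ hG hr)
    have e1 : (conj (Qr G r) * ((‖Qr G r‖ : ℂ) ^ (2 * m) * Qr G r)).im = 0 := by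
      rw [mul_left_comm, ← normSq_eq_conj_mul_self, ← ofReal_pow, ← ofReal_mul, ofReal_im]
    have e2 : (11 / (r : ℂ)) = ((11 / r : ℝ) : ℂ) := by push_cast; rfl
    have e3 : ‖Qr G r‖ ^ 2 = (Qr G r).re ^ 2 + (Qr G r).im ^ 2 := by
      rw [← normSq_eq_norm_sq, normSq_apply]; ring
    simp only [e1, e2] at o
    rw [← re_Lam m β, wm, e3]
    simp only [mul_im, mul_re, add_im, add_re, conj_re, conj_im, ofReal_re, ofReal_im, I_re, I_im,
      div_ofNat_re, div_ofNat_im] at o ⊢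
    field_simp at o
    norm_num
    linear_combination r ^ 10 * o

theorem hasDerivAt_Pf (hG : IsProfile m β G) (hr : 0 < r) (h0 : G (r ^ 2) ≠ 0) :
    HasDerivAt (fun x => Pf m G (x ^ 2)) (2 * (m : ℝ) * sf G (r ^ 2) * Pf m G (r ^ 2) / r) r := by
  have h1 := ((hasDerivAt_nQ hG hr h0).fun_pow m).const_mul (2 * (m : ℝ))
  simp only [Pf, pow_mul]
  refine h1.congr_deriv ?_
  rcases Nat.eq_zero_or_pos m with rfl | hm
  · simp
  · obtain ⟨k, rfl⟩ : ∃ k, m = k + 1 := ⟨m - 1, by omega⟩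
    simp only [Qr, Nat.add_sub_cancel]
    ring

/-- The Riccati equation for `s`. -/
theorem deriv_sf (hG : IsProfile m β G) {ρ : ℝ} (hρ : 0 ≤ ρ) (h0 : G ρ ≠ 0) :
    deriv (sf G) ρ = (‖G ρ‖ ^ (2 * m) - β + ρ * (deriv G ρ / G ρ).im
      + 4 * ρ * (deriv G ρ / G ρ).im ^ 2) / 2 - 10 * (deriv G ρ / G ρ).re
      - 2 * ρ * (deriv G ρ / G ρ).re ^ 2 := by
  have hJ := jetG hG ρ
  have h1 := reCLM.hasFDerivAt.comp_hasDerivAt ρ (hJ.d1.fun_div hJ.d0 h0)
  have h2 : HasDerivAt (sf G) _ ρ := ((hasDerivAt_id' ρ).const_mul 2).fun_mul h1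
  rw [h2.deriv]
  set p := deriv G ρ / G ρ with hp
  set q := iteratedDeriv 2 G ρ / G ρ with hq
  have e1 : (iteratedDeriv 2 G ρ * G ρ - deriv G ρ * deriv G ρ) / G ρ ^ 2 = q - p * p := by
    rw [hp, hq]; field_simp
  have e2 : 4 * ρ * q + (24 + I * ρ) * p + I * Lam m β = ((‖G ρ‖ ^ (2 * m) : ℝ) : ℂ) := by
    apply mul_right_cancel₀ h0
    rw [ofReal_pow, ← hG.ode ρ hρ, hp, hq]
    field_simp
  have e3 := congrArg re e2
  simp only [mul_im, mul_re, add_im, add_re, ofReal_re, ofReal_im, I_re, I_im, re_ofNat,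
    im_ofNat, im_Lam] at e3
  rw [e1]
  simp only [reCLM_apply, sub_re, mul_re]
  linear_combination e3 / 2

theorem IntB.im_al_et (h0 : G (r ^ 2) ≠ 0) :
    4 * ((wm G r : ℂ) * (al G f g r * conj (et G f g r))).im = r ^ 11 * (‖f r‖ ^ 2 - ‖g r‖ ^ 2) := by
  obtain ⟨e₁, e₂⟩ := f_eq (f := f) (g := g) h0
  rw [e₁, e₂, im_ofReal_mul, wm, norm_mul, norm_mul, RCLike.norm_conj, mul_pow, mul_pow,
    ← normSq_eq_norm_sq (_ + _), ← normSq_eq_norm_sq (_ - _)]
  simp only [normSq_apply, mul_im, mul_re, add_im, add_re, sub_re, sub_im, conj_re, conj_im, I_re,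
    I_im]
  ring

/-- The flux identity. -/
theorem flux_id (hG : IsProfile m β G) (h : RSol m β G l lam f g 0 0) {r₀ : ℝ} (hr : 0 ≤ r₀)
    (h0 : ∀ x ∈ Icc 0 r₀, G (x ^ 2) ≠ 0) :
    r₀ ^ 11 * ((conj (f r₀) * deriv f r₀).im + (conj (g r₀) * deriv g r₀).im
        + r₀ / 4 * (‖f r₀‖ ^ 2 - ‖g r₀‖ ^ 2))
      = 4 * (3 - lam.re - 1 / (2 * (m : ℝ))) * (Cr G f g r₀).im := by
  have jf := fun x => Jet.of (c2 h.bf x)
  have jg := fun x => Jet.of (c2 h.bg x)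
  have hd := fun x : ℝ => (hasDerivAt_pow 11 x).fun_mul (((jf x).d_im.fun_add (jg x).d_im).fun_add
    (((hasDerivAt_id' x).div_const 4).fun_mul ((jf x).d_normSq.fun_sub (jg x).d_normSq)))
  have hc : ContinuousOn (fun x => (wm G x : ℂ) * (al G f g x * conj (et G f g x)))
      (uIcc 0 r₀) := by
    rw [uIcc_of_le hr]
    intro x hx
    obtain ⟨c₁, c₂⟩ := contDiffAt_al hG h.bf h.bg (h0 x hx)
    have c₃ : Continuous (wm G) :=
      (continuous_pow 11).mul ((contDiff_Qr hG).continuous.norm.pow 2)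
    exact ((continuous_ofReal.comp c₃).continuousAt.mul (c₁.continuousAt.mul
      (continuous_conj.continuousAt.comp c₂.continuousAt))).continuousWithinAt
  have hi := hc.intervalIntegrable (μ := volume)
  have e1 : (Cr G f g r₀).im =
      ∫ x in (0 : ℝ)..r₀, ((wm G x : ℂ) * (al G f g x * conj (et G f g x))).im :=
    (imCLM.intervalIntegral_comp_comm hi).symm
  have e2 := intervalIntegral.integral_eq_sub_of_hasDerivAt_of_le hr
    (f' := fun x => 4 * (3 - lam.re - 1 / (2 * (m : ℝ))) *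
      ((wm G x : ℂ) * (al G f g x * conj (et G f g x))).im)
    (fun x _ => (hd x).continuousAt.continuousWithinAt) (fun x hx => ?_)
    ((continuous_im.comp_continuousOn hc).intervalIntegrable.const_mul _)
  · rw [e1, ← intervalIntegral.integral_const_mul, e2]
    simp
  · refine (hd x).congr_deriv ?_
    have hx0 := hx.1
    have a1 := congrArg (fun z => (conj (f x) * z).im) (h.eqF x hx0)
    have a2 := congrArg (fun z => (conj (g x) * z).im) (h.eqG x hx0)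
    have e2 : (11 / (x : ℂ)) = ((11 / x : ℝ) : ℂ) := by push_cast; rfl
    have e3 : (l : ℂ) * ((l : ℂ) + 10) / (x : ℂ) ^ 2 = ((Lc l / x ^ 2 : ℝ) : ℂ) := by
      rw [Lc]; push_cast; rfl
    have e4 : pot1 m (Qr G x) = (((m + 1) * ‖Qr G x‖ ^ (2 * m) : ℝ) : ℂ) := by
      rw [pot1]; push_cast; rfl
    have e5 : ∀ z : ℂ, ‖z‖ ^ 2 = z.re ^ 2 + z.im ^ 2 := fun z => by
      rw [← normSq_eq_norm_sq, normSq_apply]; ring
    rw [mul_right_comm (4 : ℝ), im_al_et (h0 x (Ioo_subset_Icc_self hx)), ← re_Lam m β]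
    simp only [opF, opG, e2, e3, e4, Pi.zero_apply, mul_zero, zero_im] at a1 a2
    simp only [e5, mul_im, mul_re, add_im, add_re, sub_re, sub_im, conj_re, conj_im, ofReal_re,
      ofReal_im, I_re, I_im, div_ofNat_re, div_ofNat_im] at a1 a2 ⊢
    have e6 : x ^ 11 * (11 / x) = 11 * x ^ 10 := by field_simp
    norm_num
    linear_combination x ^ 11 * (a1 + a2) - ((f x).re * (deriv f x).im - (f x).im * (deriv f x).re
      + ((g x).re * (deriv g x).im - (g x).im * (deriv g x).re)) * e6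

end Vale.Agent.P139Z
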