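import Vale.Agent.P139Z.IntB
import Vale.Agent.P139Z.Decay
import Vale.Agent.P139Z.LS.Far

/-! No eigenvalue with large real part. -/

open Set Filter Topology MeasureTheory Complex
open scoped NNReal ENNReal ComplexConjugate ContDiff

namespace Vale.Agent.P139Z

theorem triv_large_re (C₀ C₁ : ℝ) {c : ℝ} (hc : 0 < c) : ∃ σ₀ : ℝ,
    ∀ (m : ℕ) (β : ℝ) (G : ℝ → ℂ) (ϑ ρb : ℝ) (l : ℕ) (lam : ℂ), IsProfile m β G →
      GoodInt m β G C₀ 1 ϑ ρb → GoodExt m G 1 16 → GoodFar m G c C₁ → σ₀ ≤ lam.re →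
      Triv m β G l lam := by
  set u : ℝ := C₀ ^ 2 + |C₁| / c with hu
  set K : ℝ := 1 / 2 + 4 * u with hK
  set K' : ℝ := 11 + 64 * u with hK'
  set κ₀ : ℝ := min (C₀ ^ 2)⁻¹ (c ^ 2) with hκ₀
  have u0 : 0 ≤ u := by positivity
  have K0 : 0 ≤ K := by positivity
  have K'0 : 0 ≤ K' := by positivity
  refine ⟨K * K' + K + (100 * K + 1) / κ₀ + 5, ?_⟩
  intro m β G ϑ ρb l lam hG hI hE hF hσ f g h
  have hm := hI.one_le
  have hC := LS.C₀_pos hI
  have κ0 : 0 < κ₀ := lt_min (by positivity) (by positivity)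
  have hσ4 : 5 ≤ lam.re := by
    have : 0 ≤ K * K' + K + (100 * K + 1) / κ₀ := by positivity
    linarith
  have hL : 0 ≤ Lc l := by unfold Lc; positivity
  have n0 : ∀ r : ℝ, G (r ^ 2) ≠ 0 := fun r => LS.ne_zero hc hI hF (sq_nonneg r)
  have sα : ∀ r : ℝ, ContDiffAt ℝ 2 (al G f g) r := fun r =>
    (contDiffAt_al hG h.bf h.bg (n0 r)).1
  have sη : ∀ r : ℝ, ContDiffAt ℝ 2 (et G f g) r := fun r =>
    (contDiffAt_al hG h.bf h.bg (n0 r)).2
  have z1 : ∀ r : ℝ, et G 0 0 r = 0 := fun r => by simp [et]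
  have z2 : ∀ r : ℝ, al G 0 0 r = 0 := fun r => by simp [al]
  set W := LS.Wf lam (Lc l) (100 * K + 1) (al G f g) (et G f g) (wm G)
    (fun x => wm G x * vel G x) (fun x => Pf m G (x ^ 2)) (fun x => x ^ 10 * LS.om m x) with hW
  have key : ∀ r : ℝ, 0 < r → HasDerivAt W (deriv W r) r ∧
      wm G r * (‖deriv (al G f g) r‖ ^ 2 + ‖deriv (et G f g) r‖ ^ 2)
        + r ^ 9 * LS.om m r * ‖al G f g r‖ ^ 2 ≤ deriv W r := by
    intro r hr
    obtain ⟨φ', hφ, hφ'⟩ := LS.hasDerivAt_phi hm hr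
    have e1 := eq_et hm hG h hr (n0 r)
    have e2 := eq_al hm hG h hr (n0 r)
    rw [z1] at e1
    rw [z2, add_zero] at e2
    have d := LS.hasDerivAt_Wf (κ := 100 * K + 1) hr.ne' (sα r) (sη r) (hasDerivAt_wm hG hr (n0 r))
      (hasDerivAt_wm_vel hG hr (n0 r)) rfl (hasDerivAt_Pf hG hr (n0 r)) hφ e1 e2
    refine ⟨d.differentiableAt.hasDerivAt, ?_⟩
    rw [hW, d.deriv]
    have ha := LS.a_le hm
    have ha0 := LS.a_pos hm
    obtain ⟨w1, w2⟩ := LS.weight_cmp hc hI hF r
    refine LS.lower_bound (K' := K') (κ₀ := κ₀) hr (LS.wm_pos hc hI hF hr) (LS.om_pos m r) hL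
      (LS.Pf_nonneg _ _ _) (LS.vel_nonneg hc hG hI hF hr) (LS.vel_le hc hG hI hF hr) ?_ K'0
      (by linarith) (by linarith) (LS.dP_le hc hG hI hE hF hr) hφ' ?_ κ0 ?_ ?_ hσ
    · rw [div_mul_cancel₀ _ hr.ne']
      have := LS.sf_le hc hI hF (sq_nonneg r)
      linarith
    · unfold wm
      have := mul_le_mul_of_nonneg_left w1 (show 0 ≤ r ^ 11 by positivity)
      linarith
    · unfold wm
      have := mul_le_mul_of_nonneg_left w2 (show 0 ≤ r ^ 11 by positivity)
      linarith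
    · have := Complex.abs_re_le_norm (conj (al G f g r) * deriv (al G f g) r)
      rw [norm_mul, Complex.norm_conj] at this
      exact neg_le_of_abs_le this
  have cW : Continuous W := by
    have cα : Continuous (al G f g) := continuous_iff_continuousAt.2 fun r => (sα r).continuousAt
    have cη : Continuous (et G f g) := continuous_iff_continuousAt.2 fun r => (sη r).continuousAt
    have cα' : Continuous (deriv (al G f g)) :=
      continuous_iff_continuousAt.2 fun r => (LS.hasDerivAt_deriv (sα r)).continuousAt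
    have cη' : Continuous (deriv (et G f g)) :=
      continuous_iff_continuousAt.2 fun r => (LS.hasDerivAt_deriv (sη r)).continuousAt
    have cw := LS.continuous_wm hG
    have cv := LS.continuous_vel hc hG hI hF
    have cq := LS.continuous_Qr hG
    have co := LS.continuous_om m
    have cP : Continuous fun x : ℝ => Pf m G (x ^ 2) :=
      continuous_const.mul (cq.norm.pow (2 * m))
    have cV : Continuous fun x : ℝ => wm G x * vel G x / x ^ 2 := by
      have e : (fun x : ℝ => wm G x * vel G x / x ^ 2)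
          = fun x : ℝ => x ^ 9 * ‖Qr G x‖ ^ 2 * vel G x := by
        funext x
        unfold wm
        by_cases hx : x = 0
        · simp [hx]
        · field_simp
      rw [e]
      exact ((continuous_pow 9).mul (cq.norm.pow 2)).mul cv
    rw [hW]
    unfold LS.Wf
    refine ((((Complex.continuous_re.comp (continuous_const.mul
      (((Complex.continuous_conj.comp cα').mul cα).add
        ((Complex.continuous_conj.comp cη').mul cη)))).mul cw).add
      (((cw.mul cv).mul (((cα'.norm.pow 2).add (cη'.norm.pow 2)).sub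
        (cP.mul (cα.norm.pow 2)))).div_const 2)).sub
      (((continuous_const.mul cV).mul ((cα.norm.pow 2).add (cη.norm.pow 2))).div_const 2)).add
      (continuous_const.mul (((continuous_pow 10).mul co).mul (cα.norm.pow 2)))
  have W0 : W 0 = 0 := by
    rw [hW]
    simp [LS.Wf, wm]
  have Wt : Tendsto W atTop (𝓝 0) := by
    obtain ⟨B, B0, hB⟩ := LS.decay8 hm hG h (by linarith)
    set M : ℝ := (2 * ‖lam‖ + 2 * K + Lc l * K + (100 * K + 1) * κ₀⁻¹) * ((1 + 32 * u) * B) ^ 2
      with hM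
    have lim : Tendsto (fun r : ℝ => M * (r ^ 4)⁻¹) atTop (𝓝 0) := by
      have := (tendsto_inv_atTop_zero.comp (tendsto_pow_atTop (α := ℝ) (n := 4)
        (by norm_num))).const_mul M
      simpa using this
    refine squeeze_zero_norm' ?_ lim
    filter_upwards [eventually_ge_atTop 4] with r hr
    have hr1 : 1 ≤ r := by linarith
    have hr0 : 0 < r := by linarith
    obtain ⟨b1, b2, b3, b4⟩ := hB r hr1
    have hT : ‖2 * r * deriv G (r ^ 2) / G (r ^ 2)‖ ≤ 32 * u := by
      have q := (LS.quot_bd hc hI hF (sq_nonneg r)).2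
      rw [mul_div_assoc, norm_mul, norm_mul, Complex.norm_real, Real.norm_of_nonneg hr0.le,
        Complex.norm_ofNat]
      have : r * ‖deriv G (r ^ 2) / G (r ^ 2)‖ ≤ r ^ 2 * ‖deriv G (r ^ 2) / G (r ^ 2)‖ :=
        mul_le_mul_of_nonneg_right (by nlinarith) (norm_nonneg _)
      linarith
    obtain ⟨c1, c2, c3, c4⟩ := LS.four_bounds hG h.bf h.bg (n0 r) hT b1 b2 b3 b4
    have hv0 := LS.vel_nonneg hc hG hI hF hr0
    have hv1 := LS.vel_le hc hG hI hF hr0
    have hw0 := LS.wm_pos hc hI hF hr0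
    have ho := LS.om_pos m r
    have bd := LS.Wf_bound (lam := lam) (L := Lc l) (κ := 100 * K + 1) (w := wm G)
      (V := fun x => wm G x * vel G x) (P := fun x => Pf m G (x ^ 2))
      (φ := fun x => x ^ 10 * LS.om m x) (K := K) (κ₁ := κ₀⁻¹) hr1 hL (by positivity)
      (norm_nonneg (Qr G r)) rfl (mul_nonneg hw0.le hv0) ?_ (LS.Pf_nonneg _ _ _)
      (LS.Pf_le hE (by nlinarith)) (by positivity) ?_ K0 (by positivity) c1 c2 c3 c4
    · rw [Real.norm_eq_abs]
      refine bd.trans (le_of_eq ?_)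
      rw [hM]
      field_simp
    · have := mul_le_mul_of_nonneg_left hv1 hw0.le
      refine this.trans (le_of_eq ?_)
      unfold wm
      ring
    · have w2 := (LS.weight_cmp hc hI hF r).2
      have q1 : LS.om m r ≤ κ₀⁻¹ * ‖Qr G r‖ ^ 2 := by
        rw [← div_eq_inv_mul, le_div_iff₀ κ0, mul_comm]
        exact w2
      have q2 : r ^ 10 ≤ r ^ 12 := pow_le_pow_right₀ hr1 (by norm_num)
      calc r ^ 10 * LS.om m r ≤ r ^ 12 * (κ₀⁻¹ * ‖Qr G r‖ ^ 2) :=
            mul_le_mul q2 q1 ho.le (by positivity)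
        _ = _ := by ring
  have nn : ∀ r : ℝ, 0 < r → 0 ≤ wm G r * (‖deriv (al G f g) r‖ ^ 2 + ‖deriv (et G f g) r‖ ^ 2)
      ∧ 0 ≤ r ^ 9 * LS.om m r * ‖al G f g r‖ ^ 2 := fun r hr => by
    have hw0 := LS.wm_pos hc hI hF hr
    have ho := LS.om_pos m r
    constructor <;> positivity
  have hD := LS.deriv_eq_zero cW.continuousOn W0 (fun r hr => (key r hr).1)
    (fun r hr => le_trans (add_nonneg (nn r hr).1 (nn r hr).2) (key r hr).2) Wt
  have hα : ∀ r : ℝ, 0 < r → al G f g r = 0 := by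
    intro r hr
    have q := (key r hr).2
    rw [hD r hr] at q
    have q1 : r ^ 9 * LS.om m r * ‖al G f g r‖ ^ 2 = 0 := le_antisymm (by linarith [(nn r hr).1])
      (nn r hr).2
    have ho := LS.om_pos m r
    have q2 : r ^ 9 * LS.om m r ≠ 0 := by positivity
    simpa using (mul_eq_zero.1 q1).resolve_left q2
  have hη' : ∀ r : ℝ, 0 < r → deriv (et G f g) r = 0 := by
    intro r hr
    have q := (key r hr).2
    rw [hD r hr] at q
    have hw0 := LS.wm_pos hc hI hF hr
    have q1 : wm G r * (‖deriv (al G f g) r‖ ^ 2 + ‖deriv (et G f g) r‖ ^ 2) ≤ 0 := by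
      linarith [(nn r hr).2]
    have q2 : ‖deriv (al G f g) r‖ ^ 2 + ‖deriv (et G f g) r‖ ^ 2 ≤ 0 :=
      nonpos_of_mul_nonpos_right q1 hw0
    have q3 : ‖deriv (et G f g) r‖ ^ 2 = 0 :=
      le_antisymm (by linarith [sq_nonneg ‖deriv (al G f g) r‖]) (sq_nonneg _)
    simpa using q3
  intro r hr
  have ev : al G f g =ᶠ[𝓝 r] fun _ => 0 := by
    filter_upwards [Ioi_mem_nhds hr] with x hx
    exact hα x hx
  have d1 : deriv (al G f g) r = 0 := by rw [ev.deriv_eq]; simp
  have d2 : iteratedDeriv 2 (al G f g) r = 0 := by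
    rw [ev.iteratedDeriv_eq 2]
    simp
  have e2 := eq_al hm hG h hr (n0 r)
  rw [d1, d2, hα r hr, hη' r hr, z2] at e2
  have hl : lam ≠ 0 := by
    intro h0
    rw [h0] at hσ4
    norm_num at hσ4
  have hη : et G f g r = 0 := by
    have : lam * et G f g r = 0 := by linear_combination -e2
    exact (mul_eq_zero.1 this).resolve_left hl
  obtain ⟨ef, eg⟩ := f_eq (f := f) (g := g) (n0 r)
  rw [ef, eg, hα r hr, hη]
  simp

end Vale.Agent.P139Z
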