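import Vale.Agent.P139Z.XEv

/-!
Block XBG: the background data in the weighted Fourier spaces; modulation.
-/

open Set Filter Topology MeasureTheory Complex
open scoped NNReal ENNReal ComplexConjugate ContDiff

namespace Vale.Agent.P139Z

variable {d k : ℕ}

open XW

namespace XBg

theorem ev_smul (c : ℂ) (F : XW d k) (y : Eu d) : ev (c • F) y = c * ev F y := by
  rw [← evCLM_apply, map_smul, evCLM_apply, smul_eq_mul]

theorem ev_neg (F : XW d k) (y : Eu d) : ev (-F) y = -ev F y := by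
  rw [← evCLM_apply, map_neg, evCLM_apply]

theorem cpow_succ (V : XW d k) (n : ℕ) (F : XW d k) : cpow V (n + 1) F = conv V (cpow V n F) :=
  Function.iterate_succ_apply' _ _ _

theorem ev_cpow (V : XW d k) (n : ℕ) (F : XW d k) (y : Eu d) :
    ev (cpow V n F) y = ev V y ^ n * ev F y := by
  induction n with
  | zero => simp [XW.cpow]
  | succ n ih => rw [cpow_succ, ev_conv, ih]; ring

theorem nrmX_cpow (V : XW d k) (n : ℕ) (F : XW d k) :
    nrmX 0 (cpow V n F) ≤ nrmX 0 V ^ n * nrmX 0 F := by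
  induction n with
  | zero => simp [XW.cpow]
  | succ n ih =>
    rw [cpow_succ, pow_succ', mul_assoc]
    exact (nrmX_conv_le (Nat.zero_le k) _ _).trans
      (mul_le_mul_of_nonneg_left ih (nrmX_nonneg _ _))

theorem incl_cpow (V : XW d (k + 1)) (n : ℕ) (F : XW d (k + 1)) :
    incl (cpow V n F) = cpow (incl V) n (incl F) := by
  induction n with
  | zero => rfl
  | succ n ih => rw [cpow_succ, cpow_succ, incl_conv, ih]

/-- chain rule for a strongly continuous, locally bounded family of operators -/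
theorem fderiv_strong {P X : Type*} [NormedAddCommGroup P] [NormedSpace ℝ P]
    [FiniteDimensional ℝ P] [NormedAddCommGroup X] [NormedSpace ℝ X] (A : P → X →L[ℝ] X) {C : ℝ}
    (hC : ∀ᶠ p in 𝓝 0, ‖A p‖ ≤ C) (hc : ∀ x, Continuous fun p => A p x) (h0 : ∀ x, A 0 x = x)
    {g : P → X} {g' a' : P →L[ℝ] X} (hg : HasFDerivAt g g' 0)
    (ha : HasFDerivAt (fun p => A p (g 0)) a' 0) :
    HasFDerivAt (fun p => A p (g p)) (a' + g') 0 := by
  rw [hasFDerivAt_iff_isLittleO] at hg ha ⊢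
  have h1 : (fun p => A p (g p - g 0 - g' (p - 0))) =o[𝓝 0] fun p : P => p - 0 := by
    refine Asymptotics.IsBigO.trans_isLittleO (Asymptotics.IsBigO.of_bound C ?_) hg
    filter_upwards [hC] with p hp
    exact (A p).le_of_opNorm_le hp _
  have h2 : Continuous fun p => (A p).comp g' - g' :=
    continuous_clm_apply.mpr fun y => (hc (g' y)).sub continuous_const
  have h3 : (fun p => ((A p).comp g' - g') p) =o[𝓝 0] fun p : P => p - 0 := by
    refine Asymptotics.isLittleO_iff.mpr fun c hc0 => ?_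
    have h4 := h2.norm.tendsto 0
    have e : (A 0).comp g' - g' = 0 := by ext y; simp [h0]
    rw [e, norm_zero] at h4
    filter_upwards [h4.eventually (ge_mem_nhds hc0)] with p hp
    rw [sub_zero]
    exact ContinuousLinearMap.le_of_opNorm_le _ hp _
  refine ((h1.add ha).add h3).congr_left fun p => ?_
  simp only [map_sub, h0, sub_zero, sub_apply, add_apply,
    ContinuousLinearMap.comp_apply]
  abel

theorem norm_exp_sub_le (t : ℝ) : ‖cexp (I * t) - 1 - I * t‖ ≤ 2 * t ^ 2 := by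
  have e : ‖I * t‖ = |t| := by simp
  rcases le_total |t| 1 with h | h
  · have := Complex.norm_exp_sub_one_sub_id_le (x := I * t) (by rwa [e])
    rw [e, sq_abs] at this
    nlinarith [sq_nonneg t]
  · have h1 := Real.norm_exp_I_mul_ofReal_sub_one_le (x := t)
    have h2 := norm_sub_le (cexp (I * t) - 1) (I * t)
    rw [Real.norm_eq_abs] at h1
    rw [e] at h2
    nlinarith [sq_abs t]

theorem abs_dot_le (ξ : Fq d) (y : Eu d) : |dot ξ y| ≤ d * (‖ξ‖ * ‖y‖) := by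
  refine (Finset.abs_sum_le_sum_abs _ _).trans ?_
  refine (Finset.sum_le_card_nsmul _ _ (‖ξ‖ * ‖y‖) fun i _ => ?_).trans (by simp)
  rw [abs_mul]
  exact mul_le_mul (norm_le_pi_norm ξ i) (PiLp.norm_apply_le y i) (abs_nonneg _) (norm_nonneg _)

theorem fn_sum {ι : Type*} (s : Finset ι) (F : ι → XW d k) :
    fn (∑ i ∈ s, F i) =ᵐ[volume] fun ξ => ∑ i ∈ s, fn (F i) ξ := by
  classical
  induction s using Finset.induction_on with
  | empty => simpa using fn_zero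
  | insert a s ha ih =>
    simp only [Finset.sum_insert ha]
    filter_upwards [fn_add (F a) (∑ i ∈ s, F i), ih] with ξ h1 h2
    rw [h1, h2]

theorem transl_zero (F : XW d k) : transl 0 F = F := by
  refine ext_ae ?_
  filter_upwards [fn_transl 0 F] with ξ h
  simp [h, dot]

variable {m : ℕ} (B : Bg d m)

theorem norm_transl_sub (k : ℕ) (y : Eu d) :
    ‖transl y (B.Qh k) - B.Qh k - ∑ i, (y i : ℂ) • B.Xh k i‖ ≤
      2 * d ^ 2 * (∫ ξ, ‖(wt (k + 2) ξ : ℂ) * B.Q ξ‖) * ‖y‖ ^ 2 := by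
  have hX : ∀ᵐ ξ, ∀ i, fn ((y i : ℂ) • B.Xh k i) ξ = y i * (I * ξ i * B.Q ξ) := by
    refine ae_all_iff.mpr fun i => ?_
    filter_upwards [fn_smul (y i : ℂ) (B.Xh k i), fn_mk _ (B.momX i k)] with ξ h1 h2
    rw [h1]; exact congrArg _ h2
  rw [norm_eq, nrmX, mul_right_comm, ← integral_const_mul]
  refine integral_mono_of_nonneg (ae_of_all _ fun ξ => by unfold wt; positivity)
    ((B.momQ (k + 2)).norm.const_mul _) ?_
  filter_upwards [fn_sub (transl y (B.Qh k) - B.Qh k) (∑ i, (y i : ℂ) • B.Xh k i),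
    fn_sub (transl y (B.Qh k)) (B.Qh k), fn_transl y (B.Qh k), fn_mk _ (B.momQ k),
    fn_sum Finset.univ fun i => (y i : ℂ) • B.Xh k i, hX] with ξ h1 h2 h3 h4 h5 h6
  have h4' : fn (B.Qh k) ξ = B.Q ξ := h4
  have e : ∑ i, (y i : ℂ) * (I * ξ i * B.Q ξ) = I * dot ξ y * B.Q ξ := by
    simp only [dot, ofReal_sum, ofReal_mul, Finset.mul_sum, Finset.sum_mul]
    exact Finset.sum_congr rfl fun i _ => by ring
  rw [h1, h2, h3, h4', h5, Finset.sum_congr rfl fun i _ => h6 i, e,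
    show cexp (I * dot ξ y) * B.Q ξ - B.Q ξ - I * dot ξ y * B.Q ξ =
      (cexp (I * dot ξ y) - 1 - I * dot ξ y) * B.Q ξ by ring, norm_mul, norm_mul,
    Complex.norm_real, Real.norm_of_nonneg (by unfold wt; positivity)]
  have b1 : dot ξ y ^ 2 ≤ (d * ((1 + ‖ξ‖) * ‖y‖)) ^ 2 := by
    rw [← sq_abs]
    gcongr
    refine (abs_dot_le ξ y).trans ?_
    gcongr; linarith
  have b2 := (norm_exp_sub_le (dot ξ y)).trans (mul_le_mul_of_nonneg_left b1 zero_le_two)
  calc _ ≤ wt k ξ * (2 * (d * ((1 + ‖ξ‖) * ‖y‖)) ^ 2 * ‖B.Q ξ‖) := by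
        gcongr; unfold wt; positivity
    _ = _ := by unfold wt; ring

/-- the translation modes as a linear map -/
noncomputable def XL (k : ℕ) : Eu d →L[ℝ] XW d k :=
  ∑ i, (EuclideanSpace.proj i : Eu d →L[ℝ] ℝ).smulRight (B.Xh k i)

theorem XL_apply (k : ℕ) (y : Eu d) : XL B k y = ∑ i, (y i : ℂ) • B.Xh k i := by
  simp [XL]

theorem hasFDerivAt_transl (k : ℕ) :
    HasFDerivAt (fun y : Eu d => transl y (B.Qh k)) (XL B k) 0 := by
  rw [hasFDerivAt_iff_isLittleO]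
  simp only [sub_zero, transl_zero, XL_apply]
  refine Asymptotics.IsBigO.trans_isLittleO (g := fun y : Eu d => ‖y‖ ^ 2)
    (Asymptotics.IsBigO.of_bound (2 * d ^ 2 * ∫ ξ, ‖(wt (k + 2) ξ : ℂ) * B.Q ξ‖)
      (Eventually.of_forall fun y => ?_))
    (Asymptotics.isLittleO_norm_pow_id one_lt_two)
  rw [Real.norm_of_nonneg (sq_nonneg _)]
  exact norm_transl_sub B k y

end XBg

open XBg

namespace Bg

variable {m : ℕ} (B : Bg d m)

theorem ev_Qh (k : ℕ) : ev (B.Qh k) = evf B.Q := ev_mk _ _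

theorem ev_Sh (k : ℕ) (y : Eu d) : ev (B.Sh k) y = (‖evf B.Q y‖ : ℂ) ^ 2 := by
  rw [Sh, ev_conv, ev_st, ev_Qh, Complex.mul_conj']

theorem ev_V1h (hm : 1 ≤ m) (k : ℕ) (y : Eu d) : ev (B.V1h k) y = pot1 m (evf B.Q y) := by
  obtain ⟨n, rfl⟩ := Nat.exists_eq_add_of_le' hm
  rw [V1h, ev_smul, ev_cpow, ev_Sh, pot1, Nat.add_sub_cancel]; ring

theorem ev_V2h (k : ℕ) (y : Eu d) : ev (B.V2h k) y = pot2 m (evf B.Q y) := by
  rw [V2h, ev_smul, ev_cpow, ev_Sh, ev_conv, ev_Qh, pot2, pow_mul]; ring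

theorem ev_Nh (k : ℕ) (y : Eu d) :
    ev (B.Nh k) y = (‖evf B.Q y‖ : ℂ) ^ (2 * m) * evf B.Q y := by
  rw [Nh, ev_cpow, ev_Sh, ev_Qh, pow_mul]

theorem nrmX_zero_V (hm : 1 ≤ m) (k : ℕ) : nrmX 0 (B.V1h k) + nrmX 0 (B.V2h k) ≤ B.K0 := by
  obtain ⟨n, rfl⟩ := Nat.exists_eq_add_of_le' hm
  have hQ : nrmX 0 (B.Qh k) = ∫ ξ, ‖B.Q ξ‖ := by
    refine integral_congr_ae ?_
    filter_upwards [fn_mk _ (B.momQ k)] with ξ h
    have h' : fn (B.Qh k) ξ = B.Q ξ := h
    simp [wt, h']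
  set N := ∫ ξ, ‖B.Q ξ‖ with hN
  have hN0 : 0 ≤ N := integral_nonneg fun _ => norm_nonneg _
  have hS : nrmX 0 (B.Sh k) ≤ N ^ 2 := by
    have := nrmX_conv_le (Nat.zero_le k) (B.Qh k) (st (B.Qh k))
    rwa [nrmX_st, hQ, ← pow_two] at this
  have hC : nrmX 0 (conv (B.Qh k) (B.Qh k)) ≤ N ^ 2 := by
    have := nrmX_conv_le (Nat.zero_le k) (B.Qh k) (B.Qh k)
    rwa [hQ, ← pow_two] at this
  have hS0 := nrmX_nonneg 0 (B.Sh k)
  have key : ∀ F : XW d k, nrmX 0 F ≤ N ^ 2 →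
      nrmX 0 (cpow (B.Sh k) n F) ≤ N ^ (2 * (n + 1)) := fun F hF => by
    refine (nrmX_cpow _ _ _).trans ?_
    rw [pow_mul, pow_succ]
    have := nrmX_nonneg 0 F
    gcongr
  have e1 : ‖((n + 1 : ℕ) : ℂ) + 1‖ = ((n + 1 : ℕ) : ℝ) + 1 := by
    rw [← Nat.cast_succ, Complex.norm_natCast, Nat.cast_succ]
  rw [V1h, V2h, nrmX_smul, nrmX_smul, Nat.add_sub_cancel, K0, ← hN, e1, Complex.norm_natCast]
  have h1 := mul_le_mul_of_nonneg_left (key _ hS) (by positivity : (0 : ℝ) ≤ (n + 1 : ℕ) + 1)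
  have h2 := mul_le_mul_of_nonneg_left (key _ hC) (Nat.cast_nonneg (n + 1))
  linarith

theorem incl_Qh (k : ℕ) : incl (B.Qh (k + 1)) = B.Qh k := incl_mk _ _ _

theorem incl_Sh (k : ℕ) : incl (B.Sh (k + 1)) = B.Sh k := by
  rw [Sh, incl_conv, incl_st, incl_Qh, Sh]

theorem incl_V1h (k : ℕ) : incl (B.V1h (k + 1)) = B.V1h k := by
  rw [V1h, map_smul, incl_cpow, incl_Sh, V1h]

theorem incl_V2h (k : ℕ) : incl (B.V2h (k + 1)) = B.V2h k := by
  rw [V2h, map_smul, incl_cpow, incl_Sh, incl_conv, incl_Qh, V2h]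

theorem incl_Nh (k : ℕ) : incl (B.Nh (k + 1)) = B.Nh k := by
  rw [Nh, incl_cpow, incl_Sh, incl_Qh, Nh]

theorem incl_Bop (k : ℕ) (F : XW d (k + 1)) : incl (B.Bop (k + 1) F) = B.Bop k (incl F) := by
  rw [Bop, map_smul, map_add, incl_conv, incl_conv, incl_st, incl_V1h, incl_V2h, Bop]

theorem IsMild.incl {τ : ℝ} {Z : ℝ → XW d (k + 1)} (h : B.IsMild (k + 1) τ Z) :
    B.IsMild k τ fun s => XW.incl (Z s) := fun s hs => by
  have := ((XW.incl : XW d (k + 1) →L[ℂ] XW d k).restrictScalars ℝ).hasFDerivAt.comp_hasDerivWithinAt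
    s (h s hs)
  rw [← incl_T, ← incl_Bop, ← incl_T]
  exact this

/-- The profile is stationary in the interaction picture. -/
theorem hasDerivAt_T_Qh (hk : 2 ≤ k) (s : ℝ) :
    HasDerivAt (fun t => T B.Λ 1 (-t) (B.Qh k)) (T B.Λ 1 (-s) ((-I) • B.Nh k)) s := by
  have h := hasDerivAt_T hk B.Λ 1 (B.Qh k) (I • B.Nh k) (fun y => by
    rw [evL_eq hk, ev_smul, ev_Nh, ev_Qh, ← B.eqQ, ofReal_one, mul_one]) (-s)
  have := h.scomp s (hasDerivAt_neg s)
  rw [neg_smul, map_neg, ← neg_one_smul ℝ]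
  exact this

/-- Modulation: the symmetry group absorbs a small combination of the modes to first order. -/
theorem modulation (hk : 2 ≤ k) (η : ℝ) (hη : 0 < η) : ∃ δ : ℝ, 0 < δ ∧ ∀ (θ μ : ℝ) (y : Eu d),
    |θ| + |μ| + ‖y‖ ≤ δ →
      ‖cexp (-I * θ) • transl (-y) (T B.Λ 0 μ (B.Qh k + B.mode k θ μ y)) - B.Qh k‖
        ≤ η * (|θ| + |μ| + ‖y‖) := by
  let π₁ : ℝ × ℝ × Eu d →L[ℝ] ℝ := ContinuousLinearMap.fst ℝ _ _
  let π₂ : ℝ × ℝ × Eu d →L[ℝ] ℝ := (ContinuousLinearMap.fst ℝ _ _).comp (ContinuousLinearMap.snd ℝ _ _)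
  let π₃ : ℝ × ℝ × Eu d →L[ℝ] Eu d :=
    (ContinuousLinearMap.snd ℝ _ _).comp (ContinuousLinearMap.snd ℝ _ _)
  let M : ℝ × ℝ × Eu d →L[ℝ] XW d k :=
    π₁.smulRight (I • B.Qh k) + π₂.smulRight (B.DQh k) + (XL B k).comp π₃
  have hM : ∀ p, M p = B.mode k p.1 p.2.1 p.2.2 := fun p => by
    simp [M, π₁, π₂, π₃, mode, XL_apply]
  have g0 : HasFDerivAt (fun p => B.Qh k + M p) M 0 := M.hasFDerivAt.const_add _
  have hT := hasDerivAt_T hk B.Λ 0 (B.Qh k) (-B.DQh k) (fun y => by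
    rw [evL_eq hk, ev_neg, ev_Qh, DQh, ev_mk, B.eqDQ]; simp; ring) 0
  rw [T_zero] at hT
  have g1 := fderiv_strong (fun p : ℝ × ℝ × Eu d => (T B.Λ 0 p.2.1 : XW d k →L[ℂ] _).restrictScalars ℝ)
    (C := Real.exp (|B.Λ.re| + k)) (by
      have : ∀ᶠ p : ℝ × ℝ × Eu d in 𝓝 0, |p.2.1| ≤ 1 :=
        ((continuous_snd.fst.abs).tendsto 0).eventually (ge_mem_nhds (by simp))
      filter_upwards [this] with p hp
      rw [ContinuousLinearMap.norm_restrictScalars]
      refine (norm_T_le _ _ _).trans (Real.exp_le_exp.mpr (mul_le_of_le_one_right (by positivity) hp)))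
    (fun x => (continuous_T B.Λ 0 x).comp continuous_snd.fst) (fun x => T_zero _ _ x) g0
    (a' := π₂.smulRight (-B.DQh k)) (by
      simp only [map_zero, add_zero]
      exact hT.hasFDerivAt.comp (0 : ℝ × ℝ × Eu d) π₂.hasFDerivAt)
  have g2 := fderiv_strong
    (fun p : ℝ × ℝ × Eu d => (transl (-p.2.2) : XW d k →L[ℂ] _).restrictScalars ℝ) (C := 1)
    (Eventually.of_forall fun p => ContinuousLinearMap.opNorm_le_bound _ zero_le_one fun x => by
      simp [norm_transl])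
    (fun x => (continuous_transl x).comp continuous_snd.snd.neg)
    (fun x => by simp [transl_zero]) g1 (a' := (XL B k).comp (-π₃)) (by
      simp only [map_zero, add_zero, Prod.snd_zero, Prod.fst_zero,
        ContinuousLinearMap.coe_restrictScalars', T_zero]
      have h0 : (-π₃) (0 : ℝ × ℝ × Eu d) = 0 := map_zero _
      exact (h0 ▸ hasFDerivAt_transl B k).comp (0 : ℝ × ℝ × Eu d) (-π₃).hasFDerivAt)
  have hE : HasDerivAt (fun t : ℝ => cexp (-I * t)) (-I) 0 := by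
    simpa using ((hasDerivAt_id (0 : ℝ)).ofReal_comp.const_mul (-I)).cexp
  have g3 := (hE.hasFDerivAt.comp (0 : ℝ × ℝ × Eu d) π₁.hasFDerivAt).smul g2
  have g4 : HasFDerivAt (fun p : ℝ × ℝ × Eu d => cexp (-I * p.1) • transl (-p.2.2)
      (T B.Λ 0 p.2.1 (B.Qh k + B.mode k p.1 p.2.1 p.2.2))) (0 : ℝ × ℝ × Eu d →L[ℝ] XW d k) 0 := by
    simp only [← hM]
    refine g3.congr_fderiv (ContinuousLinearMap.ext fun p => ?_)
    simp [M, π₁, T_zero, transl_zero]
    rw [mul_smul, Complex.coe_smul]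
    abel
  have g5 := (Asymptotics.isLittleO_iff.mp (hasFDerivAt_iff_isLittleO.mp g4)) hη
  obtain ⟨δ, hδ, hb⟩ := Metric.eventually_nhds_iff.mp g5
  refine ⟨δ / 2, by linarith, fun θ μ y h => ?_⟩
  have hn : ‖((θ, μ, y) : ℝ × ℝ × Eu d)‖ ≤ |θ| + |μ| + ‖y‖ := by
    have := abs_nonneg θ
    have := abs_nonneg μ
    have := norm_nonneg y
    simp only [Prod.norm_def, Real.norm_eq_abs, max_le_iff]
    refine ⟨by linarith, by linarith, by linarith⟩
  have := hb (y := (θ, μ, y)) (by rw [dist_zero_right]; linarith)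
  rw [← hM 0, map_zero] at this
  simp only [add_zero, Prod.snd_zero, Prod.fst_zero, T_zero, neg_zero, transl_zero,
    ofReal_zero, mul_zero, Complex.exp_zero, one_smul, sub_zero, zero_apply] at this
  exact this.trans (mul_le_mul_of_nonneg_left hn hη.le)

end Bg

end Vale.Agent.P139Z
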