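import Vale.Agent.P139Z.Spec.Tools

/-!
Block SPEC: abstract decay of a quasi-compact semigroup modulo a finite-dimensional invariant
subspace that contains all generalized modes in the closed right half-plane.
-/

open Set Filter Topology

namespace Vale.Agent.P139Z

theorem spec_decay {X : Type*} [NormedAddCommGroup X] [NormedSpace ℂ X] [CompleteSpace X]
    (S : ℝ → X →L[ℂ] X) (hS0 : ∀ x, S 0 x = x)
    (hSadd : ∀ s t, 0 ≤ s → 0 ≤ t → ∀ x, S (s + t) x = S s (S t x))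
    (hSc : ∀ x, ContinuousOn (fun s => S s x) (Ici 0))
    (E : Submodule ℂ X) [FiniteDimensional ℂ E] (hE : ∀ s, 0 ≤ s → ∀ x ∈ E, S s x ∈ E)
    (τ θ C : ℝ) (hτ : 0 < τ) (hθ : θ < 1) (n : ℕ) (l : Fin n → X →L[ℂ] ℂ)
    (hQC : ∀ x, ‖S τ x‖ ≤ θ * ‖x‖ + C * ∑ i, ‖l i x‖)
    (hMS : ∀ (x : X) (lam : ℂ), 0 ≤ lam.re →
      (∀ s : ℝ, 0 ≤ s → S s x - Complex.exp (lam * s) • x ∈ E) → x ∈ E)
    (η : ℝ) (hη : 0 < η) (τ₀ : ℝ) :
    ∃ t : ℝ, τ₀ ≤ t ∧ 0 < t ∧ ∀ x, ∃ e ∈ E, ‖S t x - e‖ ≤ η * ‖x‖ := by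
  obtain ⟨P, hP⟩ : E.ClosedComplemented := Submodule.ClosedComplemented.of_finiteDimensional E
  set Q : X →L[ℂ] X := ContinuousLinearMap.id ℂ X - E.subtypeL.comp P with hQdef
  have hQ : ∀ x, Q x = x - (P x : X) := fun x => rfl
  have hQE : ∀ x ∈ E, Q x = 0 := by
    intro x hx
    rw [hQ, hP ⟨x, hx⟩, sub_self]
  have hQS : ∀ s, 0 ≤ s → ∀ x, Q (S s (Q x)) = Q (S s x) := by
    intro s hs x
    rw [hQ x, map_sub, map_sub, hQE _ (hE s hs _ (P x).2), sub_zero]
  have hQQ : ∀ x, Q (Q x) = Q x := by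
    intro x
    have := hQS 0 le_rfl x
    rwa [hS0, hS0] at this
  set A : X →L[ℂ] X := Q.comp (S τ) with hAdef
  have hA : ∀ x, A x = Q (S τ x) := fun x => rfl
  have hApow : ∀ m : ℕ, ∀ x, (A ^ (m + 1)) x = Q (S (((m + 1 : ℕ) : ℝ) * τ) x) := by
    intro m
    induction m with
    | zero => intro x; simp [hA]
    | succ m ih =>
      intro x
      rw [pow_succ' A (m + 1), mul_apply_eq_comp, ih, hA, hQS τ hτ.le,
        ← hSadd τ _ hτ.le (by positivity)]
      have : τ + ((m + 1 : ℕ) : ℝ) * τ = ((m + 1 + 1 : ℕ) : ℝ) * τ := by push_cast; ring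
      rw [this]
  -- the spectral radius of `A` is below one
  have hrad : spectralRadius ℂ A < 1 := by
    by_contra hcon
    push Not at hcon
    rcases subsingleton_or_nontrivial (X →L[ℂ] X) with hs | hs
    · rw [Subsingleton.elim A 0, spectrum.spectralRadius_zero] at hcon
      exact absurd hcon (by simp)
    obtain ⟨z, hz, hzn⟩ := spectrum.exists_nnnorm_eq_spectralRadius A
    have hz1 : 1 ≤ ‖z‖ := by
      rw [← hzn] at hcon
      exact_mod_cast hcon
    have hz0 : z ≠ 0 := norm_pos_iff.1 (by linarith)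
    set B : X →L[ℂ] X := A - z • ContinuousLinearMap.id ℂ X with hBdef
    have hB : ∀ x, B x = A x - z • x := fun x => rfl
    set Ψ : X →L[ℂ] (E × (Fin n → ℂ)) :=
      (P.comp (S τ)).prod (ContinuousLinearMap.pi l) with hΨdef
    have hΨ1 : ∀ x, ‖(P (S τ x) : X)‖ ≤ ‖Ψ x‖ := fun x => norm_fst_le (Ψ x)
    have hΨ2 : ∀ x i, ‖l i x‖ ≤ ‖Ψ x‖ := fun x i =>
      (norm_le_pi_norm (Ψ x).2 i).trans (norm_snd_le (Ψ x))
    have hlow : ∀ x, (‖z‖ - θ) * ‖x‖ ≤ ‖B x‖ + (1 + |C| * n) * ‖Ψ x‖ := by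
      intro x
      have e1 : z • x = S τ x - (P (S τ x) : X) - B x := by
        rw [hB, hA, hQ]; abel
      have e2 : ‖z‖ * ‖x‖ ≤ ‖S τ x‖ + ‖(P (S τ x) : X)‖ + ‖B x‖ := by
        rw [← norm_smul, e1]
        exact (norm_sub_le _ _).trans (add_le_add (norm_sub_le _ _) le_rfl)
      have e3 : ∑ i, ‖l i x‖ ≤ n * ‖Ψ x‖ := by
        calc ∑ i, ‖l i x‖ ≤ ∑ _i : Fin n, ‖Ψ x‖ := Finset.sum_le_sum fun i _ => hΨ2 x i
          _ = n * ‖Ψ x‖ := by simp
      have e4 : C * ∑ i, ‖l i x‖ ≤ |C| * (n * ‖Ψ x‖) :=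
        (mul_le_mul_of_nonneg_right (le_abs_self C)
          (Finset.sum_nonneg fun i _ => norm_nonneg _)).trans
          (mul_le_mul_of_nonneg_left e3 (abs_nonneg C))
      have e5 := hQC x
      have e6 := hΨ1 x
      nlinarith
    have hc : 0 < ‖z‖ - θ := by linarith
    obtain ⟨x₀, hx₀, hBx₀⟩ := Spec.exists_null B Ψ _ _ hc hlow
      (fun ε hε => Spec.not_bddBelow A z hz hz0 hzn ε hε)
    set W : Submodule ℂ X := LinearMap.ker (B : X →ₗ[ℂ] X) with hWdef
    have hW : ∀ x, x ∈ W ↔ A x = z • x := by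
      intro x
      rw [hWdef, LinearMap.mem_ker, ContinuousLinearMap.coe_coe, hB, sub_eq_zero]
    have hWfin : FiniteDimensional ℂ W := by
      refine FiniteDimensional.of_injective ((Ψ : X →ₗ[ℂ] (E × (Fin n → ℂ))).comp W.subtype) ?_
      rw [injective_iff_map_eq_zero]
      intro x hx
      have e1 : Ψ (x : X) = 0 := hx
      have e2 : B (x : X) = 0 := x.2
      have e3 := hlow x
      rw [e1, e2, norm_zero, norm_zero, mul_zero, add_zero] at e3
      have e4 : ‖(x : X)‖ ≤ 0 := by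
        by_contra h
        push Not at h
        nlinarith
      exact Subtype.ext (norm_le_zero_iff.1 e4)
    have hW0 : W ≠ ⊥ := (Submodule.ne_bot_iff W).2 ⟨x₀, hBx₀, hx₀⟩
    have hQW : ∀ x ∈ W, Q x = x := by
      intro x hx
      have e1 := (hW x).1 hx
      have e2 : Q (A x) = A x := hQQ _
      rw [e1, map_smul] at e2
      exact smul_right_injective X hz0 e2
    set f : Ici (0 : ℝ) → X →ₗ[ℂ] X := fun s => (Q.comp (S s) : X →L[ℂ] X) with hfdef
    have hf : ∀ s x, f s x = Q (S s x) := fun s x => rfl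
    have hcomm : ∀ s t : ℝ, 0 ≤ s → 0 ≤ t → ∀ x, Q (S s (Q (S t x))) = Q (S t (Q (S s x))) := by
      intro s t hs ht x
      rw [hQS s hs, hQS t ht, ← hSadd s t hs ht, ← hSadd t s ht hs, add_comm]
    obtain ⟨x, hxW, hx0, hx⟩ := Spec.common_eigen f W hW0
      (fun s x hx => by
        rw [hW] at hx ⊢
        rw [hf, hA, hcomm τ s hτ.le s.2, ← hA, hx, map_smul, map_smul])
      (fun s t x _ => hcomm s t s.2 t.2 x)
    choose c hc' using hx
    set d : ℝ → ℂ := fun s => c ⟨max s 0, mem_Ici.2 (le_max_right _ _)⟩ with hddef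
    have hd : ∀ s, 0 ≤ s → Q (S s x) = d s • x := by
      intro s hs
      have := hc' ⟨max s 0, mem_Ici.2 (le_max_right _ _)⟩
      rw [hf] at this
      have e1 : S (max s 0) = S s := by rw [max_eq_left hs]
      rw [← e1]
      exact this
    obtain ⟨φ, -, hφ⟩ := exists_dual_vector ℂ x (norm_ne_zero_iff.2 hx0)
    have hxn : ((‖x‖ : ℝ) : ℂ) ≠ 0 := by exact_mod_cast norm_ne_zero_iff.2 hx0
    have hdc : ContinuousOn d (Ici 0) := by
      have e1 : ContinuousOn (fun s => φ (Q (S s x)) / ((‖x‖ : ℝ) : ℂ)) (Ici 0) :=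
        ((φ.continuous.comp Q.continuous).comp_continuousOn (hSc x)).div_const _
      refine e1.congr fun s hs => ?_
      simp only
      rw [hd s hs, map_smul, hφ, smul_eq_mul]
      exact (mul_div_cancel_right₀ _ hxn).symm
    have hd0 : d 0 = 1 := by
      have e1 := hd 0 le_rfl
      rw [hS0, hQW x hxW] at e1
      refine smul_left_injective ℂ hx0 ?_
      simp only
      rw [← e1, one_smul]
    have hdadd : ∀ s t, 0 ≤ s → 0 ≤ t → d (s + t) = d s * d t := by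
      intro s t hs ht
      refine smul_left_injective ℂ hx0 ?_
      simp only
      rw [← hd _ (add_nonneg hs ht), hSadd s t hs ht, ← hQS s hs, hd t ht, map_smul, map_smul,
        hd s hs, smul_smul, mul_comm]
    obtain ⟨lam, hlam⟩ := Spec.exists_exp d hdc hd0 hdadd
    have hdτ : d τ = z := by
      refine smul_left_injective ℂ hx0 ?_
      simp only
      rw [← hd τ hτ.le, ← hA, (hW x).1 hxW]
    have hre : 0 ≤ lam.re := by
      rw [← hdτ, hlam τ hτ.le, Complex.norm_exp, Real.one_le_exp_iff] at hz1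
      simp only [Complex.mul_re, Complex.ofReal_re, Complex.ofReal_im, mul_zero, sub_zero] at hz1
      exact nonneg_of_mul_nonneg_left hz1 hτ
    have hxE : x ∈ E := by
      refine hMS x lam hre fun s hs => ?_
      rw [← hlam s hs, ← hd s hs, hQ, sub_sub_cancel]
      exact (P _).2
    exact hx0 ((hQW x hxW).symm.trans (hQE x hxE))
  have h1 := Spec.pow_small A hrad η hη
  have h2 : ∀ᶠ m : ℕ in atTop, τ₀ / τ ≤ m := tendsto_natCast_atTop_atTop.eventually_ge_atTop _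
  obtain ⟨N, hN⟩ := eventually_atTop.1 (h1.and h2)
  obtain ⟨h3, h4⟩ := hN (N + 1) (Nat.le_succ N)
  refine ⟨((N + 1 : ℕ) : ℝ) * τ, (div_le_iff₀ hτ).1 h4, by positivity, fun x => ?_⟩
  refine ⟨P (S (((N + 1 : ℕ) : ℝ) * τ) x), (P _).2, ?_⟩
  rw [← hQ, ← hApow]
  exact ((A ^ (N + 1)).le_opNorm x).trans (mul_le_mul_of_nonneg_right h3 (norm_nonneg x))

end Vale.Agent.P139Z
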