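import Vale.Agent.P139Z.QC
import Vale.Agent.P139Z.Spec
import Vale.Agent.P139Z.Lin.A

/-!
Block LIN: linear decay modulo the symmetry modes.
-/

open Set Filter Topology MeasureTheory Complex
open scoped NNReal ENNReal ComplexConjugate ContDiff

namespace Vale.Agent.P139Z

variable {d k : ℕ}

open XW

namespace Lin

variable {m : ℕ} {B : Bg d m}

variable (d k) in
/-- The pair of physical-space functions. -/
noncomputable def ev2 : XW d k × XW d k →ₗ[ℂ] (Eu d → ℂ × ℂ) where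
  toFun x y := (ev x.1 y, ev x.2 y)
  map_add' a b := by funext y; simp only [Prod.fst_add, Prod.snd_add, ev_add]; rfl
  map_smul' t a := by funext y; simp only [Prod.smul_fst, Prod.smul_snd, ev_smul]; rfl

theorem ev2_apply (x : XW d k × XW d k) (y : Eu d) : ev2 d k x y = (ev x.1 y, ev x.2 y) := rfl

theorem deriv_ev2 (hm : 1 ≤ m) (hk : 2 ≤ k) {S} (hS : IsSemi B.Λ (B.V1h k) (B.V2h k) S)
    (x : XW d k × XW d k) (y : Eu d) :
    HasDerivWithinAt (fun s => ev2 d k (S s x) y)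
      (linF m B.Λ (evf B.Q) (ev x.1) (ev x.2) y, linG m B.Λ (evf B.Q) (ev x.1) (ev x.2) y)
      (Ioi 0) 0 := by
  have h := hS.deriv x 0
  rw [neg_zero, T2_zero, hS.zero] at h
  have h1 := hasDerivWithinAt_ev_T hk B.Λ 1 (S := Ioi 0)
    ((ContinuousLinearMap.fst ℝ _ _).hasFDerivAt.comp_hasDerivAt (0 : ℝ) h).hasDerivWithinAt y
  have h2 := hasDerivWithinAt_ev_T hk (conj B.Λ) (-1) (S := Ioi 0)
    ((ContinuousLinearMap.snd ℝ _ _).hasFDerivAt.comp_hasDerivAt (0 : ℝ) h).hasDerivWithinAt y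
  simp only [Function.comp_apply, ContinuousLinearMap.coe_fst', ContinuousLinearMap.coe_snd',
    T2_apply, T_add, add_neg_cancel, neg_zero, T_zero, hS.zero] at h1 h2
  refine (h1.prodMk h2).congr_deriv (Prod.ext ?_ ?_)
  · simp only [evL_eq hk, B2_apply, ev_smul, ev_add, ev_conv, B.ev_V1h hm, B.ev_V2h, linF]
    push_cast
    ring
  · simp only [evL_eq hk, B2_apply, ev_smul, ev_add, ev_conv, ev_st, B.ev_V1h hm, B.ev_V2h, linG]
    push_cast
    ring

theorem mode_stab (hm : 1 ≤ m) {K : ℕ} (h : B.PMS K) (hK : K ≤ k) (hk : 2 ≤ k) {S}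
    (hS : IsSemi B.Λ (B.V1h k) (B.V2h k) S) (x : XW d k × XW d k) (lam : ℂ) (hl : 0 ≤ lam.re)
    (hx : ∀ s : ℝ, 0 ≤ s → S s x - cexp (lam * s) • x ∈ LinearMap.range (Phi k B)) :
    x ∈ LinearMap.range (Phi k B) := by
  set E' := LinearMap.range ((ev2 d k).comp (Phi k B)) with hE'
  have hcl : IsClosed (E' : Set (Eu d → ℂ × ℂ)) := E'.closed_of_finiteDimensional
  set g : ℝ → Eu d → ℂ × ℂ := fun s => ev2 d k (S s x - cexp (lam * s) • x) with hg
  set L : Eu d → ℂ × ℂ := fun y =>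
    (linF m B.Λ (evf B.Q) (ev x.1) (ev x.2) y, linG m B.Λ (evf B.Q) (ev x.1) (ev x.2) y) -
      lam • ev2 d k x y with hL
  have hg0 : g 0 = 0 := by simp [hg, hS.zero]
  have hd : ∀ y, HasDerivWithinAt (fun s => g s y) (L y) (Ioi 0) 0 := by
    intro y
    have h1 : HasDerivAt (fun s : ℝ => cexp (lam * s)) lam 0 := by
      have := ((hasDerivAt_id ((0 : ℝ) : ℂ)).const_mul lam).cexp.comp_ofReal
      simpa using this
    have h2 := (deriv_ev2 hm hk hS x y).sub (h1.smul_const (ev2 d k x y)).hasDerivWithinAt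
    refine h2.congr (fun s _ => ?_) ?_
    · simp only [hg, map_sub, map_smul, Pi.sub_apply, Pi.smul_apply]
    · simp only [hg, map_sub, map_smul, Pi.sub_apply, Pi.smul_apply]
  have ht : Tendsto (fun s : ℝ => ((s⁻¹ : ℝ) : ℂ) • g s) (𝓝[>] 0) (𝓝 L) := by
    rw [tendsto_pi_nhds]
    intro y
    have h1 := (hasDerivWithinAt_iff_tendsto_slope' (notMem_Ioi.2 le_rfl)).1 (hd y)
    refine h1.congr fun s => ?_
    rw [slope_def_module, hg0, sub_zero, Pi.zero_apply, sub_zero, Pi.smul_apply, coe_smul]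
  have hmem : L ∈ E' := hcl.mem_of_tendsto ht (by
    filter_upwards [self_mem_nhdsWithin] with s hs
    obtain ⟨c, hc⟩ := hx s (le_of_lt hs)
    exact E'.smul_mem _ ⟨c, by rw [LinearMap.comp_apply, hc]⟩)
  obtain ⟨c, hc⟩ := hmem
  obtain ⟨a₀, a₁, a, ha⟩ := h lam hl (ev x.1) (ev x.2)
    ((contDiff_ev _).of_le (by exact_mod_cast hK)) ((contDiff_ev _).of_le (by exact_mod_cast hK))
    ⟨((d : ℝ) + 1) ^ K * ‖x‖, fun j hj y => by
      have e1 : ((d : ℝ) + 1) ^ j ≤ ((d : ℝ) + 1) ^ K :=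
        pow_le_pow_right₀ (by linarith [Nat.cast_nonneg (α := ℝ) d]) hj
      exact ⟨(norm_iteratedFDeriv_ev_le _ (hj.trans hK) y).trans
          (mul_le_mul e1 (norm_fst_le x) (norm_nonneg _) (by positivity)),
        (norm_iteratedFDeriv_ev_le _ (hj.trans hK) y).trans
          (mul_le_mul e1 (norm_snd_le x) (norm_nonneg _) (by positivity))⟩⟩
    c.1 c.2.1 c.2.2 (fun y => by
      have e := congrFun hc y
      rw [LinearMap.comp_apply, ev2_apply, ev_Phi_fst, ev_Phi_snd, hL] at e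
      simp only [ev2_apply, Prod.smul_mk, Prod.mk_sub_mk, smul_eq_mul, Prod.mk.injEq] at e
      exact ⟨by rw [e.1]; ring, by rw [e.2]; ring⟩)
  exact ⟨(a₀, a₁, a), Prod.ext (ev_injective fun y => by rw [ev_Phi_fst, (ha y).1])
    (ev_injective fun y => by rw [ev_Phi_snd, (ha y).2])⟩

variable (B k) in
/-- Real combinations of the symmetry modes. -/
noncomputable def Psi : (ℝ × ℝ × Eu d) →ₗ[ℝ] XW d k where
  toFun c := B.mode k c.1 c.2.1 c.2.2
  map_add' a b := by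
    simp only [Bg.mode, Prod.fst_add, Prod.snd_add, PiLp.add_apply, ofReal_add, add_smul,
      Finset.sum_add_distrib]
    abel
  map_smul' t a := by
    simp only [Bg.mode, Prod.smul_fst, Prod.smul_snd, PiLp.smul_apply, smul_eq_mul, coe_smul,
      mul_smul, smul_add, Finset.smul_sum, RingHom.id_apply]

theorem exists_coef_bound : ∃ C : ℝ, 0 ≤ C ∧ ∀ (θ μ : ℝ) (y : Eu d), ∃ (θ' μ' : ℝ) (y' : Eu d),
    B.mode k θ' μ' y' = B.mode k θ μ y ∧ |θ'| + |μ'| + ‖y'‖ ≤ C * ‖B.mode k θ μ y‖ := by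
  obtain ⟨g, hg⟩ := (Psi k B).rangeRestrict.exists_rightInverse_of_surjective
    (Psi k B).range_rangeRestrict
  refine ⟨3 * ‖LinearMap.toContinuousLinearMap g‖, by positivity, fun θ μ y => ?_⟩
  set v : LinearMap.range (Psi k B) := ⟨Psi k B (θ, μ, y), ⟨_, rfl⟩⟩ with hv
  have h1 : Psi k B (g v) = Psi k B (θ, μ, y) := congrArg Subtype.val (LinearMap.congr_fun hg v)
  have h2 : ‖g v‖ ≤ ‖LinearMap.toContinuousLinearMap g‖ * ‖B.mode k θ μ y‖ :=
    (LinearMap.toContinuousLinearMap g).le_opNorm v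
  refine ⟨(g v).1, (g v).2.1, (g v).2.2, h1, ?_⟩
  have h3 : |(g v).1| ≤ ‖g v‖ := norm_fst_le (g v)
  have h4 : |(g v).2.1| ≤ ‖g v‖ := (norm_fst_le (g v).2).trans (norm_snd_le (g v))
  have h5 : ‖(g v).2.2‖ ≤ ‖g v‖ := (norm_snd_le (g v).2).trans (norm_snd_le (g v))
  linarith

theorem Phi_avg (c : ℂ × ℂ × (Fin d → ℂ)) : (Phi k B c).1 + st (Phi k B c).2 =
    (2 : ℂ) • B.mode k c.1.re c.2.1.re (WithLp.toLp 2 fun i => (c.2.2 i).re) := by
  have e : ∀ (z : ℂ) (W : XW d k), (2 : ℂ) • (z.re : ℂ) • W = z • W + conj z • W := by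
    intro z W
    rw [← add_smul, add_conj, smul_smul]
    push_cast
    rfl
  simp only [Phi_fst, Phi_snd, map_add, map_sum, st_smul _ (st _), st_st, Bg.mode, smul_add,
    Finset.smul_sum, e, Finset.sum_add_distrib]
  abel

end Lin

namespace Bg

variable {m : ℕ} (B : Bg d m)

open Lin in
/-- Block SEMI, part 3: linear decay modulo the symmetry modes. -/
theorem lin_of_pms (hm : 1 ≤ m) {K : ℕ} (h : B.PMS K) {k : ℕ} (hK : K ≤ k)
    (hk : 8 * B.K0 + 8 ≤ k) : B.LIN k := by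
  intro η hη τ₀
  have hK0 : 0 ≤ B.K0 := mul_nonneg (by positivity) (Even.pow_nonneg (even_two_mul m) _)
  have hk2 : 2 ≤ k := by
    have : (2 : ℝ) ≤ k := by linarith
    exact_mod_cast this
  have hΛ : 0 < B.Λ.re := by
    rw [B.Λ_re]
    have : (0 : ℝ) < m := by exact_mod_cast hm
    positivity
  obtain ⟨S, hS⟩ := exists_isSemi B.Λ (B.V1h k) (B.V2h k)
  obtain ⟨τ, θ, C, n, l, hτ, hθ, hQC⟩ := hS.quasiCompact hΛ
    (by linarith [B.nrmX_zero_V hm k])
  obtain ⟨t, ht0, ht, hdec⟩ := spec_decay S hS.zero (fun s t _ _ x => hS.add s t x)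
    (fun x => (hS.cont x).continuousOn) (LinearMap.range (Phi k B))
    (fun s hs x hx => semi_Phi hm hk2 hS hs hx) τ θ C hτ hθ n l hQC
    (mode_stab hm h hK hk2 hS) η hη τ₀
  obtain ⟨C1, hC1, hb⟩ := exists_coef_bound (k := k) (B := B)
  refine ⟨t, ht0, ht, C1 * (‖S t‖ + η), fun Z hZ => ?_⟩
  obtain ⟨e, ⟨c, rfl⟩, he⟩ := hdec (emb (Z 0))
  have h0 := (S t).le_opNorm (emb (Z 0))
  rw [mild_eq hm hS hZ ⟨ht.le, le_rfl⟩, norm_emb] at he h0
  rw [norm_emb] at h0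
  set W := T B.Λ 1 t (Z t) with hW
  have h1 : ‖W - (Phi k B c).1‖ ≤ η * ‖Z 0‖ := (norm_fst_le (emb W - Phi k B c)).trans he
  have h2 : ‖W - st (Phi k B c).2‖ ≤ η * ‖Z 0‖ := by
    rw [← norm_st, map_sub, st_st]
    exact (norm_snd_le (emb W - Phi k B c)).trans he
  obtain ⟨θ', μ', y', e1, e2⟩ := hb c.1.re c.2.1.re (WithLp.toLp 2 fun i => (c.2.2 i).re)
  set M := B.mode k c.1.re c.2.1.re (WithLp.toLp 2 fun i => (c.2.2 i).re) with hM
  have h3 : ‖W - M‖ ≤ η * ‖Z 0‖ := by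
    have e3 : (2 : ℂ) • (W - M) = (W - (Phi k B c).1) + (W - st (Phi k B c).2) := by
      rw [smul_sub, hM, ← Phi_avg, two_smul]
      abel
    have e4 := (norm_add_le _ _).trans (add_le_add h1 h2)
    rw [← e3, norm_smul, Complex.norm_two] at e4
    linarith
  refine ⟨θ', μ', y', e2.trans ?_, by rw [e1]; exact h3⟩
  have h4 : ‖M‖ ≤ ‖W‖ + ‖W - M‖ := by
    simpa using norm_sub_le W (W - M)
  rw [mul_assoc]
  gcongr
  linarith

end Bg

end Vale.Agent.P139Z
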