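import Vale.Agent.P139Z.Alg
import Vale.Agent.P139Z.Loc.Num

/-! Simplicity of the symmetry eigenvalues, and no other eigenvalue nearby. -/

open Set Filter Topology MeasureTheory Complex
open scoped NNReal ENNReal ComplexConjugate ContDiff

namespace Vale.Agent.P139Z

namespace Loc

open NumP Alg

theorem near {lam : ℂ} {c : ℝ} (h : ‖lam - c‖ ≤ 1 / 8) :
    c - 1 / 8 ≤ lam.re ∧ lam.re ≤ c + 1 / 8 ∧ -(1 / 8) ≤ lam.im ∧ lam.im ≤ 1 / 8 := by
  have h1 := abs_le.1 ((Complex.abs_re_le_norm _).trans h)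
  have h2 := abs_le.1 ((Complex.abs_im_le_norm _).trans h)
  simp only [sub_re, sub_im, ofReal_re, ofReal_im, sub_zero] at h1 h2
  exact ⟨by linarith [h1.1], by linarith [h1.2], h2.1, h2.2⟩

theorem mem0 {β : ℝ} (hβ : InB β) {z : ℂ} {x : ℤ} (h1 : z.re = sr x) (h2 : z.im = -β) :
    Bl.Mem ⟨x, -334780000000, 50000000⟩ z := by
  refine (norm_le_abs_re_add_abs_im _).trans ?_
  obtain ⟨b0, b1⟩ := hβ
  simp only [sub_re, sub_im, sc, h1, h2, sub_self, abs_zero, zero_add]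
  rw [abs_le]
  simp only [sr, S]
  constructor <;> norm_num <;> linarith

theorem bb6 : bb 6 = 5 / 2 := by norm_num [bb]

theorem bb7 : bb 7 = 3 := by norm_num [bb]

theorem mode0 {β Z : ℝ} (hβ : InB β) (hZ : InZ Z) {A₀ A : ℂ} {Pu Yu Pk Yk D : ℕ → ℂ}
    (hW : WLev A₀ A 6 Z Pu Yu Pk Yk D) (g0 : A₀.re = 0) (g1 : A₀.im = -β) (h0 : 0 ≤ A.re)
    (h1 : A.re ≤ 1 / 8) (h2 : -(1 / 8) - β ≤ A.im) (h3 : A.im ≤ 1 / 8 - β) :
    ∃ δ τ : ℂ, 0 < δ.re ∧ D 0 = δ * Yk 0 * Yu 0 ∧ Pk 0 = τ * Yk 0 := by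
  have ⟨b0, b1⟩ := hβ
  obtain ⟨a, ha, hc⟩ := grid_sound num0 (z := aa A 6 0) (by norm_num) (by norm_num)
    (by rw [aa_re, bb6]; simp only [sr, S]; norm_num; linarith)
    (by rw [aa_re, bb6]; simp only [sr, S]; norm_num; linarith)
    (by rw [aa_im]; simp only [sr, S]; norm_num; linarith)
    (by rw [aa_im]; simp only [sr, S]; norm_num; linarith)
  obtain ⟨δ, τ, e1, e2⟩ := chk0_sound hW hZ ha
    (mem0 hβ (by rw [aa_re, bb6, g0]; simp only [sr, S]; norm_num) (by rw [aa_im, g1])) h0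
    (by linarith) (abs_le.2 ⟨by linarith, by linarith⟩) (by linarith) (by linarith)
    (abs_le.2 ⟨by linarith, by linarith⟩) (Or.inl rfl) hc
  exact ⟨δ, τ, by simpa using e1, e2⟩

theorem mode1 {β Z : ℝ} (hβ : InB β) (hZ : InZ Z) {A₀ A : ℂ} {Pu Yu Pk Yk D : ℕ → ℂ}
    (hW : WLev A₀ A 6 Z Pu Yu Pk Yk D) (g0 : A₀.re = 1) (g1 : A₀.im = -β) (h0 : 1 - 1 / 8 ≤ A.re)
    (h1 : A.re ≤ 1 + 1 / 8) (h2 : -(1 / 8) - β ≤ A.im) (h3 : A.im ≤ 1 / 8 - β) :
    ∃ δ τ : ℂ, δ.re < 0 ∧ D 0 = δ * Yk 0 * Yu 0 ∧ Pk 0 = τ * Yk 0 := by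
  have ⟨b0, b1⟩ := hβ
  obtain ⟨a, ha, hc⟩ := grid_sound num1 (z := aa A 6 0) (by norm_num) (by norm_num)
    (by rw [aa_re, bb6]; simp only [sr, S]; norm_num; linarith)
    (by rw [aa_re, bb6]; simp only [sr, S]; norm_num; linarith)
    (by rw [aa_im]; simp only [sr, S]; norm_num; linarith)
    (by rw [aa_im]; simp only [sr, S]; norm_num; linarith)
  obtain ⟨δ, τ, e1, e2⟩ := chk0_sound hW hZ ha
    (mem0 hβ (by rw [aa_re, bb6, g0]; simp only [sr, S]; norm_num) (by rw [aa_im, g1]))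
    (by linarith) (by linarith) (abs_le.2 ⟨by linarith, by linarith⟩) (by linarith) (by linarith)
    (abs_le.2 ⟨by linarith, by linarith⟩) (Or.inr rfl) hc
  exact ⟨δ, τ, by simpa using e1, e2⟩

theorem mode2 {β Z : ℝ} (hβ : InB β) (hZ : InZ Z) {A₀ A : ℂ} {Pu Yu Pk Yk D : ℕ → ℂ}
    (hW : WLev A₀ A 7 Z Pu Yu Pk Yk D) (g0 : A₀.re = 1) (g1 : A₀.im = -β) (h0 : 1 - 1 / 8 ≤ A.re)
    (h1 : A.re ≤ 1 + 1 / 8) (h2 : -(1 / 8) - β ≤ A.im) (h3 : A.im ≤ 1 / 8 - β) (hY : Yu 0 = 0) :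
    ∃ δ η : ℂ, 0 < δ.re ∧ D 0 = δ * Pk 0 * Pu 0 ∧ Yk 0 = η * Pk 0 := by
  have ⟨b0, b1⟩ := hβ
  have y0 : sr (-459830000000) ≤ (aa A 7 0).im := by
    rw [aa_im]; simp only [sr, S]; norm_num; linarith
  have y1 : (aa A 7 0).im ≤ sr (-459830000000 + 2 * ((8 : ℕ) + 1) * 13900000000) := by
    rw [aa_im]; simp only [sr, S]; norm_num; linarith
  have key : ∃ a : Bl, a.Mem (aa A 7 0) ∧
      chk1 ⟨-2000000000000, -334780000000, 50000000⟩ a = true := by
    rcases le_total A.re 0.9584 with c1 | c1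
    · exact grid_sound num2a (by norm_num) (by norm_num)
        (by rw [aa_re, bb7]; simp only [sr, S]; norm_num; linarith)
        (by rw [aa_re, bb7]; simp only [sr, S]; norm_num; linarith) y0 y1
    rcases le_total A.re 1.0418 with c2 | c2
    · exact grid_sound num2b (by norm_num) (by norm_num)
        (by rw [aa_re, bb7]; simp only [sr, S]; norm_num; linarith)
        (by rw [aa_re, bb7]; simp only [sr, S]; norm_num; linarith) y0 y1
    · exact grid_sound num2c (by norm_num) (by norm_num)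
        (by rw [aa_re, bb7]; simp only [sr, S]; norm_num; linarith)
        (by rw [aa_re, bb7]; simp only [sr, S]; norm_num; linarith) y0 y1
  obtain ⟨a, ha, hc⟩ := key
  exact chk1_sound hW hZ ha
    (mem0 hβ (by rw [aa_re, bb7, g0]; simp only [sr, S]; norm_num) (by rw [aa_im, g1]))
    (by linarith) (by linarith) (abs_le.2 ⟨by linarith, by linarith⟩) (by linarith) (by linarith)
    (abs_le.2 ⟨by linarith, by linarith⟩) hY hc

theorem fin0 {δ δ' τ y y' u p d d' : ℂ} (hne : δ.re + δ'.re ≠ 0) (hu : u ≠ 0) (hu' : conj u = -u)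
    (e : d = δ * y * u) (e' : d' = δ' * y' * u) (ep : p = τ * y) (b₁ : y + conj y' = 0)
    (b₃ : d + conj d' = 0) : p = 0 ∧ y = 0 := by
  have h1 : conj y' = -y := by linear_combination b₁
  rw [e, e', map_mul, map_mul, h1, hu'] at b₃
  have h2 : (δ + conj δ') * (y * u) = 0 := by linear_combination b₃
  have h3 : δ + conj δ' ≠ 0 := fun h => hne (by simpa using congrArg Complex.re h)
  have h4 : y = 0 := by simpa [h3, hu] using h2
  exact ⟨by rw [ep, h4, mul_zero], h4⟩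

end Loc

theorem loc {β Z : ℝ} (hβ : InB β) (hZ : InZ Z) {l : ℕ} {lam₀ P₀ Y₀ : ℂ}
    (hm : ModeData β Z l lam₀ P₀ Y₀) {lam : ℂ} (h0 : 0 ≤ lam.re) (h1 : ‖lam - lam₀‖ ≤ 1 / 8)
    {Pu Yu Pk Yk D Pk' Yk' D' : ℕ → ℂ}
    (h : WLev (l / 2 + lam₀ - I * β) (l / 2 + lam - I * β) (6 + l) Z Pu Yu Pk Yk D)
    (h' : WLev (l / 2 + lam₀ - I * β) (l / 2 + conj lam - I * β) (6 + l) Z Pu Yu Pk' Yk' D')
    (hP : Pu 0 = P₀) (hY : Yu 0 = Y₀) (b₁ : Yk 0 + conj (Yk' 0) = 0)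
    (b₂ : Pk 0 - conj (Pk' 0) = 0) (b₃ : D 0 + conj (D' 0) = 0) : Pk 0 = 0 ∧ Yk 0 = 0 := by
  have hβ0 : (β : ℂ) ≠ 0 := by
    have : 0 < β := by linarith [hβ.1]
    exact_mod_cast this.ne'
  rcases hm with ⟨rfl, rfl, rfl, rfl⟩ | ⟨rfl, rfl, rfl, rfl⟩ | ⟨rfl, rfl, rfl, rfl⟩
  · obtain ⟨n0, n1, n2, n3⟩ := Loc.near (c := 0) (by simpa using h1)
    obtain ⟨δ, τ, e1, e2, e3⟩ := Loc.mode0 hβ hZ h (by simp) (by simp) (by simpa using h0)
      (by simp; linarith) (by simp; linarith) (by simp; linarith)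
    obtain ⟨δ', τ', f1, f2, -⟩ := Loc.mode0 hβ hZ h' (by simp) (by simp) (by simpa using h0)
      (by simp; linarith) (by simp; linarith) (by simp; linarith)
    exact Loc.fin0 (by linarith) (by rw [hY]; exact I_ne_zero) (by rw [hY, conj_I]) e2 f2 e3 b₁ b₃
  · obtain ⟨n0, n1, n2, n3⟩ := Loc.near (c := 1) (by simpa using h1)
    obtain ⟨δ, τ, e1, e2, e3⟩ := Loc.mode1 hβ hZ h (by simp) (by simp) (by simp; linarith)
      (by simp; linarith) (by simp; linarith) (by simp; linarith)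
    obtain ⟨δ', τ', f1, f2, -⟩ := Loc.mode1 hβ hZ h' (by simp) (by simp) (by simp; linarith)
      (by simp; linarith) (by simp; linarith) (by simp; linarith)
    exact Loc.fin0 (by linarith) (by rw [hY]; simp [hβ0]) (by rw [hY]; simp) e2 f2 e3 b₁ b₃
  · obtain ⟨n0, n1, n2, n3⟩ := Loc.near (c := 1 / 2) (by simpa using h1)
    obtain ⟨δ, η, e1, e2, e3⟩ := Loc.mode2 hβ hZ h (by simp; norm_num) (by simp)
      (by simp; linarith) (by simp; linarith) (by simp; linarith) (by simp; linarith) hY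
    obtain ⟨δ', η', f1, f2, -⟩ := Loc.mode2 hβ hZ h' (by simp; norm_num) (by simp)
      (by simp; linarith) (by simp; linarith) (by simp; linarith) (by simp; linarith) hY
    have g1 : conj (Pk' 0) = Pk 0 := by linear_combination -b₂
    have g2 : conj (Pu 0) = Pu 0 := by rw [hP]; simp [map_ofNat]
    rw [e2, f2, map_mul, map_mul, g1, g2] at b₃
    have g3 : (δ + conj δ') * (Pk 0 * Pu 0) = 0 := by linear_combination b₃
    have g4 : δ + conj δ' ≠ 0 := fun h => by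
      have := congrArg Complex.re h
      simp at this
      linarith
    have g5 : Pu 0 ≠ 0 := by rw [hP]; simp [hβ0]
    have g6 : Pk 0 = 0 := by simpa [g4, g5] using g3
    exact ⟨g6, by rw [e3, g6, mul_zero]⟩

end Vale.Agent.P139Z
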