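import Vale.Agent.P139Z.Alg
import Vale.Agent.P139Z.AlgL
import Vale.Agent.P139Z.AlgW
import Vale.Agent.P139Z.Num.Claims

/-! No eigenvalue of the limit problem away from the symmetry modes. -/

open Set Filter Topology MeasureTheory Complex
open scoped NNReal ENNReal ComplexConjugate ContDiff

namespace Vale.Agent.P139Z

namespace NoEig

/-- The scaled symmetric momentum. -/
noncomputable def qq (l : ℕ) (Z : ℝ) (P Y : ℕ → ℂ) (n : ℕ) : ℂ :=
  4294967296 * (P n + (((l : ℂ) + 5) / 2 + I * Z / 2) * Y n)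

theorem ch {β Z : ℝ} (hZ : 0 < Z) {l : ℕ} {lam : ℂ} (h0 : 0 ≤ lam.re) {P Y : ℕ → ℂ}
    (h : Lev (l / 2 + lam - I * β) (6 + l) Z P Y) {ν om : ℝ}
    (hν : ν = 4294967296 * lam.re - 10737418240)
    (hom : om = 4294967296 * lam.im - 4294967296 * (β + Z / 2)) :
    Num.Ch ν om ((l + 5) * 2147483648) (4294967296 * Z) Y (qq l Z P Y) := by
  have hA : ((l : ℂ) / 2 + lam - I * β).re = l / 2 + lam.re := by simp
  have e : lam = lam.re + I * lam.im := by rw [mul_comm]; exact (re_add_im lam).symm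
  refine ⟨fun j => ?_, fun j => ?_, fun j hj => ?_, fun j hj => ?_⟩
  · rw [h.recY, qq, hν, hom]
    push_cast
    linear_combination 4294967296 * Y j * e
  · rw [qq, qq, h.recY, h.recP, hν, hom]
    generalize lam.re = a at e ⊢
    generalize lam.im = b at e ⊢
    subst e
    push_cast
    linear_combination (-(4294967296 ^ 2 * Z ^ 2 / 4 * Y j)) * I_sq
  · have hj' : (4 : ℝ) ≤ j := by exact_mod_cast hj
    have x := h.X_nonpos (by omega) hZ j (by rw [hA]; push_cast; linarith)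
    rw [Complex.sq_norm, normSq_apply] at x
    simp [qq] at x ⊢
    linarith
  · have hj' : (4 : ℝ) ≤ j := by exact_mod_cast hj
    have x := h.flux_nonneg j (by rw [hA]; push_cast; linarith)
    rw [flux, Complex.sq_norm, normSq_apply] at x
    simp [qq] at x ⊢
    linarith

end NoEig

theorem noEig_num {β Z : ℝ} (hβ : InB β) (hZ : InZ Z) {l : ℕ} (hl : l ≤ 54) {lam : ℂ}
    (h0 : 0 ≤ lam.re) (h1 : lam.re ≤ 5 / 2) (h2 : 0 ≤ lam.im) (h3 : lam.im ≤ 400)
    (hl0 : l = 0 → 1 / 8 ≤ ‖lam‖ ∧ 1 / 8 ≤ ‖lam - 1‖) (hl1 : l = 1 → 1 / 8 ≤ ‖lam - 1 / 2‖) :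
    NoEigAt β Z l lam := by
  intro P Y P' Y' k k' hY hP
  obtain ⟨b0, b1⟩ := hβ
  obtain ⟨z0, z1⟩ := hZ
  have hZ0 : 0 < Z := by linarith
  have c := NoEig.ch hZ0 h0 k rfl rfl
  have c' := NoEig.ch (lam := conj lam) hZ0 h0 k' (ν := 4294967296 * lam.re - 10737418240)
    (om := -(4294967296 * lam.im) - 4294967296 * (β + Z / 2)) rfl (by rw [conj_im]; ring)
  have eY : Y' 0 = -conj (Y 0) := by
    have := congrArg conj hY
    rw [map_add, Complex.conj_conj, map_zero] at this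
    linear_combination this
  have eP : P' 0 = conj (P 0) := by
    have := congrArg conj hP
    rw [map_sub, Complex.conj_conj, map_zero] at this
    linear_combination -this
  have eq : NoEig.qq l Z P' Y' 0 = conj (NoEig.qq l Z P Y 0)
      - 2 * (((l + 5) * 2147483648 : ℝ) : ℂ) * conj (Y 0) := by
    rw [NoEig.qq, NoEig.qq, eY, eP]
    simp only [map_mul, map_add, map_div₀, map_ofNat, map_natCast, conj_I, conj_ofReal]
    push_cast
    ring
  have fin : Y 0 = 0 ∧ NoEig.qq l Z P Y 0 = 0 → P 0 = 0 ∧ Y 0 = 0 := fun ⟨a, b⟩ => by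
    rw [NoEig.qq, a] at b
    exact ⟨by simpa using b, a⟩
  have two : ((conj (Y 0) * NoEig.qq l Z P Y 0).re < (l + 5) * 2147483648 * ‖Y 0‖ ^ 2 ∨
        (Y 0 = 0 ∧ NoEig.qq l Z P Y 0 = 0)) →
      ((conj (Y' 0) * NoEig.qq l Z P' Y' 0).re < (l + 5) * 2147483648 * ‖Y' 0‖ ^ 2 ∨
        (Y' 0 = 0 ∧ NoEig.qq l Z P' Y' 0 = 0)) → P 0 = 0 ∧ Y 0 = 0 := by
    rintro (a | a) (b | ⟨b, b'⟩)
    · exfalso
      rw [eq, eY, norm_neg, Complex.norm_conj] at b
      rw [Complex.sq_norm, normSq_apply] at a b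
      generalize NoEig.qq l Z P Y 0 = q at a b
      simp at a b
      linarith
    · have y0 : Y 0 = 0 := by rw [b] at hY; simpa using hY
      rw [y0] at a
      simp at a
    · exact fin a
    · exact fin a
  have w0 : (11617027542 : ℝ) ≤ 4294967296 * Z := by linarith
  have w1 : 4294967296 * Z ≤ (11619604523 : ℝ) := by linarith
  rcases le_or_gt 3 l with l3 | l3
  · exact two (Num.claimS_big l3 hl (by linarith) (by linarith) (by linarith) (by linarith) w0 w1 c)
      (Num.claimS_big l3 hl (by linarith) (by linarith) (by linarith) (by linarith) w0 w1 c')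
  rcases le_total 3 lam.im with i3 | i3
  · exact two (Num.claimS_small (by omega) (by linarith) (by linarith)
        (Or.inl ⟨by linarith, by linarith⟩) w0 w1 c)
      (Num.claimS_small (by omega) (by linarith) (by linarith)
        (Or.inr ⟨by linarith, by linarith⟩) w0 w1 c')
  have sq : ∀ z : ℂ, 1 / 8 ≤ ‖z‖ → (1 / 8 : ℝ) ^ 2 ≤ z.re ^ 2 + z.im ^ 2 := fun z hz => by
    have := pow_le_pow_left₀ (by norm_num) hz 2
    rw [Complex.sq_norm, normSq_apply] at this
    linarith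
  refine fin (Num.claimJ (by omega) (by linarith) (by linarith) (by linarith) (by linarith)
    (by linarith) (by linarith) w0 w1 c c' eY eq (fun a => ?_) (fun a => ?_))
  · have s1 := sq _ (hl0 a).1
    have s2 := sq _ (hl0 a).2
    simp only [sub_re, one_re, sub_im, one_im, sub_zero] at s2
    constructor <;> linarith
  · have s1 := sq _ (hl1 a)
    have e1 : (lam - 1 / 2).re = lam.re - 1 / 2 := by simp
    have e2 : (lam - 1 / 2).im = lam.im := by simp
    rw [e1, e2] at s1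
    linarith

theorem noEig {β Z : ℝ} (hβ : InB β) (hZ : InZ Z) (l : ℕ) {lam : ℂ} (h0 : 0 ≤ lam.re)
    (hl0 : l = 0 → 1 / 8 ≤ ‖lam‖ ∧ 1 / 8 ≤ ‖lam - 1‖) (hl1 : l = 1 → 1 / 8 ≤ ‖lam - 1 / 2‖) :
    NoEigAt β Z l lam := by
  have hZ0 : 0 < Z := by linarith [hZ.1]
  rcases le_total (5 / 2) lam.re with a | a
  · exact noEig_large_re β hZ0 l a
  rcases le_or_gt 55 l with b | b
  · exact noEig_large_l hZ b h0
  have key : ∀ {z : ℂ}, 0 ≤ z.re → z.re ≤ 5 / 2 → 0 ≤ z.im →
      (l = 0 → 1 / 8 ≤ ‖z‖ ∧ 1 / 8 ≤ ‖z - 1‖) → (l = 1 → 1 / 8 ≤ ‖z - 1 / 2‖) →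
      NoEigAt β Z l z := fun {z} c0 c1 c2 c3 c4 => (le_total z.im 400).elim
    (fun c => noEig_num hβ hZ (by omega) c0 c1 c2 c c3 c4)
    (fun c => noEig_large_im hβ hZ (by omega) c0 c1 c)
  rcases le_total 0 lam.im with c | c
  · exact key h0 a c hl0 hl1
  have e1 : ‖conj lam - 1‖ = ‖lam - 1‖ := by rw [← Complex.norm_conj]; simp
  have e2 : ‖conj lam - 1 / 2‖ = ‖lam - 1 / 2‖ := by
    rw [← Complex.norm_conj, map_sub, Complex.conj_conj, map_div₀, map_one, map_ofNat]
  have := (key (z := conj lam) h0 a (by rw [conj_im]; linarith)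
    (by rw [Complex.norm_conj, e1]; exact hl0) (by rw [e2]; exact hl1)).conj
  rwa [Complex.conj_conj] at this

end Vale.Agent.P139Z
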