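import Vale.Agent.P139Z.Free
import Vale.Agent.P139Z.Levels
import Vale.Agent.P139Z.NoEig
import Vale.Agent.P139Z.Loc

/-! Mode stability of the limit problem. -/

open Set Filter Topology MeasureTheory Complex
open scoped NNReal ENNReal ComplexConjugate ContDiff

namespace Vale.Agent.P139Z

namespace Lms

theorem cda {M : ℝ} {F : ℝ → ℂ} (h : Symb M F) {ρ : ℝ} (hρ : 0 < ρ) (n : ℕ) :
    ContDiffAt ℝ n F ρ :=
  (h.smooth.contDiffAt (Ioi_mem_nhds hρ)).of_le (by exact_mod_cast le_top)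

theorem cdo {M : ℝ} {F : ℝ → ℂ} (h : Symb M F) : ContDiffOn ℝ 2 F (Ioi 0) :=
  fun _ hρ => (cda h hρ 2).contDiffWithinAt

theorem dif {M : ℝ} {F : ℝ → ℂ} (h : Symb M F) {ρ : ℝ} (hρ : 0 < ρ) : DifferentiableAt ℝ F ρ :=
  (cda h hρ 1).differentiableAt (by norm_num)

theorem Mop_shift (A A₀ : ℂ) (B : ℕ) (F : ℝ → ℂ) (ρ : ℝ) :
    Mop A B F ρ = Mop A₀ B F ρ + I * (A - A₀) * F ρ := by
  unfold Mop; ring

/-- a symmetry mode -/
structure Mode (β Z : ℝ) (l : ℕ) (lam₀ : ℂ) (W : ℝ → ℂ) : Prop where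
  symb : Symb 7 W
  ode : ∀ ρ : ℝ, 0 < ρ → Mop (l / 2 + lam₀ - I * β) (6 + l) W ρ = 0
  data : ModeData β Z l lam₀ (4 * Z * deriv W (4 * Z)) (W (4 * Z))

/-- a solution of the limit problem with sources -/
structure Sol (β Z : ℝ) (l : ℕ) (lam : ℂ) (F H S S' : ℝ → ℂ) : Prop where
  sF : Symb 7 F
  sH : Symb 7 H
  eF : ∀ ρ : ℝ, 0 < ρ → Mop (l / 2 + lam - I * β) (6 + l) F ρ = -I * S ρ
  eH : ∀ ρ : ℝ, 0 < ρ → Mop (l / 2 + conj lam - I * β) (6 + l) H ρ = -I * S' ρ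
  b₁ : F (4 * Z) + conj (H (4 * Z)) = 0
  b₂ : deriv F (4 * Z) - conj (deriv H (4 * Z)) = 0

variable {β Z : ℝ} {l : ℕ} {lam lam₀ : ℂ} {W F H S S' : ℝ → ℂ}

theorem Mode.facts (h : Mode β Z l lam₀ W) (hβ : β ≠ 0) (hZ : 0 < Z) :
    l ≤ 1 ∧ 0 ≤ lam₀.re ∧ conj lam₀ = lam₀ ∧ conj (W (4 * Z)) = -W (4 * Z) ∧
      conj (deriv W (4 * Z)) = deriv W (4 * Z) ∧ (W (4 * Z) ≠ 0 ∨ deriv W (4 * Z) ≠ 0) := by
  have hZ' : (4 * Z : ℂ) ≠ 0 := by exact_mod_cast (by positivity : 4 * Z ≠ 0)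
  have hβ' : (β : ℂ) ≠ 0 := by exact_mod_cast hβ
  have key : ∀ t : ℝ, 4 * Z * deriv W (4 * Z) = t → conj (deriv W (4 * Z)) = deriv W (4 * Z) := by
    intro t ht
    have h1 := congrArg conj ht
    simp only [map_mul, conj_ofReal, map_ofNat] at h1
    exact mul_left_cancel₀ hZ' (h1.trans ht.symm)
  rcases h.data with ⟨h1, h2, h3, h4⟩ | ⟨h1, h2, h3, h4⟩ | ⟨h1, h2, h3, h4⟩
  · exact ⟨by omega, by simp [h2], by simp [h2], by simp [h4], key 0 (by simpa using h3),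
      Or.inl (by rw [h4]; exact I_ne_zero)⟩
  · exact ⟨by omega, by simp [h2], by simp [h2], by simp [h4],
      key (-(Z * β)) (by simpa using h3),
      Or.inl (by rw [h4]; exact mul_ne_zero (neg_ne_zero.2 I_ne_zero) hβ')⟩
  · refine ⟨by omega, by simp [h2], by simp [h2, map_ofNat], by simp [h4],
      key (-(β / 2)) (by simpa using h3), Or.inr fun h0 => ?_⟩
    rw [h0, mul_zero] at h3
    exact hβ' (by linear_combination 2 * h3)

theorem Mode.ode' (h : Mode β Z l lam₀ W) (lam a : ℂ) {ρ : ℝ} (hρ : 0 < ρ) :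
    Mop (l / 2 + lam - I * β) (6 + l) (fun x => a * W x) ρ = I * (lam - lam₀) * a * W ρ := by
  rw [Mop_const_mul, Mop_shift _ (l / 2 + lam₀ - I * β), h.ode ρ hρ]
  ring

theorem Sol.congr (h : Sol β Z l lam F H S S') {T T' : ℝ → ℂ} (e : ∀ ρ, S ρ = T ρ)
    (e' : ∀ ρ, S' ρ = T' ρ) : Sol β Z l lam F H T T' := by
  rw [← funext e, ← funext e']; exact h

theorem Sol.sub_mode (hβ : β ≠ 0) (hZ : 0 < Z) (hW : Mode β Z l lam₀ W) (hne : lam ≠ lam₀) {c : ℂ}
    (h : Sol β Z l lam F H (fun ρ => S ρ + c * W ρ) (fun ρ => S' ρ + conj c * W ρ)) :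
    ∃ a : ℂ, Sol β Z l lam (fun ρ => F ρ - a * W ρ) (fun ρ => H ρ - conj a * W ρ) S S' := by
  obtain ⟨-, -, f1, f2, f3, -⟩ := hW.facts hβ hZ
  have h4 : 0 < 4 * Z := by positivity
  have hd : lam - lam₀ ≠ 0 := sub_ne_zero.2 hne
  have ha : (lam - lam₀) * (-c / (lam - lam₀)) = -c := by field_simp
  have ha' : (conj lam - lam₀) * conj (-c / (lam - lam₀)) = -conj c := by
    have := congrArg conj ha
    rwa [map_mul, map_sub, f1, map_neg] at this
  refine ⟨-c / (lam - lam₀), h.sF.sub (hW.symb.const_mul _), h.sH.sub (hW.symb.const_mul _),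
    fun ρ hρ => ?_, fun ρ hρ => ?_, ?_, ?_⟩
  · rw [Mop_sub _ _ (cda h.sF hρ 2) (cda (hW.symb.const_mul _) hρ 2), h.eF ρ hρ, hW.ode' _ _ hρ]
    linear_combination (-I * W ρ) * ha
  · rw [Mop_sub _ _ (cda h.sH hρ 2) (cda (hW.symb.const_mul _) hρ 2), h.eH ρ hρ, hW.ode' _ _ hρ]
    linear_combination (-I * W ρ) * ha'
  · simp only [map_sub, map_mul, conj_conj, f2]
    linear_combination h.b₁
  · rw [deriv_fun_sub (dif h.sF h4) (dif (hW.symb.const_mul _) h4),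
      deriv_fun_sub (dif h.sH h4) (dif (hW.symb.const_mul _) h4), deriv_const_mul_field,
      deriv_const_mul_field]
    simp only [map_sub, map_mul, conj_conj, f3]
    linear_combination h.b₂

theorem Sol.zero (hZ : 0 < Z) (hn : NoEigAt β Z l lam)
    (h : Sol β Z l lam F H (fun _ => 0) (fun _ => 0)) (ρ : ℝ) (hρ : 0 < ρ) :
    F ρ = 0 ∧ H ρ = 0 := by
  have h4 : 0 < 4 * Z := by positivity
  have hZ' : (4 * Z : ℂ) ≠ 0 := by exact_mod_cast h4.ne'
  have eF : ∀ ρ : ℝ, 0 < ρ → Mop (l / 2 + lam - I * β) (6 + l) F ρ = 0 := fun ρ hρ => by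
    rw [h.eF ρ hρ, mul_zero]
  have eH : ∀ ρ : ℝ, 0 < ρ → Mop (l / 2 + conj lam - I * β) (6 + l) H ρ = 0 := fun ρ hρ => by
    rw [h.eH ρ hρ, mul_zero]
  obtain ⟨P, Y, hL, hP, hY⟩ := lev_of_symb (by omega) hZ h.sF eF
  obtain ⟨P', Y', hL', hP', hY'⟩ := lev_of_symb (by omega) hZ h.sH eH
  obtain ⟨h1, h2⟩ := hn P Y P' Y' hL hL' (by rw [hY, hY']; exact h.b₁) (by
    rw [hP, hP']
    simp only [map_mul, conj_ofReal, map_ofNat]
    linear_combination (4 * Z : ℂ) * h.b₂)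
  rw [hY] at h2
  rw [hP] at h1
  have h3 : deriv F (4 * Z) = 0 := (mul_eq_zero.1 h1).resolve_left hZ'
  have h5 : H (4 * Z) = 0 := by simpa [h2] using h.b₁
  have h6 : deriv H (4 * Z) = 0 := by simpa [h3] using h.b₂
  have hz : ∀ A : ℂ, ∀ ρ : ℝ, Mop A (6 + l) (fun _ => 0) ρ = 0 := fun A ρ => by simp [Mop]
  exact ⟨free_unique (H := fun _ => 0) (cdo h.sF) contDiffOn_const
      (fun ρ hρ => by rw [eF ρ hρ, hz]) h4 h2 (by simpa using h3) hρ,
    free_unique (H := fun _ => 0) (cdo h.sH) contDiffOn_const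
      (fun ρ hρ => by rw [eH ρ hρ, hz]) h4 h5 (by simpa using h6) hρ⟩

theorem Sol.of_data (hβ : β ≠ 0) (hZ : 0 < Z) (hW : Mode β Z l lam₀ W) {c a : ℂ}
    (h : Sol β Z l lam F H (fun ρ => c * W ρ) (fun ρ => conj c * W ρ))
    (ha : (lam - lam₀) * a = -c) (h₀ : F (4 * Z) = a * W (4 * Z))
    (h₁ : deriv F (4 * Z) = a * deriv W (4 * Z)) (ρ : ℝ) (hρ : 0 < ρ) :
    F ρ = a * W ρ ∧ H ρ = conj a * W ρ := by
  obtain ⟨-, -, f1, f2, f3, -⟩ := hW.facts hβ hZ
  have h4 : 0 < 4 * Z := by positivity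
  have ha' : (conj lam - lam₀) * conj a = -conj c := by
    have := congrArg conj ha
    rwa [map_mul, map_sub, f1, map_neg] at this
  have h2 := congrArg conj h.b₁
  have h3 := congrArg conj h.b₂
  simp only [h₀, h₁, map_add, map_sub, map_mul, conj_conj, map_zero, f2, f3] at h2 h3
  refine ⟨free_unique (A := l / 2 + lam - I * β) (B := 6 + l) (H := fun x => a * W x) (cdo h.sF)
      (cdo (hW.symb.const_mul _)) (fun ρ hρ => ?_) h4 h₀ (by rw [deriv_const_mul_field, h₁]) hρ,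
    free_unique (A := l / 2 + conj lam - I * β) (B := 6 + l) (H := fun x => conj a * W x)
      (cdo h.sH) (cdo (hW.symb.const_mul _)) (fun ρ hρ => ?_) h4 (by linear_combination h2)
      (by rw [deriv_const_mul_field]; linear_combination -h3) hρ⟩
  · rw [h.eF ρ hρ, hW.ode' _ _ hρ]
    linear_combination (-I * W ρ) * ha
  · rw [h.eH ρ hρ, hW.ode' _ _ hρ]
    linear_combination (-I * W ρ) * ha'

theorem Sol.near (hβ : InB β) (hZ : InZ Z) (hW : Mode β Z l lam₀ W) (h0 : 0 ≤ lam.re)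
    (h1 : ‖lam - lam₀‖ ≤ 1 / 8) {c : ℂ}
    (h : Sol β Z l lam F H (fun ρ => c * W ρ) (fun ρ => conj c * W ρ)) :
    ∃ a : ℂ, ∀ ρ : ℝ, 0 < ρ → F ρ = a * W ρ ∧ H ρ = conj a * W ρ := by
  have hβ0 : β ≠ 0 := by have := hβ.1; positivity
  have hZ0 : 0 < Z := by have := hZ.1; positivity
  obtain ⟨fl, f0, f1, f2, f3, f4⟩ := hW.facts hβ0 hZ0
  have h4 : 0 < 4 * Z := by positivity
  have hZ' : (4 * Z : ℂ) ≠ 0 := by exact_mod_cast h4.ne'
  have hre : ∀ t : ℂ, 0 ≤ t.re → 0 ≤ ((l : ℂ) / 2 + t - I * β).re := fun t ht => by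
    simp only [sub_re, add_re, div_ofNat_re, natCast_re, mul_re, I_re, ofReal_re, I_im, ofReal_im]
    have : (0 : ℝ) ≤ l := Nat.cast_nonneg l
    linarith
  obtain ⟨Pu, Yu, Pk, Yk, D, hw, e1, e2, e3, e4, e5⟩ := wlev_of_symb (by omega) (by omega)
    (hre _ f0) (hre _ h0) hZ0 h.sF hW.symb c hW.ode h.eF
  obtain ⟨Pu', Yu', Pk', Yk', D', hw', e1', e2', e3', e4', e5'⟩ := wlev_of_symb (by omega)
    (by omega) (hre _ f0) (hre (conj lam) h0) hZ0 h.sH hW.symb (conj c) hW.ode h.eH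
  obtain ⟨rfl, rfl⟩ := hw.levU.unique hw'.levU (e1.trans e1'.symm) (e2.trans e2'.symm)
  have d1 : (l : ℂ) / 2 + lam - I * β - (l / 2 + lam₀ - I * β) = lam - lam₀ := by ring
  have d2 : (l : ℂ) / 2 + conj lam - I * β - (l / 2 + lam₀ - I * β) = conj lam - lam₀ := by ring
  rw [d1] at e3 e4
  rw [d2] at e3' e4'
  obtain ⟨k1, k2⟩ := loc hβ hZ hW.data h0 h1 hw hw' e1 e2
    (by
      rw [e4, e4']
      simp only [map_add, map_sub, map_mul, conj_conj, f1, f2]
      linear_combination (lam - lam₀) * h.b₁)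
    (by
      rw [e3, e3']
      simp only [map_add, map_sub, map_mul, conj_conj, conj_ofReal, map_ofNat, f1, f3]
      linear_combination (4 * Z : ℂ) * (lam - lam₀) * h.b₂)
    (by
      rw [e5, e5']
      simp only [map_sub, map_mul, conj_ofReal, map_ofNat, f2, f3]
      linear_combination (4 * Z : ℂ) * W (4 * Z) * h.b₂ - (4 * Z : ℂ) * deriv W (4 * Z) * h.b₁)
  rw [e4] at k2
  rw [e3] at k1
  have k3 := (mul_eq_zero.1 k1).resolve_left hZ'
  by_cases hd : lam - lam₀ = 0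
  · rw [hd, zero_mul, add_zero] at k2 k3
    have hc : c = 0 := by
      rcases f4 with f4 | f4
      · exact (mul_eq_zero.1 k2).resolve_right f4
      · exact (mul_eq_zero.1 k3).resolve_right f4
    have hw0 := out_wron (by omega) h.sF hW.symb
      (fun ρ hρ => by rw [← sub_eq_zero.1 hd, h.eF ρ hρ, hc, zero_mul, mul_zero]) hW.ode _ h4
    rcases f4 with f4 | f4
    · exact ⟨F (4 * Z) / W (4 * Z), h.of_data hβ0 hZ0 hW (by rw [hd, hc]; simp)
        (by field_simp) (by field_simp; linear_combination hw0)⟩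
    · exact ⟨deriv F (4 * Z) / deriv W (4 * Z), h.of_data hβ0 hZ0 hW (by rw [hd, hc]; simp)
        (by field_simp; linear_combination -hw0) (by field_simp)⟩
  · exact ⟨-c / (lam - lam₀), h.of_data hβ0 hZ0 hW (by field_simp)
      (by field_simp; linear_combination k2) (by field_simp; linear_combination k3)⟩

variable {U : ℝ → ℂ}

theorem second (h : IsLimProf β Z U) : 16 * Z * deriv (deriv U) (4 * Z) = -β := by
  have hZ0 : 0 < Z := by have := h.inZ.1; positivity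
  have h1 := h.ode (4 * Z) (by positivity)
  rw [Mop, h.val, h.der, iteratedDeriv_succ, iteratedDeriv_one] at h1
  push_cast at h1
  linear_combination h1 + β * I_mul_I

theorem mode0 (h : IsLimProf β Z U) : Mode β Z 0 0 (fun ρ => I * U ρ) where
  symb := (h.symb.const_mul I).mono (by norm_num)
  ode := fun ρ hρ => by
    rw [Mop_const_mul, show ((0 : ℕ) : ℂ) / 2 + 0 - I * β = -I * β by simp, h.ode ρ hρ, mul_zero]
  data := Or.inl ⟨rfl, rfl, by rw [deriv_const_mul_field, h.der]; simp, by rw [h.val, mul_one]⟩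

theorem symb1 (h : IsLimProf β Z U) : Symb 0 (fun ρ => -I * β * U ρ + ρ * deriv U ρ) :=
  (h.symb.const_mul _).add (h.symb.der.id_mul.mono (by norm_num))

theorem deriv_Mop (h : IsLimProf β Z U) {ρ : ℝ} (hρ : 0 < ρ) :
    deriv (Mop (-I * β) 6 U) ρ = 0 := by
  have : Mop (-I * β) 6 U =ᶠ[𝓝 ρ] fun _ => 0 :=
    eventually_of_mem (Ioi_mem_nhds hρ) fun x hx => h.ode x hx
  rw [this.deriv_eq, deriv_const]

theorem mode1 (h : IsLimProf β Z U) : Mode β Z 0 1 (fun ρ => -I * β * U ρ + ρ * deriv U ρ) where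
  symb := (symb1 h).mono (by norm_num)
  ode := fun ρ hρ => by
    rw [show ((0 : ℕ) : ℂ) / 2 + 1 - I * β = -I * β + 1 by simp; ring,
      Mop_level _ _ (cda h.symb hρ 3), h.ode ρ hρ, deriv_Mop h hρ]
    simp
  data := by
    have h4 : 0 < 4 * Z := by have := h.inZ.1; positivity
    refine Or.inr (Or.inl ⟨rfl, rfl, ?_, by rw [h.val, h.der]; simp⟩)
    have h1 := ((dif h.symb h4).hasDerivAt.const_mul (-I * β)).add
      ((ofRealCLM.hasDerivAt (x := 4 * Z)).mul (dif h.symb.der h4).hasDerivAt)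
    have h2 : deriv (fun ρ : ℝ => -I * β * U ρ + ρ * deriv U ρ) (4 * Z) = _ := h1.deriv
    rw [h2, h.der]
    simp only [ofRealCLM_apply]
    push_cast
    linear_combination Z * second h

theorem mode2 (h : IsLimProf β Z U) : Mode β Z 1 (1 / 2) (fun ρ => 2 * deriv U ρ) where
  symb := (h.symb.der.const_mul 2).mono (by norm_num)
  ode := fun ρ hρ => by
    have h1 := iteratedDeriv_Mop (-I * β) 6 1 (cda h.symb hρ _)
    rw [iteratedDeriv_one, iteratedDeriv_one, deriv_Mop h hρ] at h1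
    rw [Mop_const_mul, show ((1 : ℕ) : ℂ) / 2 + 1 / 2 - I * β = -I * β + (1 : ℕ) by simp; ring,
      ← h1, mul_zero]
  data := Or.inr (Or.inr ⟨rfl, rfl, by
    rw [deriv_const_mul_field]; linear_combination (1 / 2 : ℂ) * second h,
    by rw [h.der, mul_zero]⟩)

theorem symb_limF (h : IsLimProf β Z U) (l : ℕ) (c₀ c₁ c₂ : ℂ) :
    Symb (-(l / 2)) (fun ρ => -I * limF β U l c₀ c₁ c₂ ρ) := by
  refine Symb.const_mul ?_ _
  unfold limF
  split_ifs with h0 h1
  · subst h0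
    exact (((h.symb.const_mul I).const_mul c₀).add ((symb1 h).const_mul c₁)).mono (by norm_num)
  · subst h1
    exact ((h.symb.der.const_mul 2).const_mul c₂).mono (by norm_num)
  · exact Symb.zero _

end Lms

open Lms in
theorem limStable_of_isLimProf {β Z : ℝ} {U : ℝ → ℂ} (h : IsLimProf β Z U) : LimStable β Z U := by
  intro l lam h0 F H hF hH c₀ c₁ c₂ eF eH wF wH b₁ b₂
  have hβ0 : β ≠ 0 := by have := h.inB.1; positivity
  have hZ0 : 0 < Z := by have := h.inZ.1; positivity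
  have hl : (0 : ℝ) ≤ l := Nat.cast_nonneg l
  have hre : ∀ t : ℂ, ((l : ℂ) / 2 + t - I * β).re = l / 2 + t.re := fun t => by simp
  have key : ∀ (t : ℂ) (F : ℝ → ℂ) (c₀ c₁ c₂ : ℂ), 0 ≤ t.re → ContDiffOn ℝ ∞ F (Ioi 0) →
      (∀ ρ : ℝ, 0 < ρ → Mop (l / 2 + t - I * β) (6 + l) F ρ = -I * limF β U l c₀ c₁ c₂ ρ) →
      WeakOut (6 + l) F → Symb 7 F := fun t F c₀ c₁ c₂ ht hF e w =>
    symb_of_weakOut (by rw [hre]; push_cast; linarith) (by rw [hre]; linarith) hF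
      (symb_limF h l c₀ c₁ c₂) (by rw [hre]; push_cast; linarith) (by linarith) e w
  have hs : Sol β Z l lam F H (limF β U l c₀ c₁ c₂) (limF β U l (conj c₀) (conj c₁) (conj c₂)) :=
    ⟨key lam F _ _ _ h0 hF eF wF, key (conj lam) H _ _ _ h0 hH eH wH, eF, eH, b₁, b₂⟩
  by_cases l0 : l = 0
  · subst l0
    simp only [limF, if_true]
    by_cases n0 : ‖lam - 0‖ ≤ 1 / 8
    · have hne : lam ≠ 1 := by
        rintro rfl
        norm_num at n0
      obtain ⟨a₁, h1⟩ := Sol.sub_mode hβ0 hZ0 (mode1 h) hne (c := c₁)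
        (S := fun ρ => c₀ * (I * U ρ)) (S' := fun ρ => conj c₀ * (I * U ρ))
        (hs.congr (fun ρ => by simp [limF]) fun ρ => by simp [limF])
      obtain ⟨a₀, h2⟩ := h1.near h.inB h.inZ (mode0 h) h0 n0
      exact ⟨a₀, a₁, 0, fun ρ hρ => ⟨by linear_combination (h2 ρ hρ).1,
        by linear_combination (h2 ρ hρ).2⟩⟩
    · have hne : lam ≠ 0 := by
        rintro rfl
        norm_num at n0
      obtain ⟨a₀, h1⟩ := Sol.sub_mode hβ0 hZ0 (mode0 h) hne (c := c₀)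
        (S := fun ρ => c₁ * (-I * β * U ρ + ρ * deriv U ρ))
        (S' := fun ρ => conj c₁ * (-I * β * U ρ + ρ * deriv U ρ))
        (hs.congr (fun ρ => by simp [limF, add_comm]) fun ρ => by simp [limF, add_comm])
      by_cases n1 : ‖lam - 1‖ ≤ 1 / 8
      · obtain ⟨a₁, h2⟩ := h1.near h.inB h.inZ (mode1 h) h0 n1
        exact ⟨a₀, a₁, 0, fun ρ hρ => ⟨by linear_combination (h2 ρ hρ).1,
          by linear_combination (h2 ρ hρ).2⟩⟩
      · have hne' : lam ≠ 1 := by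
          rintro rfl
          norm_num at n1
        obtain ⟨a₁, h2⟩ := Sol.sub_mode hβ0 hZ0 (mode1 h) hne' (c := c₁) (S := fun _ => 0)
          (S' := fun _ => 0) (h1.congr (fun ρ => by simp) fun ρ => by simp)
        have h3 := h2.zero hZ0 (noEig h.inB h.inZ 0 h0
          (fun _ => ⟨by simpa using (not_le.1 n0).le, (not_le.1 n1).le⟩) (by norm_num))
        exact ⟨a₀, a₁, 0, fun ρ hρ => ⟨by linear_combination (h3 ρ hρ).1,
          by linear_combination (h3 ρ hρ).2⟩⟩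
  by_cases l1 : l = 1
  · subst l1
    simp only [limF, one_ne_zero, if_true, if_false]
    by_cases n2 : ‖lam - 1 / 2‖ ≤ 1 / 8
    · obtain ⟨a, h2⟩ := Sol.near h.inB h.inZ (mode2 h) h0 n2 (c := c₂)
        (hs.congr (fun ρ => by simp [limF]) fun ρ => by simp [limF])
      exact ⟨0, 0, a, h2⟩
    · have hne : lam ≠ 1 / 2 := by
        rintro rfl
        norm_num at n2
      obtain ⟨a, h2⟩ := Sol.sub_mode hβ0 hZ0 (mode2 h) hne (c := c₂) (S := fun _ => 0)
        (S' := fun _ => 0) (hs.congr (fun ρ => by simp [limF]) fun ρ => by simp [limF])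
      have h3 := h2.zero hZ0 (noEig h.inB h.inZ 1 h0 (by norm_num) fun _ => (not_le.1 n2).le)
      exact ⟨0, 0, a, fun ρ hρ => ⟨by linear_combination (h3 ρ hρ).1,
        by linear_combination (h3 ρ hρ).2⟩⟩
  · simp only [limF, l0, l1, if_false]
    exact ⟨0, 0, 0, Sol.zero hZ0 (noEig h.inB h.inZ l h0 (fun e => absurd e l0) fun e => absurd e l1)
      (hs.congr (fun ρ => by simp [limF, l0, l1]) fun ρ => by simp [limF, l0, l1])⟩

end Vale.Agent.P139Z
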