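import Vale.Agent.P139Z.Shoot
import Vale.Agent.P139Z.ExtP
import Vale.Agent.P251.G.BrDeg

/-! Matching at a fixed exponent. -/

open Set Filter Topology MeasureTheory Complex
open scoped NNReal ENNReal ComplexConjugate ContDiff

namespace Vale.Agent.P139Z

/-- Three-dimensional Miranda theorem. -/
theorem miranda3 {a b : Fin 3 → ℝ} (hab : ∀ i, a i < b i) {f : (Fin 3 → ℝ) → Fin 3 → ℝ}
    (hf : ContinuousOn f (Icc a b)) (hl : ∀ i, ∀ x ∈ Icc a b, x i = a i → 0 < f x i)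
    (hr : ∀ i, ∀ x ∈ Icc a b, x i = b i → f x i < 0) : ∃ x ∈ Icc a b, f x = 0 := by
  by_contra hne
  have hW : IsOpen (pi univ fun i => Ioo (a i) (b i)) :=
    isOpen_set_pi finite_univ fun _ _ => isOpen_Ioo
  have hc : closure (pi univ fun i => Ioo (a i) (b i)) = Icc a b := by
    rw [closure_pi_set, ← pi_univ_Icc]
    exact congrArg _ (funext fun i => closure_Ioo (hab i).ne)
  have hb : Bornology.IsBounded (pi univ fun i => Ioo (a i) (b i)) :=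
    (Metric.isBounded_Icc a b).subset (hc ▸ subset_closure)
  have h0 := P251.G.degR_empty_zero hb hW (f := fun x => -f x) (hc ▸ hf.neg) fun x hx h =>
    hne ⟨x, hc ▸ hx, neg_eq_zero.1 h⟩
  have h1 := P251.G.degR_id_sub hb hW (y := fun i => (a i + b i) / 2) fun i _ =>
    ⟨by linarith [hab i], by linarith [hab i]⟩
  have h2 := P251.G.degR_homotopy hW hb (f₀ := fun x => x - fun i => (a i + b i) / 2)
    (f₁ := fun x => -f x) (by fun_prop) (hc ▸ hf.neg) fun x hx t ht h => by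
      rw [hW.frontier_eq, hc] at hx
      obtain ⟨i, hi⟩ : ∃ i, x i ∉ Ioo (a i) (b i) := by
        by_contra h'
        exact hx.2 fun i _ => not_not.1 fun h'' => h' ⟨i, h''⟩
      have h3 := congrFun h i
      simp only [Pi.add_apply, Pi.smul_apply, Pi.sub_apply, Pi.neg_apply, smul_eq_mul,
        Pi.zero_apply] at h3
      have h4 := hab i
      rcases eq_or_lt_of_le (hx.1.1 i) with h5 | h5
      · have h6 := hl i x hx.1 h5.symm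
        rw [← h5] at h3
        rcases eq_or_lt_of_le ht.1 with h7 | h7
        · rw [← h7] at h3; linarith
        · nlinarith [mul_pos h7 h6, mul_nonneg (sub_nonneg.2 ht.2) (sub_nonneg.2 h4.le)]
      · have h5' : x i = b i := le_antisymm (hx.1.2 i) (not_lt.1 fun h' => hi ⟨h5, h'⟩)
        have h6 := hr i x hx.1 h5'
        rw [h5'] at h3
        rcases eq_or_lt_of_le ht.1 with h7 | h7
        · rw [← h7] at h3; linarith
        · nlinarith [mul_pos h7 (neg_pos.2 h6), mul_nonneg (sub_nonneg.2 ht.2) (sub_nonneg.2 h4.le)]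
  rw [h0, h1] at h2
  exact one_ne_zero h2

namespace Match

/-- The parameter box. -/
def bx : Set (Fin 3 → ℝ) := Icc ![0.33473, 0, 1 / 2] ![0.33483, 1, 0.9999]

theorem mem_bx {v : Fin 3 → ℝ} (h : v ∈ bx) :
    InB (v 0) ∧ v 1 ∈ Icc (0 : ℝ) 1 ∧ v 2 ∈ Icc (1 / 2 : ℝ) 0.9999 :=
  ⟨⟨h.1 0, h.2 0⟩, ⟨h.1 1, h.2 1⟩, h.1 2, h.2 2⟩

theorem match_fd {T g : (Fin 3 → ℝ) → ℝ} {Res τ : (Fin 3 → ℝ) → ℂ} (cT : ContinuousOn T bx)
    (cg : ContinuousOn g bx) (cR : ContinuousOn Res bx) (cτ : ContinuousOn τ bx)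
    (hT : ∀ v ∈ bx, T v ∈ Icc (10.8192 : ℝ) 10.8216)
    (hT0 : ∀ v ∈ bx, v 1 = 0 → T v = 10.8192) (hT1 : ∀ v ∈ bx, v 1 = 1 → T v = 10.8216)
    (hτ : ∀ v ∈ bx, (T v ≤ 10.8196 → 1 / 1000000 ≤ (τ v).re) ∧
      (10.8212 ≤ T v → (τ v).re ≤ -(1 / 1000000)) ∧ (v 0 = 0.33473 → 1 / 1000000 ≤ (τ v).im) ∧
      (v 0 = 0.33483 → (τ v).im ≤ -(1 / 1000000)))
    (hR : ∀ v ∈ bx, T v ∈ Ioo (10.8192 : ℝ) 10.8216 → ‖Res v - τ v‖ ≤ 1 / 2000000 ∧
      (v 2 = 1 / 2 → 0 < g v) ∧ (v 2 = 0.9999 → g v < 0)) :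
    ∃ v ∈ bx, T v ∈ Ioo (10.8192 : ℝ) 10.8216 ∧ Res v = 0 ∧ g v = 0 := by
  obtain ⟨χ, hχ⟩ : ∃ χ : (Fin 3 → ℝ) → ℝ,
    χ = fun v => min 1 (min (2500 * (T v - 10.8192)) (2500 * (10.8216 - T v))) := ⟨_, rfl⟩
  have cχ : ContinuousOn χ bx := by
    rw [hχ]
    exact continuousOn_const.inf ((continuousOn_const.mul (cT.sub continuousOn_const)).inf
      (continuousOn_const.mul (continuousOn_const.sub cT)))
  have h0 : ∀ v ∈ bx, 0 ≤ χ v := fun v hv => by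
    have := hT v hv
    rw [hχ]
    exact le_min zero_le_one (le_min (by linarith [this.1]) (by linarith [this.2]))
  have h1 : ∀ v, χ v ≤ 1 := fun v => by rw [hχ]; exact min_le_left _ _
  have h2 : ∀ v, 0 < χ v → T v ∈ Ioo (10.8192 : ℝ) 10.8216 := fun v hv => by
    rw [hχ] at hv
    have h3 := lt_min_iff.1 (lt_min_iff.1 hv).2
    exact ⟨by linarith [h3.1], by linarith [h3.2]⟩
  have h3 : ∀ v, χ v ≠ 1 → T v ≤ 10.8196 ∨ 10.8212 ≤ T v := fun v hv => by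
    by_contra h
    rw [not_or, not_le, not_le] at h
    apply hv
    rw [hχ]
    exact min_eq_left (le_min (by linarith [h.1]) (by linarith [h.2]))
  have h4 : ∀ v ∈ bx, ‖(χ v : ℂ) * (Res v - τ v)‖ ≤ 1 / 2000000 := fun v hv => by
    rcases eq_or_lt_of_le (h0 v hv) with h | h
    · rw [← h]; norm_num
    · rw [norm_mul, Complex.norm_real, Real.norm_of_nonneg h.le]
      exact (mul_le_of_le_one_left (norm_nonneg _) (h1 v)).trans (hR v hv (h2 v h)).1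
  have h5 := fun v hv => abs_le.1 ((abs_re_le_norm _).trans (h4 v hv))
  have h6 := fun v hv => abs_le.1 ((abs_im_le_norm _).trans (h4 v hv))
  have cQ : ContinuousOn (fun v => τ v + (χ v : ℂ) * (Res v - τ v)) bx :=
    cτ.add ((continuous_ofReal.comp_continuousOn cχ).mul (cR.sub cτ))
  obtain ⟨v, hv, hz⟩ := miranda3 (a := ![0.33473, 0, 1 / 2]) (b := ![0.33483, 1, 0.9999])
    (f := fun v => ![(τ v + (χ v : ℂ) * (Res v - τ v)).im, (τ v + (χ v : ℂ) * (Res v - τ v)).re,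
      χ v * g v + (1 - χ v) * (3 / 4 - v 2)])
    (fun i => by fin_cases i <;> norm_num) (continuousOn_pi.2 fun i => by
      fin_cases i
      · exact continuous_im.comp_continuousOn cQ
      · exact continuous_re.comp_continuousOn cQ
      · exact (cχ.mul cg).add ((continuousOn_const.sub cχ).mul
          (continuousOn_const.sub (continuous_apply 2).continuousOn)))
    (fun i v hv h => by
      fin_cases i
      · have := (hτ v hv).2.2.1 h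
        have := (h6 v hv).1
        change 0 < (τ v).im + _
        linarith
      · have := (hτ v hv).1 (by rw [hT0 v hv h]; norm_num)
        have := (h5 v hv).1
        change 0 < (τ v).re + _
        linarith
      · have h' : v 2 = 1 / 2 := h
        change 0 < χ v * g v + (1 - χ v) * (3 / 4 - v 2)
        rcases eq_or_lt_of_le (h0 v hv) with h7 | h7
        · rw [← h7, h']; norm_num
        · have := mul_pos h7 ((hR v hv (h2 v h7)).2.1 h')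
          rw [h']
          linarith [h1 v])
    (fun i v hv h => by
      fin_cases i
      · have := (hτ v hv).2.2.2 h
        have := (h6 v hv).2
        change (τ v).im + _ < 0
        linarith
      · have := (hτ v hv).2.1 (by rw [hT1 v hv h]; norm_num)
        have := (h5 v hv).2
        change (τ v).re + _ < 0
        linarith
      · have h' : v 2 = 0.9999 := h
        change χ v * g v + (1 - χ v) * (3 / 4 - v 2) < 0
        rcases eq_or_lt_of_le (h0 v hv) with h7 | h7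
        · rw [← h7, h']; norm_num
        · have := mul_neg_of_pos_of_neg h7 ((hR v hv (h2 v h7)).2.2 h')
          rw [h']
          linarith [h1 v])
  have z0 : (τ v + (χ v : ℂ) * (Res v - τ v)).im = 0 := congrFun hz 0
  have z1 : (τ v + (χ v : ℂ) * (Res v - τ v)).re = 0 := congrFun hz 1
  have z2 : χ v * g v + (1 - χ v) * (3 / 4 - v 2) = 0 := congrFun hz 2
  have h8 : χ v = 1 := by
    by_contra h
    rw [add_re] at z1
    rcases h3 v h with h9 | h9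
    · linarith [(hτ v hv).1 h9, (h5 v hv).1]
    · linarith [(hτ v hv).2.1 h9, (h5 v hv).2]
  rw [h8] at z0 z1 z2
  refine ⟨v, hv, h2 v (h8 ▸ one_pos), Complex.ext ?_ ?_, by linarith⟩
  · simpa using z1
  · simpa using z0

theorem shot_mono {m : ℕ} {β T η η' : ℝ} {G : ℝ → ℂ} (h : IsShot m β G T η) (hη : η ≤ η') :
    IsShot m β G T η' where
  smooth := h.smooth
  ode := h.ode
  upper := h.upper
  core := h.core
  near ρ hρ := ⟨(h.near ρ hρ).1.trans hη, (h.near ρ hρ).2.trans hη⟩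
  mono ρ hρ := (h.mono ρ hρ).trans (add_le_add
    (mul_le_mul_of_nonneg_right hη (by unfold Pf; positivity)) hη)
  tv b hb := (h.tv b hb).trans hη
  out W h1 h2 h3 h4 ρ hρ :=
    ⟨(h.out W h1 h2 h3 h4 ρ hρ).1.trans hη, (h.out W h1 h2 h3 h4 ρ hρ).2.trans hη⟩

theorem ext_mono {m : ℕ} {β x η η' ρ₃ : ℝ} {E U : ℝ → ℂ} {C : ℕ → ℝ}
    (h : IsExt m β E U x η ρ₃ C) (hη : η ≤ η') : IsExt m β E U x η' ρ₃ C where
  smooth := h.smooth
  close ρ hρ := ⟨(h.close ρ hρ).1.trans hη, (h.close ρ hρ).2.trans hη⟩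
  symb := h.symb

theorem lip_pow (n : ℕ) {R : ℝ} {z w : ℂ} (hz : ‖z‖ ≤ R) (hw : ‖w‖ ≤ R) :
    ‖(‖z‖ : ℂ) ^ n * z - (‖w‖ : ℂ) ^ n * w‖ ≤ (R ^ n + n * R ^ (n - 1) * R) * ‖z - w‖ := by
  have h0 : 0 ≤ R := (norm_nonneg _).trans hz
  have e : (‖z‖ : ℂ) ^ n * z - (‖w‖ : ℂ) ^ n * w =
      ((‖z‖ ^ n : ℝ) : ℂ) * (z - w) + ((‖z‖ ^ n - ‖w‖ ^ n : ℝ) : ℂ) * w := by
    push_cast
    ring
  have h1 : |‖z‖ ^ n - ‖w‖ ^ n| ≤ ‖z - w‖ * n * R ^ (n - 1) := by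
    refine (abs_pow_sub_pow_le _ _ _).trans ?_
    rw [abs_norm, abs_norm]
    gcongr
    · exact abs_norm_sub_norm_le _ _
    · exact max_le hz hw
  rw [e]
  refine (norm_add_le _ _).trans ?_
  rw [norm_mul, norm_mul, Complex.norm_real, Complex.norm_real, Real.norm_eq_abs,
    Real.norm_eq_abs, abs_of_nonneg (by positivity)]
  calc _ ≤ R ^ n * ‖z - w‖ + ‖z - w‖ * n * R ^ (n - 1) * R := by gcongr
    _ = _ := by ring

/-- Uniqueness from the right end of an interval. -/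
theorem left_unique {A : ℂ} {n : ℕ} {a b : ℝ} (ha : 0 < a) (hab : a ≤ b) {F H : ℝ → ℂ}
    (hF : ∀ ρ ∈ Icc a b, ContDiffAt ℝ 2 F ρ) (hH : ∀ ρ ∈ Icc a b, ContDiffAt ℝ 2 H ρ)
    (eF : ∀ ρ ∈ Icc a b, Mop A 6 F ρ = (‖F ρ‖ : ℂ) ^ n * F ρ)
    (eH : ∀ ρ ∈ Icc a b, Mop A 6 H ρ = (‖H ρ‖ : ℂ) ^ n * H ρ)
    (h₀ : F b = H b) (h₁ : deriv F b = deriv H b) : EqOn F H (Icc a b) := by
  obtain ⟨R₁, hR₁⟩ := isCompact_Icc.exists_bound_of_continuousOn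
    (fun ρ hρ => (hF ρ hρ).continuousAt.continuousWithinAt : ContinuousOn F (Icc a b))
  obtain ⟨R₂, hR₂⟩ := isCompact_Icc.exists_bound_of_continuousOn
    (fun ρ hρ => (hH ρ hρ).continuousAt.continuousWithinAt : ContinuousOn H (Icc a b))
  obtain ⟨K, hK1, hK2, hK3⟩ : ∃ K : ℝ, ‖A‖ ≤ K ∧ ((6 : ℕ) : ℝ) ≤ K ∧
      max R₁ R₂ ^ n + n * max R₁ R₂ ^ (n - 1) * max R₁ R₂ ≤ K :=
    ⟨max _ (max _ _), le_max_left _ _, le_max_of_le_right (le_max_left _ _),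
      le_max_of_le_right (le_max_right _ _)⟩
  obtain ⟨C, -, hC⟩ := stab2 ha b K
  have hb : b ∈ Icc a b := ⟨hab, le_rfl⟩
  intro ρ hρ
  have h := hC A A 6 6 (fun x => F x - H x) (fun _ => 0) (fun _ => 0) hK1 hK1 hK2 hK2
    (fun x hx => (hF x hx).sub (hH x hx)) (fun _ _ => contDiffAt_const) continuousOn_const
    (fun _ _ => le_rfl) (fun x hx => by
      have e : Mop A 6 (fun _ => 0) x = 0 := by simp [Mop]
      rw [Mop_sub _ _ (hF x hx) (hH x hx), eF x hx, eH x hx, e, norm_zero, add_zero, add_zero,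
        add_zero]
      exact (lip_pow n ((hR₁ x hx).trans (le_max_left _ _))
        ((hR₂ x hx).trans (le_max_right _ _))).trans
        (mul_le_mul_of_nonneg_right hK3 (norm_nonneg _))) b hb ρ hρ
  rw [deriv_fun_sub ((hF b hb).differentiableAt (by norm_num))
    ((hH b hb).differentiableAt (by norm_num)), h₀, h₁] at h
  simp only [sub_self, norm_zero, deriv_const, add_zero, intervalIntegral.integral_zero,
    mul_zero] at h
  exact sub_eq_zero.1 (norm_le_zero_iff.1 ((le_add_of_nonneg_right (norm_nonneg _)).trans h))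

theorem glue {m : ℕ} {β T η x ρ₃ : ℝ} {C : ℕ → ℝ} {U J E : ℝ → ℂ} {ζ : ℂ}
    (hJ : IsShot m β J T η) (hT0 : 0 ≤ T) (hT : T < 11.2) (hη : η < 1)
    (hE : IsExt m β E U x η ρ₃ C) (hζ : ‖ζ‖ = 1) (h0 : J 11.2 = ζ * E 11.2)
    (h1 : deriv J 11.2 = ζ * deriv E 11.2) :
    ∃ G : ℝ → ℂ, IsProfile m β G ∧ IsShot m β G T η ∧
      ∀ᶠ ρ in 𝓝ˢ (Ici (11.2 : ℝ)), G ρ = ζ * E ρ := by
  obtain ⟨δ, hδ, hJs⟩ := hJ.smooth
  obtain ⟨δ', hδ', hEs, hEo⟩ := hE.smooth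
  obtain ⟨a, ha1, ha2, ha3⟩ : ∃ a : ℝ, 11 ≤ a ∧ 11.2 - δ' < a ∧ a < 11.2 :=
    ⟨max 11 (11.2 - δ' / 2), le_max_left _ _, lt_max_of_lt_right (by linarith),
      max_lt (by norm_num) (by linarith)⟩
  obtain ⟨d, hd, rfl⟩ : ∃ d : ℝ, 0 < d ∧ δ = 3 * d := ⟨δ / 3, by positivity, by ring⟩
  have hEa : ∀ ρ : ℝ, 11.2 - δ' < ρ → ContDiffAt ℝ ∞ E ρ := fun ρ hρ =>
    hEs.contDiffAt (Ioi_mem_nhds hρ)
  have hHa : ∀ ρ : ℝ, 11.2 - δ' < ρ → ContDiffAt ℝ ∞ (fun x => ζ * E x) ρ := fun ρ hρ =>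
    contDiffAt_const.mul (hEa ρ hρ)
  have hHo : ∀ ρ : ℝ, 11.2 - δ' < ρ → Mop (Lam m β) 6 (fun x => ζ * E x) ρ =
      (‖ζ * E ρ‖ : ℂ) ^ (2 * m) * (ζ * E ρ) := fun ρ hρ => by
    rw [Mop_const_mul, hEo ρ hρ, norm_mul, hζ, one_mul]
    ring
  have hJa : ∀ ρ : ℝ, -(3 * d) < ρ → ρ ≤ 11.2 → ContDiffAt ℝ ∞ J ρ := fun ρ h h' =>
    hJs.contDiffAt (Ioo_mem_nhds h (by linarith))
  have h2 : (2 : WithTop ℕ∞) ≤ ((⊤ : ℕ∞) : WithTop ℕ∞) := WithTop.coe_le_coe.2 (le_top (a := 2))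
  have heq : EqOn J (fun x => ζ * E x) (Icc a 11.2) := left_unique (by linarith) ha3.le
    (fun ρ hρ => (hJa ρ (by linarith [hρ.1]) hρ.2).of_le h2)
    (fun ρ hρ => (hHa ρ (by linarith [hρ.1])).of_le h2)
    (fun ρ hρ => hJ.ode ρ ⟨by linarith [hρ.1], hρ.2⟩)
    (fun ρ hρ => hHo ρ (by linarith [hρ.1])) h0 (by rw [h1, deriv_const_mul_field])
  obtain ⟨G, hG⟩ : ∃ G : ℝ → ℂ, ∀ ρ, G ρ = if ρ ≤ 11.2 then
    (Real.smoothTransition ((ρ + 2 * d) / d) : ℂ) * J ρ else ζ * E ρ := ⟨_, fun _ => rfl⟩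
  have g1 : ∀ ρ : ℝ, -d ≤ ρ → ρ ≤ 11.2 → G ρ = J ρ := fun ρ h h' => by
    rw [hG, if_pos h', Real.smoothTransition.one_of_one_le (by rw [le_div_iff₀ hd]; linarith),
      ofReal_one, one_mul]
  have g2 : ∀ ρ : ℝ, a ≤ ρ → G ρ = ζ * E ρ := fun ρ h => by
    by_cases h' : ρ ≤ 11.2
    · rw [g1 ρ (by linarith) h']
      exact heq ⟨h, h'⟩
    · rw [hG, if_neg h']
  have e1 : ∀ ρ : ℝ, 0 ≤ ρ → ρ < 11.2 → G =ᶠ[𝓝 ρ] J := fun ρ h h' =>
    eventually_of_mem (Ioo_mem_nhds (show -d < ρ by linarith) h') fun x hx => g1 x hx.1.le hx.2.le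
  have e2 : ∀ ρ : ℝ, a < ρ → G =ᶠ[𝓝 ρ] fun x => ζ * E x := fun ρ h =>
    eventually_of_mem (Ioi_mem_nhds h) fun x hx => g2 x (le_of_lt hx)
  have hGs : ContDiff ℝ ∞ G := contDiff_iff_contDiffAt.2 fun ρ => by
    by_cases h : ρ < -(2 * d)
    · refine (contDiffAt_const (c := (0 : ℂ))).congr_of_eventuallyEq
        (eventually_of_mem (Iio_mem_nhds h) fun x hx => ?_)
      have hx' : x < -(2 * d) := hx
      rw [hG, if_pos (by linarith), Real.smoothTransition.zero_of_nonpos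
        (div_nonpos_of_nonpos_of_nonneg (by linarith) hd.le), ofReal_zero, zero_mul]
    by_cases h' : ρ < 11.2
    · refine ContDiffAt.congr_of_eventuallyEq (f := fun x =>
        (Real.smoothTransition ((x + 2 * d) / d) : ℂ) * J x)
        (ContDiffAt.mul ?_ (hJa ρ (by linarith) h'.le))
        (eventually_of_mem (Iio_mem_nhds h') fun x hx => by rw [hG, if_pos (le_of_lt hx)])
      exact (ofRealCLM.contDiff.comp (Real.smoothTransition.contDiff.comp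
        ((contDiff_id.add contDiff_const).div_const d))).contDiffAt
    · exact (hHa ρ (by linarith)).congr_of_eventuallyEq (e2 ρ (by linarith))
  have hGo : ∀ ρ : ℝ, 0 ≤ ρ → Mop (Lam m β) 6 G ρ = (‖G ρ‖ : ℂ) ^ (2 * m) * G ρ := fun ρ h => by
    by_cases h' : ρ < 11.2
    · rw [Mop_congr _ _ (e1 ρ h h'), (e1 ρ h h').eq_of_nhds]
      exact hJ.ode ρ ⟨h, h'.le⟩
    · rw [Mop_congr _ _ (e2 ρ (by linarith)), g2 ρ (by linarith)]
      exact hHo ρ (by linarith)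
  have v0 : ∀ ρ ∈ Icc (0 : ℝ) 11.2, G ρ = J ρ := fun ρ hρ => g1 ρ (by linarith [hρ.1]) hρ.2
  have v1 : ∀ ρ ∈ Icc (0 : ℝ) 11.2, deriv G ρ = deriv J ρ := fun ρ hρ => by
    rcases eq_or_lt_of_le hρ.2 with h | h
    · rw [h, (e2 _ ha3).deriv_eq, h1, deriv_const_mul_field]
    · exact (e1 ρ hρ.1 h).deriv_eq
  have sub : ∀ ρ ∈ Icc (0 : ℝ) T, ρ ∈ Icc (0 : ℝ) 11.2 := fun ρ hρ => ⟨hρ.1, hρ.2.trans hT.le⟩
  refine ⟨G, ⟨hGs, fun ρ hρ => ?_, fun j => ?_, ?_⟩, ⟨⟨1, one_pos, hGs.contDiffOn⟩,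
    fun ρ hρ => hGo ρ hρ.1, fun ρ hρ => ?_, fun ρ hρ => ?_, fun ρ hρ => ?_, fun ρ hρ => ?_,
    fun b hb => ?_, fun W w1 w2 w3 w4 ρ hρ => ?_⟩,
    eventually_of_mem (isOpen_Ioi.mem_nhdsSet.2 fun x hx => lt_of_lt_of_le ha3 hx)
      fun x hx => g2 x (le_of_lt hx)⟩
  · rw [← hGo ρ hρ, Mop]
    norm_num
  · obtain ⟨s, hs⟩ : ∃ s : ℝ, s = -(1 / (2 * (m : ℝ)) + j) := ⟨_, rfl⟩
    have hs0 : s ≤ 0 := by rw [hs, neg_nonpos]; positivity
    rw [← hs]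
    obtain ⟨B, hB⟩ := (isCompact_Icc (a := (0 : ℝ)) (b := max ρ₃ 12)).exists_bound_of_continuousOn
      (hGs.continuous_iteratedDeriv j (by exact_mod_cast le_top)).continuousOn
    have hR : (0 : ℝ) ≤ max ρ₃ 12 := le_max_of_le_right (by norm_num)
    have hB0 : 0 ≤ B := (norm_nonneg _).trans (hB 0 ⟨le_rfl, hR⟩)
    refine ⟨max (|C j| / 2 ^ s) (B / (1 + max ρ₃ 12) ^ s), fun ρ hρ => ?_⟩
    have hp : 0 ≤ (1 + ρ) ^ s := by positivity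
    by_cases h : ρ ≤ max ρ₃ 12
    · refine le_trans ?_ (mul_le_mul_of_nonneg_right (le_max_right _ _) hp)
      rw [div_mul_eq_mul_div, le_div_iff₀ (by positivity)]
      exact mul_le_mul (hB ρ ⟨hρ, h⟩)
        (Real.rpow_le_rpow_of_nonpos (by positivity) (by linarith) hs0) (by positivity) hB0
    · have h3 := max_lt_iff.1 (not_le.1 h)
      refine le_trans ?_ (mul_le_mul_of_nonneg_right (le_max_left _ _) hp)
      rw [(e2 ρ (by linarith [h3.2])).iteratedDeriv_eq, iteratedDeriv_const_mul _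
        ((hEa ρ (by linarith [h3.2])).of_le (by exact_mod_cast le_top)), norm_mul, hζ, one_mul,
        div_mul_eq_mul_div, mul_div_assoc, ← Real.div_rpow (by positivity) zero_le_two]
      have h4 := hE.symb j ρ h3.1.le
      rw [← hs] at h4
      exact h4.trans (mul_le_mul (le_abs_self _)
        (Real.rpow_le_rpow_of_nonpos (by positivity) (by linarith [h3.2]) hs0) (by positivity)
        (abs_nonneg _))
  · rw [v0 0 ⟨le_rfl, by norm_num⟩]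
    intro h
    have := (hJ.near 0 ⟨le_rfl, hT0⟩).1
    rw [h, zero_sub, norm_neg, norm_one] at this
    linarith
  · rw [v0 ρ hρ]
    exact hJ.upper ρ hρ
  · rw [v0 ρ (sub ρ hρ)]
    exact hJ.core ρ hρ
  · rw [v0 ρ (sub ρ hρ), v1 ρ (sub ρ hρ)]
    exact hJ.near ρ hρ
  · have := hJ.mono ρ hρ
    unfold sf Pf at this ⊢
    rwa [v0 ρ hρ, v1 ρ hρ]
  · refine le_trans (le_of_eq (intervalIntegral.integral_congr fun ρ hρ => ?_)) (hJ.tv b hb)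
    rw [uIcc_of_le hb.1] at hρ
    have h3 := e1 ρ hρ.1 (by linarith [hρ.2, hb.2])
    have h4 : sf G =ᶠ[𝓝 ρ] sf J := by
      filter_upwards [h3, h3.deriv] with x hx hx'
      rw [sf, sf, hx, hx']
    simp only [h4.deriv_eq]
  · have h3 : ρ ∈ Icc (0 : ℝ) 11.2 := ⟨hT0.trans hρ.1, hρ.2⟩
    rw [v0 ρ h3, v1 ρ h3]
    exact hJ.out W w1 w2 w3 w4 ρ hρ

theorem res_bound {g y₀ y₁ W₀ W₁ e₀ e₁ U₁ τ : ℂ} {M η : ℝ} (hg : ‖g‖ ≤ M) (hU : ‖U₁‖ ≤ M)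
    (hτ : ‖τ‖ ≤ M) (e : τ = g * (W₀ * U₁ - W₁)) (hW : ‖W₀‖ ≤ 1) (h0 : ‖y₀ - W₀‖ ≤ η)
    (h1 : ‖y₁ - W₁‖ ≤ η) (h2 : ‖e₀ - 1‖ ≤ 2 * η) (h3 : ‖e₁ - U₁‖ ≤ 2 * η) (hη : η ≤ 1) :
    ‖g * (y₀ * e₁ - y₁ * e₀) - τ‖ ≤ η * (3 * M ^ 2 + 9 * M) := by
  have hM : 0 ≤ M := (norm_nonneg _).trans hg
  have hη0 : 0 ≤ η := (norm_nonneg _).trans h0
  have a1 : ‖e₁‖ ≤ M + 2 := (norm_le_norm_add_norm_sub' e₁ U₁).trans (by linarith)
  have a2 : ‖e₀‖ ≤ 3 := (norm_le_norm_add_norm_sub' e₀ 1).trans (by rw [norm_one]; linarith)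
  have a3 : ‖g * W₀ * U₁ - τ‖ ≤ M * 1 * M + M := by
    refine (norm_sub_le _ _).trans (add_le_add ?_ hτ)
    rw [norm_mul, norm_mul]
    gcongr
  have e' : g * (y₀ * e₁ - y₁ * e₀) - τ = g * (y₀ - W₀) * e₁ + g * W₀ * (e₁ - U₁) -
      g * (y₁ - W₁) * e₀ - (g * W₀ * U₁ - τ) * (e₀ - 1) := by
    rw [e]
    ring
  rw [e']
  calc _ ≤ ‖g‖ * ‖y₀ - W₀‖ * ‖e₁‖ + ‖g‖ * ‖W₀‖ * ‖e₁ - U₁‖ + ‖g‖ * ‖y₁ - W₁‖ * ‖e₀‖ +
        ‖g * W₀ * U₁ - τ‖ * ‖e₀ - 1‖ := by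
        simp only [← norm_mul]
        exact (norm_sub_le _ _).trans (add_le_add_left ((norm_sub_le _ _).trans
          (add_le_add_left (norm_add_le _ _) _)) _)
    _ ≤ M * η * (M + 2) + M * 1 * (2 * η) + M * η * 3 + (M * 1 * M + M) * (2 * η) := by gcongr
    _ = _ := by ring

/-- The Wronskian weight. -/
noncomputable def mu (ρ : ℝ) : ℂ := (ρ : ℂ) ^ 6 * cexp (I * ρ / 4)

theorem mu_ne {ρ : ℝ} (h : 0 < ρ) : mu ρ ≠ 0 :=
  mul_ne_zero (pow_ne_zero _ (ofReal_ne_zero.2 h.ne')) (exp_ne_zero _)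

theorem continuous_mu : Continuous mu := by unfold mu; fun_prop

theorem wron {A : ℂ} {W U : ℝ → ℂ} (hW : ContDiffOn ℝ ∞ W (Ioi 0)) (hU : ContDiffOn ℝ ∞ U (Ioi 0))
    (eW : ∀ ρ : ℝ, 0 < ρ → Mop A 6 W ρ = 0) (eU : ∀ ρ : ℝ, 0 < ρ → Mop A 6 U ρ = 0) {a b : ℝ}
    (ha : 0 < a) (hab : a ≤ b) :
    mu b * (deriv W b * U b - W b * deriv U b) = mu a * (deriv W a * U a - W a * deriv U a) := by
  have h2 : (2 : WithTop ℕ∞) ≤ ((⊤ : ℕ∞) : WithTop ℕ∞) := WithTop.coe_le_coe.2 (le_top (a := 2))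
  have h : ∀ x ∈ Icc a b, HasDerivAt (fun x => mu x * (deriv W x * U x - W x * deriv U x)) 0 x :=
    fun x hx => by
      have hx0 : 0 < x := ha.trans_le hx.1
      have := hasDerivAt_wron A (B := 6) (by norm_num)
        ((hW.contDiffAt (Ioi_mem_nhds hx0)).of_le h2) ((hU.contDiffAt (Ioi_mem_nhds hx0)).of_le h2)
      rwa [eW x hx0, eU x hx0, mul_zero, mul_zero, sub_zero, mul_zero] at this
  exact constant_of_has_deriv_right_zero (fun x hx => (h x hx).continuousAt.continuousWithinAt)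
    (fun x hx => (h x (Ico_subset_Icc_self hx)).hasDerivWithinAt) b ⟨hab, le_rfl⟩

theorem kappa : ∃ m₀ : ℕ, ∀ m : ℕ, m₀ ≤ m → (11.2 : ℝ) ^ (1 / (2 * (m : ℝ))) ≤ 1.000001 := by
  have h1 : Tendsto (fun m : ℕ => 1 / (2 * (m : ℝ))) atTop (𝓝 0) :=
    tendsto_const_nhds.div_atTop (tendsto_natCast_atTop_atTop.const_mul_atTop two_pos)
  have h2 := (Real.continuousAt_const_rpow (a := 11.2) (b := 0) (by norm_num)).tendsto.comp h1
  rw [Real.rpow_zero] at h2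
  exact eventually_atTop.1 (h2.eventually_le_const (by norm_num))

theorem tau_eq {a b T u u' U₁ W₀ W₁ : ℂ} (hb : b ≠ 0) (hu : u ≠ 0)
    (h : a * (W₁ * 1 - W₀ * U₁) = b * (0 * u - 1 * u')) :
    T * u' / u = a * T / (b * u) * (W₀ * U₁ - W₁) := by
  field_simp
  linear_combination T * h

theorem faces {y W e κ x ε T : ℝ} (h1 : |y - W| ≤ ε) (h2 : |κ * e - x| ≤ ε) (he : 0 ≤ e)
    (κ1 : 1 ≤ κ) (κ2 : κ ≤ 1.000001) (hε : ε ≤ 0.000001) (d1 : 9 / 10 ≤ W)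
    (d2 : W ≤ 1 - (11.2 - T) ^ 2 / 1000) (hT : T < 10.8216) :
    W ≤ 1 ∧ (x = 1 / 2 → 0 < y - e) ∧ (x = 0.9999 → y - e < 0) := by
  have d3 : W ≤ 0.99986 := by nlinarith
  have h3 := abs_le.1 h1
  have h4 := abs_le.1 h2
  have h5 : 1 * e ≤ κ * e := mul_le_mul_of_nonneg_right κ1 he
  have h6 : κ * e ≤ 1.000001 * e := mul_le_mul_of_nonneg_right κ2 he
  refine ⟨by linarith, fun h => ?_, fun h => ?_⟩ <;> rw [h] at h4 <;> linarith

theorem cancel {g y₀ y₁ e₀ e₁ κ x : ℂ} (hg : g ≠ 0) (hκ : κ ≠ 0) (hx : x ≠ 0)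
    (h : g * (y₀ * (κ * e₁ / x) - y₁ * (κ * e₀ / x)) = 0) : y₀ * e₁ = y₁ * e₀ := by
  have h1 := (mul_eq_zero.1 h).resolve_left hg
  refine mul_left_cancel₀ (div_ne_zero hκ hx) ?_
  linear_combination h1

theorem div_close {x ε : ℝ} (hx : 1 / 2 ≤ x) {z w : ℂ} (h : ‖z - x * w‖ ≤ ε) :
    ‖z / x - w‖ ≤ 2 * ε := by
  have h0 : 0 < x := by linarith
  have h1 := (norm_nonneg _).trans h
  rw [div_sub' (ofReal_ne_zero.2 h0.ne'), norm_div, Complex.norm_real, Real.norm_of_nonneg h0.le,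
    div_le_iff₀ h0]
  nlinarith

end Match

open Match in
theorem exists_match : ∃ (x₁ : ℝ) (U : ℝ → ℝ → ℂ) (c ρ₃ : ℝ) (C : ℕ → ℝ), x₁ < 1 ∧ OutFam U c ∧
    ∀ η : ℝ, 0 < η → ∃ m₀ : ℕ, ∀ m : ℕ, m₀ ≤ m →
      ∃ (β T x : ℝ) (ζ : ℂ) (G E : ℝ → ℂ), InB β ∧ InZ (T / 4) ∧ x ∈ Icc (1 / 2) x₁ ∧ ‖ζ‖ = 1 ∧
        IsProfile m β G ∧ IsShot m β G T η ∧ IsExt m β E (U β) x η ρ₃ C ∧
        ∀ᶠ ρ in 𝓝ˢ (Ici (11.2 : ℝ)), G ρ = ζ * E ρ := by
  obtain ⟨U, c, ρ₃, C, hU, hE⟩ := extp (x₁ := 0.9999) (by norm_num)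
  refine ⟨0.9999, U, c, ρ₃, C, by norm_num, hU, fun η hη => ?_⟩
  have hZ : ∀ T ∈ Icc (10.8192 : ℝ) 10.8216, InZ (T / 4) := fun T hT =>
    ⟨by linarith [hT.1], by linarith [hT.2]⟩
  have hbox := fun (β : ℝ) (hβ : InB β) (T : ℝ) (hT : T ∈ Icc (10.8192 : ℝ) 10.8216) => by
    have h := nump_box hβ (hZ T hT) (hU.symb β hβ) (hU.ode β hβ)
      ⟨11.2, by norm_num, by rw [hU.val β hβ]; exact one_ne_zero⟩
    have e : (4 : ℂ) * ((T / 4 : ℝ) : ℂ) = T := by push_cast; ring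
    rw [show 4 * (T / 4) = T by ring, e] at h
    exact h
  have hK : IsCompact ({β | InB β} ×ˢ Icc (10.8192 : ℝ) 10.8216) :=
    (isCompact_Icc (a := (0.33473 : ℝ)) (b := 0.33483)).prod isCompact_Icc
  have hsub : {β | InB β} ×ˢ Icc (10.8192 : ℝ) 10.8216 ⊆ {β | InB β} ×ˢ Ioi (0 : ℝ) :=
    prod_mono le_rfl fun T hT => lt_of_lt_of_le (by norm_num) hT.1
  have cg : ContinuousOn (fun p : ℝ × ℝ => mu 11.2 * p.2 / (mu p.2 * U p.1 p.2))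
      ({β | InB β} ×ˢ Icc (10.8192 : ℝ) 10.8216) :=
    ContinuousOn.div (by fun_prop) ((continuous_mu.comp continuous_snd).continuousOn.mul
      (hU.cont.mono hsub)) fun p hp => mul_ne_zero (mu_ne (hsub hp).2) (hbox _ hp.1 _ hp.2).1
  have cτ : ContinuousOn (fun p : ℝ × ℝ => p.2 * deriv (U p.1) p.2 / U p.1 p.2)
      ({β | InB β} ×ˢ Icc (10.8192 : ℝ) 10.8216) :=
    ContinuousOn.div (ContinuousOn.mul (by fun_prop) (hU.cont'.mono hsub)) (hU.cont.mono hsub)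
      fun p hp => (hbox _ hp.1 _ hp.2).1
  have cU : ContinuousOn (fun β : ℝ => deriv (U β) 11.2) (Icc 0.33473 0.33483) :=
    hU.cont'.comp (f := fun β : ℝ => (β, (11.2 : ℝ))) (by fun_prop) fun β hβ =>
      ⟨hβ, by norm_num⟩
  obtain ⟨M₁, hM₁⟩ := hK.exists_bound_of_continuousOn cg
  obtain ⟨M₂, hM₂⟩ := hK.exists_bound_of_continuousOn cτ
  obtain ⟨M₃, hM₃⟩ := isCompact_Icc.exists_bound_of_continuousOn cU
  obtain ⟨M, hM, m1, m2, m3⟩ : ∃ M : ℝ, 0 < M ∧ M₁ ≤ M ∧ M₂ ≤ M ∧ M₃ ≤ M :=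
    ⟨max 1 (max M₁ (max M₂ M₃)), by simp, by simp, by simp, by simp⟩
  obtain ⟨ε, hε, ε1, ε2, ε3⟩ : ∃ ε : ℝ, 0 < ε ∧ ε ≤ η ∧ ε ≤ 0.000001 ∧
      ε * (3 * M ^ 2 + 9 * M) ≤ 1 / 2000000 :=
    ⟨min η (min 0.000001 (1 / 2000000 / (3 * M ^ 2 + 9 * M))), by positivity, min_le_left _ _,
      min_le_of_right_le (min_le_left _ _),
      (le_div_iff₀ (by positivity)).1 (min_le_of_right_le (min_le_right _ _))⟩
  obtain ⟨m₁, hm₁⟩ := shoot hε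
  obtain ⟨m₂, hm₂⟩ := hE ε hε
  obtain ⟨m₃, hm₃⟩ := kappa
  refine ⟨max m₁ (max m₂ m₃), fun m hm => ?_⟩
  obtain ⟨J, τ, cJ, hJ⟩ := hm₁ m (le_of_max_le_left hm)
  obtain ⟨E, cE, hE'⟩ := hm₂ m (le_of_max_le_left (le_of_max_le_right hm))
  obtain ⟨κ, hκ⟩ : ∃ κ : ℝ, κ = (11.2 : ℝ) ^ (1 / (2 * (m : ℝ))) := ⟨_, rfl⟩
  have κ1 : 1 ≤ κ := hκ ▸ Real.one_le_rpow (by norm_num) (by positivity)
  have κ2 : κ ≤ 1.000001 := hκ ▸ hm₃ m (le_of_max_le_right (le_of_max_le_right hm))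
  have c1 := cJ.comp (f := fun v : Fin 3 → ℝ => (v 0, v 1)) (s := bx) (by fun_prop) fun v hv =>
    ⟨(mem_bx hv).1, (mem_bx hv).2.1⟩
  have c2 := cE.comp (f := fun v : Fin 3 → ℝ => (v 0, v 2)) (s := bx) (by fun_prop) fun v hv =>
    ⟨(mem_bx hv).1, (mem_bx hv).2.2⟩
  have hT : ∀ v ∈ bx, τ (v 0) (v 1) ∈ Icc (10.8192 : ℝ) 10.8216 := fun v hv =>
    ((hJ _ (mem_bx hv).1).2.2 _ (mem_bx hv).2.1).1
  have c3 : ContinuousOn (fun v : Fin 3 → ℝ => (v 0, τ (v 0) (v 1))) bx :=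
    (continuous_apply 0).continuousOn.prodMk c1.snd.snd
  have hmap : MapsTo (fun v : Fin 3 → ℝ => (v 0, τ (v 0) (v 1))) bx
      ({β | InB β} ×ˢ Icc (10.8192 : ℝ) 10.8216) := fun v hv => ⟨(mem_bx hv).1, hT v hv⟩
  have hx : ∀ v ∈ bx, (1 / 2 : ℝ) ≤ v 2 := fun v hv => (mem_bx hv).2.2.1
  have hx0 : ∀ v ∈ bx, ((v 2 : ℝ) : ℂ) ≠ 0 := fun v hv =>
    ofReal_ne_zero.2 (by linarith [hx v hv])
  have c4 : ContinuousOn (fun v : Fin 3 → ℝ => ((v 2 : ℝ) : ℂ)) bx := by fun_prop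
  have hcl : ∀ v ∈ bx, ‖(κ : ℂ) * E (v 0) (v 2) 11.2 - v 2‖ ≤ ε ∧
      ‖(κ : ℂ) * deriv (E (v 0) (v 2)) 11.2 - v 2 * deriv (U (v 0)) 11.2‖ ≤ ε := fun v hv => by
    have h := (hE' _ _ (mem_bx hv).1 (mem_bx hv).2.2).close 11.2 le_rfl
    rwa [← hκ, hU.val _ (mem_bx hv).1, mul_one] at h
  have hE0 : ∀ v ∈ bx, |κ * ‖E (v 0) (v 2) 11.2‖ - v 2| ≤ ε := fun v hv => by
    have h := (abs_norm_sub_norm_le _ _).trans (hcl v hv).1
    rwa [norm_mul, Complex.norm_real, Complex.norm_real, Real.norm_of_nonneg (by linarith),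
      Real.norm_of_nonneg (by linarith [hx v hv])] at h
  obtain ⟨v, hv, hTv, hR, hg⟩ := match_fd (T := fun v => τ (v 0) (v 1))
    (g := fun v => ‖J (v 0) (v 1) 11.2‖ - ‖E (v 0) (v 2) 11.2‖)
    (Res := fun v => mu 11.2 * τ (v 0) (v 1) / (mu (τ (v 0) (v 1)) * U (v 0) (τ (v 0) (v 1))) *
      (J (v 0) (v 1) 11.2 * (κ * deriv (E (v 0) (v 2)) 11.2 / v 2) -
        deriv (J (v 0) (v 1)) 11.2 * (κ * E (v 0) (v 2) 11.2 / v 2)))
    (τ := fun v => τ (v 0) (v 1) * deriv (U (v 0)) (τ (v 0) (v 1)) / U (v 0) (τ (v 0) (v 1)))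
    c1.snd.snd (c1.fst.norm.sub c2.fst.norm)
    ((cg.comp c3 hmap).mul ((c1.fst.mul ((continuousOn_const.mul c2.snd).div c4 hx0)).sub
      (c1.snd.fst.mul ((continuousOn_const.mul c2.fst).div c4 hx0))))
    (cτ.comp c3 hmap) hT (fun v hv h => by rw [h]; exact (hJ _ (mem_bx hv).1).1)
    (fun v hv h => by rw [h]; exact (hJ _ (mem_bx hv).1).2.1)
    (fun v hv => by
      obtain ⟨-, h1, h2, h3⟩ := hbox _ (mem_bx hv).1 _ (hT v hv)
      exact ⟨fun h => h1 (by linarith), fun h => h2 (by linarith), h3⟩)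
    (fun v hv hTv => by
      have hβ := (mem_bx hv).1
      have hS := ((hJ _ hβ).2.2 _ (mem_bx hv).2.1).2 hTv
      have hT0 : 0 < τ (v 0) (v 1) := lt_trans (by norm_num) hTv.1
      have hT1 : τ (v 0) (v 1) ≤ 11.2 := hTv.2.le.trans (by norm_num)
      obtain ⟨W, w1, w2, w3, w4⟩ := exists_free (-I * v 0) 6 (S := fun _ => 0) contDiffOn_const
        hT0 1 0
      obtain ⟨o1, o2⟩ := hS.out W w1 w2 w3 w4 11.2 ⟨hT1, le_rfl⟩
      obtain ⟨d1, d2⟩ := free_drop hβ ⟨by linarith [hTv.1], by linarith [hTv.2]⟩ w1 w2 w3 w4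
        ⟨hT1, le_rfl⟩
      have hw := wron w1 (hU.symb _ hβ).smooth w2 (hU.ode _ hβ) hT0 hT1
      rw [w3, w4, hU.val _ hβ] at hw
      obtain ⟨f1, f2⟩ := faces ((abs_norm_sub_norm_le _ _).trans o1) (hE0 v hv) (norm_nonneg _)
        κ1 κ2 ε2 d1 d2 hTv.2
      exact ⟨le_trans (res_bound ((hM₁ _ (hmap hv)).trans m1) ((hM₃ _ hβ).trans m3)
        ((hM₂ _ (hmap hv)).trans m2) (tau_eq (mu_ne hT0) (hbox _ hβ _ (hT v hv)).1 hw) f1 o1 o2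
        (div_close (hx v hv) (by rw [mul_one]; exact (hcl v hv).1))
        (div_close (hx v hv) (hcl v hv).2) (ε2.trans (by norm_num))) ε3, f2⟩)
  have hβ := (mem_bx hv).1
  have hT0 : 0 < τ (v 0) (v 1) := lt_trans (by norm_num) hTv.1
  have e0 : E (v 0) (v 2) 11.2 ≠ 0 := fun h => by
    have := abs_le.1 (hE0 v hv)
    rw [h, norm_zero, mul_zero] at this
    linarith [hx v hv]
  have e1 : J (v 0) (v 1) 11.2 * deriv (E (v 0) (v 2)) 11.2 =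
      deriv (J (v 0) (v 1)) 11.2 * E (v 0) (v 2) 11.2 :=
    cancel (div_ne_zero (mul_ne_zero (mu_ne (by norm_num)) (ofReal_ne_zero.2 hT0.ne'))
      (mul_ne_zero (mu_ne hT0) (hbox _ hβ _ (hT v hv)).1))
      (ofReal_ne_zero.2 (one_pos.trans_le κ1).ne') (hx0 v hv) hR
  have hζ : ‖J (v 0) (v 1) 11.2 / E (v 0) (v 2) 11.2‖ = 1 := by
    rw [norm_div, sub_eq_zero.1 hg, div_self (norm_ne_zero_iff.2 e0)]
  have hX := hE' _ _ hβ (mem_bx hv).2.2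
  obtain ⟨G, g1, g2, g3⟩ := glue (((hJ _ hβ).2.2 _ (mem_bx hv).2.1).2 hTv) hT0.le
    (hTv.2.trans (by norm_num)) (by linarith) hX hζ (div_mul_cancel₀ _ e0).symm
    (by rw [div_mul_eq_mul_div, e1, mul_div_cancel_right₀ _ e0])
  exact ⟨v 0, _, v 2, _, G, _, hβ, hZ _ (hT v hv), (mem_bx hv).2.2, hζ, g1, shot_mono g2 ε1,
    ext_mono hX ε1, g3⟩

end Vale.Agent.P139Z
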