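import Vale.Agent.P139Z.OBase
import Vale.Agent.P139Z.OCalc
import Vale.Agent.P139Z.Modes.Red

/-! The symmetry modes; reduction; elementary facts on radial solutions. -/

open Set Filter Topology MeasureTheory Complex
open scoped NNReal ENNReal ComplexConjugate ContDiff

namespace Vale.Agent.P139Z

variable {m : ℕ} {β : ℝ} {G : ℝ → ℂ}

namespace Modes

/-- The reduced symmetry modes. -/
noncomputable def Fm (m : ℕ) (β : ℝ) (G : ℝ → ℂ) (l : ℕ) (a₀ a₁ a₂ : ℂ) (ρ : ℝ) : ℂ :=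
  if l = 0 then a₀ * (I * G ρ) + a₁ * Sym.DG (Lam m β) G ρ
  else if l = 1 then a₂ * (2 * deriv G ρ) else 0

theorem deriv_Qr (hG : ContDiff ℝ ∞ G) (r : ℝ) : deriv (Qr G) r = 2 * r * deriv G (r ^ 2) :=
  (hasDerivAt_sq (Sym.hasDerivAt_of hG (r ^ 2))).deriv

theorem DQr_eq (hG : ContDiff ℝ ∞ G) (r : ℝ) : DQr m β G r = Sym.DG (Lam m β) G (r ^ 2) := by
  rw [DQr, deriv_Qr hG, Sym.DG, Qr]
  push_cast
  ring

theorem symF_eq (hG : ContDiff ℝ ∞ G) (l : ℕ) (a₀ a₁ a₂ : ℂ) (r : ℝ) :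
    symF m β G l a₀ a₁ a₂ r = (r : ℂ) ^ l * Fm m β G l a₀ a₁ a₂ (r ^ 2) := by
  unfold symF Fm
  split_ifs with h0 h1
  · rw [h0, DQr_eq hG, pow_zero, one_mul, Qr]
  · rw [h1, deriv_Qr hG]
    ring
  · rw [mul_zero]

theorem contDiff_Fm (hG : ContDiff ℝ ∞ G) (l : ℕ) (a₀ a₁ a₂ : ℂ) :
    ContDiff ℝ ∞ (Fm m β G l a₀ a₁ a₂) := by
  unfold Fm
  split_ifs
  · exact (contDiff_const.mul (contDiff_const.mul hG)).add
      (contDiff_const.mul (Sym.contDiff_DG _ hG))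
  · exact contDiff_const.mul (contDiff_const.mul (Sym.contDiff_deriv hG))
  · exact contDiff_const

theorem Mop_shift (A c : ℂ) (B : ℕ) (F : ℝ → ℂ) (ρ : ℝ) :
    Mop (A + c) B F ρ = Mop A B F ρ + I * c * F ρ := by
  unfold Mop
  ring

theorem Mop_Fm (hm : 1 ≤ m) (hG : IsProfile m β G) (l : ℕ) (lam a₀ a₁ a₂ : ℂ) {ρ : ℝ}
    (hρ : 0 ≤ ρ) :
    Mop (l / 2 + lam + Lam m β) (6 + l) (Fm m β G l a₀ a₁ a₂) ρ
      = pot1 m (G ρ) * Fm m β G l a₀ a₁ a₂ ρ
        + pot2 m (G ρ) * conj (Fm m β G l (conj a₀) (conj a₁) (conj a₂) ρ)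
        + I * Fm m β G l (lam * a₀) ((lam - 1) * a₁) ((lam - 1 / 2) * a₂) ρ := by
  have s2 : ∀ {H : ℝ → ℂ}, ContDiff ℝ ∞ H → ContDiffAt ℝ 2 H ρ := fun hH =>
    (hH.of_le (Sym.le_infty 2)).contDiffAt
  rcases l with _ | _ | l
  · have h1 := hG.ode ρ hρ
    have h2 := Sym.ode_DG hm hG hρ
    have e : Fm m β G 0 a₀ a₁ a₂ = fun x => a₀ * I * G x + a₁ * Sym.DG (Lam m β) G x := by
      ext x
      simp [Fm, mul_assoc]
    rw [e, Mop_add _ _ (s2 (contDiff_const.mul hG.smooth))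
      (s2 (contDiff_const.mul (Sym.contDiff_DG _ hG.smooth))), Mop_const_mul, Mop_const_mul]
    obtain ⟨n, rfl⟩ : ∃ n, m = n + 1 := ⟨m - 1, by omega⟩
    simp only [Mop, Fm, if_true, iteratedDeriv_succ, iteratedDeriv_zero, map_add, map_mul,
      Complex.conj_conj, Complex.conj_I, pot1, pot2, Sym.norm_pow_eq, Nat.add_sub_cancel]
      at h1 h2 ⊢
    push_cast at h1 h2 ⊢
    linear_combination a₀ * I * h1 + a₁ * h2
  · have h1 := Sym.ode_deriv hm hG hρ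
    have e : Fm m β G (0 + 1) a₀ a₁ a₂ = fun x => a₂ * 2 * deriv G x := by
      ext x
      simp [Fm, mul_assoc]
    rw [e, Mop_const_mul]
    simp only [Mop, Fm, zero_add, one_ne_zero, if_true, if_false, iteratedDeriv_succ,
      iteratedDeriv_zero, map_mul, Complex.conj_conj, map_ofNat]
    push_cast
    linear_combination a₂ * 2 * h1
  · have e : ∀ b₀ b₁ b₂ : ℂ, Fm m β G (l + 1 + 1) b₀ b₁ b₂ = fun _ => 0 := by
      intro b₀ b₁ b₂
      ext x
      simp [Fm]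
    simp [e, Mop]

theorem symb_G (hG : IsProfile m β G) : Symb (-(1 / (2 * (m : ℝ)))) G := by
  refine ⟨hG.smooth.contDiffOn, fun j => ?_⟩
  obtain ⟨C, hC⟩ := hG.symbol j
  refine ⟨|C|, fun ρ hρ => (hC ρ (by linarith)).trans ?_⟩
  have h1 : (1 + ρ) ^ (-(1 / (2 * (m : ℝ)) + j)) ≤ ρ ^ (-(1 / (2 * (m : ℝ)) + j)) :=
    Real.rpow_le_rpow_of_nonpos (by linarith) (by linarith) (neg_nonpos.2 (by positivity))
  rw [show -(1 / (2 * (m : ℝ))) - j = -(1 / (2 * (m : ℝ)) + j) by ring]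
  exact mul_le_mul (le_abs_self _) h1 (by positivity) (abs_nonneg _)

theorem symb_pow {M : ℝ} {F : ℝ → ℂ} (h : Symb M F) (n : ℕ) :
    Symb (n * M) fun x => F x ^ n := by
  induction n with
  | zero => simpa using Symb.const 1
  | succ n ih =>
    have := ih.mul h
    rw [show ((n + 1 : ℕ) : ℝ) * M = n * M + M by push_cast; ring]
    simpa only [pow_succ] using this

theorem symb_Fm (hG : IsProfile m β G) (l : ℕ) (a₀ a₁ a₂ : ℂ) :
    Symb (-((l : ℝ) / 2)) (Fm m β G l a₀ a₁ a₂) := by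
  have h := symb_G hG
  have ha : 0 ≤ 1 / (2 * (m : ℝ)) := by positivity
  unfold Fm
  split_ifs with h0 h1
  · subst h0
    have h2 : Symb (-(((0 : ℕ) : ℝ) / 2)) G := h.mono (by simp)
    have h3 : Symb (-(((0 : ℕ) : ℝ) / 2)) fun x => x * deriv G x :=
      h.der.id_mul.mono (by simp)
    exact ((h2.const_mul I).const_mul a₀).add (((h2.const_mul _).add h3).const_mul a₁)
  · subst h1
    exact ((h.der.mono (by push_cast; linarith)).const_mul 2).const_mul a₂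
  · exact Symb.zero _

theorem red_symF' (hG : ContDiff ℝ ∞ G) (l : ℕ) (a₀ a₁ a₂ : ℂ) {ρ : ℝ} (hρ : 0 < ρ) :
    red l (symF m β G l a₀ a₁ a₂) ρ = Fm m β G l a₀ a₁ a₂ ρ := by
  have h : ((Real.sqrt ρ : ℝ) : ℂ) ≠ 0 := Complex.ofReal_ne_zero.2 (Real.sqrt_pos.2 hρ).ne'
  rw [red, symF_eq hG, Real.sq_sqrt hρ.le]
  field_simp

theorem c2 {f : ℝ → ℂ} (hf : BddC 30 f) (r : ℝ) : ContDiffAt ℝ 2 f r :=
  (hf.smooth.of_le (by norm_num)).contDiffAt

theorem opF_sub {l : ℕ} {lam : ℂ} {f g f' g' : ℝ → ℂ} (hf : BddC 30 f) (hf' : BddC 30 f')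
    (r : ℝ) : opF m β G l lam (fun r => f r - f' r) (fun r => g r - g' r) r
      = opF m β G l lam f g r - opF m β G l lam f' g' r := by
  unfold opF
  rw [iteratedDeriv_fun_sub (c2 hf r) (c2 hf' r),
    deriv_fun_sub ((c2 hf r).differentiableAt (by simp)) ((c2 hf' r).differentiableAt (by simp))]
  ring

theorem opG_sub {l : ℕ} {lam : ℂ} {f g f' g' : ℝ → ℂ} (hg : BddC 30 g) (hg' : BddC 30 g')
    (r : ℝ) : opG m β G l lam (fun r => f r - f' r) (fun r => g r - g' r) r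
      = opG m β G l lam f g r - opG m β G l lam f' g' r := by
  unfold opG
  rw [iteratedDeriv_fun_sub (c2 hg r) (c2 hg' r),
    deriv_fun_sub ((c2 hg r).differentiableAt (by simp)) ((c2 hg' r).differentiableAt (by simp))]
  ring

theorem red_eqF {l : ℕ} {lam : ℂ} {f g SF SG : ℝ → ℂ} (h : RSol m β G l lam f g SF SG) {ρ : ℝ}
    (hρ : 0 < ρ) : Mop (l / 2 + lam + Lam m β) (6 + l) (red l f) ρ
      = pot1 m (G ρ) * red l f ρ + pot2 m (G ρ) * red l g ρ + red l SF ρ := by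
  have hr : 0 < Real.sqrt ρ := Real.sqrt_pos.2 hρ
  have h0 : ((Real.sqrt ρ : ℝ) : ℂ) ≠ 0 := Complex.ofReal_ne_zero.2 hr.ne'
  have hs : Real.sqrt ρ ^ 2 = ρ := Real.sq_sqrt hρ.le
  have h1 : ContDiffAt ℝ 2 (red l f) (Real.sqrt ρ ^ 2) := by
    rw [hs]
    exact ((contDiffOn_red l h.bf.smooth).contDiffAt (Ioi_mem_nhds hρ)).of_le (by norm_num)
  have h2 := opF_lift (m := m) (β := β) (G := G) (g := g) l lam hr h1 (lift_red l f hr)
  rw [h.eqF _ hr, hs] at h2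
  rw [red, red, red, h2]
  field_simp
  ring

end Modes

open Modes

theorem symG_eq (l : ℕ) (a₀ a₁ a₂ : ℂ) (r : ℝ) :
    symG m β G l a₀ a₁ a₂ r = conj (symF m β G l (conj a₀) (conj a₁) (conj a₂) r) := by
  unfold symG symF
  split_ifs <;> simp

theorem mode_eq (hm : 1 ≤ m) (hG : IsProfile m β G) (l : ℕ) (lam a₀ a₁ a₂ : ℂ) {r : ℝ}
    (hr : 0 < r) :
    opF m β G l lam (symF m β G l a₀ a₁ a₂) (symG m β G l a₀ a₁ a₂) r
        = I * symF m β G l (lam * a₀) ((lam - 1) * a₁) ((lam - 1 / 2) * a₂) r ∧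
      opG m β G l lam (symF m β G l a₀ a₁ a₂) (symG m β G l a₀ a₁ a₂) r
        = -I * symG m β G l (lam * a₀) ((lam - 1) * a₁) ((lam - 1 / 2) * a₂) r := by
  have key : ∀ lam a₀ a₁ a₂ : ℂ, opF m β G l lam (symF m β G l a₀ a₁ a₂) (symG m β G l a₀ a₁ a₂) r
      = I * symF m β G l (lam * a₀) ((lam - 1) * a₁) ((lam - 1 / 2) * a₂) r := by
    intro lam a₀ a₁ a₂
    rw [opF_lift l lam hr ((contDiff_Fm hG.smooth l a₀ a₁ a₂).of_le (Sym.le_infty 2)).contDiffAt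
      (Eventually.of_forall (symF_eq hG.smooth l a₀ a₁ a₂)), Mop_Fm hm hG l lam a₀ a₁ a₂
      (sq_nonneg r), symG_eq, symF_eq hG.smooth, symF_eq hG.smooth, symF_eq hG.smooth]
    simp only [map_mul, map_pow, Complex.conj_ofReal]
    ring
  refine ⟨key lam a₀ a₁ a₂, ?_⟩
  have e1 : (fun x => conj (symG m β G l a₀ a₁ a₂ x))
      = symF m β G l (conj a₀) (conj a₁) (conj a₂) := by
    ext x
    rw [symG_eq, Complex.conj_conj]
  have e2 : (fun x => conj (symF m β G l a₀ a₁ a₂ x))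
      = symG m β G l (conj a₀) (conj a₁) (conj a₂) := by
    ext x
    simp only [symG_eq, Complex.conj_conj]
  rw [opG_eq, e1, e2, key, symG_eq]
  simp only [map_mul, map_sub, map_div₀, map_one, map_ofNat, Complex.conj_I]

theorem bddC_sym (hG : IsProfile m β G) (l : ℕ) (a₀ a₁ a₂ : ℂ) :
    BddC 30 (symF m β G l a₀ a₁ a₂) ∧ BddC 30 (symG m β G l a₀ a₁ a₂) := by
  have ha : 0 ≤ 1 / (2 * (m : ℝ)) := by positivity
  have hQ : ∀ K, BddC K (Qr G) := bdd_sq hG.smooth ha hG.symbol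
  have hD : BddC 30 (DQr m β G) := by
    rw [show DQr m β G = fun r => Sym.DG (Lam m β) G (r ^ 2) from funext (DQr_eq hG.smooth)]
    exact bdd_sq (Sym.contDiff_DG _ hG.smooth) ha (Sym.symbol_DG _ hG.smooth hG.symbol) 30
  have key : ∀ a₀ a₁ a₂ : ℂ, BddC 30 (symF m β G l a₀ a₁ a₂) := by
    intro a₀ a₁ a₂
    unfold symF
    split_ifs
    · exact bdd_add (bdd_const_mul (bdd_const_mul (hQ 30) I) a₀) (bdd_const_mul hD a₁)
    · exact bdd_const_mul (bdd_deriv (hQ 31)) a₂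
    · exact bdd_zero
  refine ⟨key _ _ _, ?_⟩
  rw [show symG m β G l a₀ a₁ a₂ = _ from funext (symG_eq l a₀ a₁ a₂)]
  exact bdd_cj (key _ _ _)

theorem red_symF (l : ℕ) (hG : IsProfile m β G) (a₀ a₁ a₂ : ℂ) {ρ : ℝ} (hρ : 0 < ρ) :
    red l (symF m β G l a₀ a₁ a₂) ρ =
      if l = 0 then a₀ * (I * G ρ) + a₁ * (Lam m β * G ρ + ρ * deriv G ρ)
      else if l = 1 then a₂ * (2 * deriv G ρ) else 0 :=
  red_symF' hG.smooth l a₀ a₁ a₂ hρ

theorem symb_red_sym (hG : IsProfile m β G) (l : ℕ) (a₀ a₁ a₂ : ℂ) :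
    Symb (-((l : ℝ) / 2)) (red l (symF m β G l a₀ a₁ a₂)) ∧
      Symb (-((l : ℝ) / 2)) (red l (symG m β G l a₀ a₁ a₂)) := by
  have key : ∀ a₀ a₁ a₂ : ℂ, Symb (-((l : ℝ) / 2)) (red l (symF m β G l a₀ a₁ a₂)) :=
    fun a₀ a₁ a₂ => (symb_Fm hG l a₀ a₁ a₂).congr fun ρ hρ =>
      (red_symF' hG.smooth l a₀ a₁ a₂ hρ).symm
  refine ⟨key _ _ _, ?_⟩
  rw [show symG m β G l a₀ a₁ a₂ = _ from funext (symG_eq l a₀ a₁ a₂), red_cj]
  exact (key _ _ _).cj

theorem RSol.sub {l : ℕ} {lam : ℂ} {f g SF SG f' g' SF' SG' : ℝ → ℂ}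
    (h : RSol m β G l lam f g SF SG) (h' : RSol m β G l lam f' g' SF' SG') :
    RSol m β G l lam (fun r => f r - f' r) (fun r => g r - g' r) (fun r => SF r - SF' r)
      (fun r => SG r - SG' r) :=
  ⟨bdd_sub h.bf h'.bf, bdd_sub h.bg h'.bg,
    fun r hr => by rw [opF_sub h.bf h'.bf, h.eqF r hr, h'.eqF r hr],
    fun r hr => by rw [opG_sub h.bg h'.bg, h.eqG r hr, h'.eqG r hr]⟩

theorem RSol.const_mul {l : ℕ} {lam : ℂ} {f g SF SG : ℝ → ℂ} (h : RSol m β G l lam f g SF SG)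
    (c : ℂ) : RSol m β G l lam (fun r => c * f r) (fun r => c * g r) (fun r => c * SF r)
      (fun r => c * SG r) := by
  refine ⟨bdd_const_mul h.bf c, bdd_const_mul h.bg c, fun r hr => ?_, fun r hr => ?_⟩
  · rw [← h.eqF r hr]
    unfold opF
    rw [iteratedDeriv_const_mul_field, deriv_const_mul_field]
    ring
  · rw [← h.eqG r hr]
    unfold opG
    rw [iteratedDeriv_const_mul_field, deriv_const_mul_field]
    ring

theorem RSol.swap {l : ℕ} {lam : ℂ} {f g SF SG : ℝ → ℂ} (h : RSol m β G l lam f g SF SG) :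
    RSol m β G l (conj lam) (fun r => conj (g r)) (fun r => conj (f r)) (fun r => conj (SG r))
      (fun r => conj (SF r)) := by
  refine ⟨bdd_cj h.bg, bdd_cj h.bf, fun r hr => ?_, fun r hr => ?_⟩
  · rw [← h.eqG r hr, opG_eq, Complex.conj_conj]
  · rw [← h.eqF r hr, opF_eq, Complex.conj_conj]

theorem RSol.redSol {l : ℕ} {lam : ℂ} {f g SF SG : ℝ → ℂ} (h : RSol m β G l lam f g SF SG) :
    RedSol (fun ρ => pot1 m (G ρ)) (fun ρ => pot2 m (G ρ)) (l / 2 + lam + Lam m β)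
      (l / 2 + conj lam + Lam m β) (6 + l) (red l f) (fun ρ => conj (red l g ρ)) (red l SF)
      (fun ρ => conj (red l SG ρ)) := by
  refine ⟨contDiffOn_red l h.bf.smooth, ?_, fun ρ hρ => ?_, fun ρ hρ => ?_⟩
  · rw [← red_cj]
    exact contDiffOn_red l (bdd_cj h.bg).smooth
  · rw [red_eqF h hρ, Complex.conj_conj]
  · have := red_eqF h.swap hρ
    simpa only [red_cj] using this

theorem RSol.unique (hG : IsProfile m β G) {l : ℕ} {lam : ℂ} {f g : ℝ → ℂ}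
    (h : RSol m β G l lam f g 0 0) {r₀ : ℝ} (hr : 0 < r₀) (h₀ : f r₀ = 0) (h₁ : deriv f r₀ = 0)
    (h₂ : g r₀ = 0) (h₃ : deriv g r₀ = 0) : ∀ r : ℝ, 0 < r → f r = 0 ∧ g r = 0 := by
  intro r hr'
  have hR := h.redSol
  have hr0 : (r₀ : ℂ) ≠ 0 := Complex.ofReal_ne_zero.2 hr.ne'
  have c2' : ∀ {F : ℝ → ℂ}, ContDiffOn ℝ 30 F (Ioi 0) → ∀ ρ : ℝ, 0 < ρ → ContDiffAt ℝ 2 F ρ :=
    fun hF ρ hρ => (hF.contDiffAt (Ioi_mem_nhds hρ)).of_le (by norm_num)
  have data : ∀ {u : ℝ → ℂ}, BddC 30 u → u r₀ = 0 → deriv u r₀ = 0 →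
      red l u (r₀ ^ 2) = 0 ∧ deriv (red l u) (r₀ ^ 2) = 0 := by
    intro u hu e₀ e₁
    have a₀ : red l u (r₀ ^ 2) = 0 := by rw [red, Real.sqrt_sq hr.le, e₀, zero_div]
    have a₁ := (deriv_lift l hr (c2' (contDiffOn_red l hu.smooth) _ (by positivity))
      (lift_red l u hr)).eq_of_nhds
    rw [e₁, a₀] at a₁
    refine ⟨a₀, ?_⟩
    simpa [hr0] using a₁
  obtain ⟨d₀, d₁⟩ := data h.bf h₀ h₁
  obtain ⟨d₂, d₃⟩ := data h.bg h₂ h₃
  set a : ℝ := min (r₀ ^ 2) (r ^ 2) with ha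
  set b : ℝ := max (r₀ ^ 2) (r ^ 2) with hb
  have ha0 : 0 < a := lt_min (by positivity) (by positivity)
  have hc := hG.smooth.continuous
  have hV : Continuous fun ρ => ‖pot1 m (G ρ)‖ + ‖pot2 m (G ρ)‖ := by
    unfold pot1 pot2
    fun_prop
  obtain ⟨K, hK⟩ := (isCompact_Icc (a := a) (b := b)).exists_bound_of_continuousOn hV.continuousOn
  set A : ℂ := l / 2 + lam + Lam m β with hA
  set A' : ℂ := l / 2 + conj lam + Lam m β with hA'
  obtain ⟨C, -, hC⟩ := stab2 ha0 b (‖A‖ + ‖A'‖ + ((6 + l : ℕ) : ℝ) + |K|)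
  have n1 := norm_nonneg A
  have n2 := norm_nonneg A'
  have n3 : (0 : ℝ) ≤ ((6 + l : ℕ) : ℝ) := Nat.cast_nonneg _
  have n4 := abs_nonneg K
  have key := hC A A' (6 + l) (6 + l) (red l f) (fun ρ => conj (red l g ρ)) (fun _ => 0)
    (by linarith) (by linarith) (by linarith) (by linarith)
    (fun ρ hρ => c2' hR.smoothF ρ (ha0.trans_le hρ.1))
    (fun ρ hρ => c2' hR.smoothH ρ (ha0.trans_le hρ.1)) continuousOn_const (fun _ _ => le_rfl)
    (fun ρ hρ => by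
      have hρ0 := ha0.trans_le hρ.1
      have k1 := (le_abs_self _).trans ((hK ρ hρ).trans (le_abs_self K))
      have z : red l (0 : ℝ → ℂ) ρ = 0 := by simp [red]
      rw [hR.eqF ρ hρ0, hR.eqH ρ hρ0, z, map_zero, add_zero, add_zero, add_zero]
      have e1 := norm_add_le (pot1 m (G ρ) * red l f ρ) (pot2 m (G ρ) * conj (conj (red l g ρ)))
      have e2 := norm_add_le (pot1 m (G ρ) * conj (red l g ρ)) (pot2 m (G ρ) * conj (red l f ρ))
      simp only [norm_mul, Complex.norm_conj] at e1 e2 ⊢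
      have p1 := norm_nonneg (red l f ρ)
      have p2 := norm_nonneg (red l g ρ)
      nlinarith [mul_le_mul_of_nonneg_right k1 (add_nonneg p1 p2),
        mul_nonneg (add_nonneg (add_nonneg n1 n2) n3) (add_nonneg p1 p2)])
    (r₀ ^ 2) ⟨min_le_left _ _, le_max_left _ _⟩ (r ^ 2) ⟨min_le_right _ _, le_max_right _ _⟩
  rw [deriv_cj] at key
  simp only [d₀, d₁, d₂, d₃, map_zero, norm_zero, add_zero, intervalIntegral.integral_zero,
    mul_zero, Complex.norm_conj] at key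
  have q1 := norm_nonneg (red l f (r ^ 2))
  have q2 := norm_nonneg (deriv (red l f) (r ^ 2))
  have q3 := norm_nonneg (red l g (r ^ 2))
  have q4 := norm_nonneg (deriv (red l g) (r ^ 2))
  have z1 : red l f (r ^ 2) = 0 := norm_eq_zero.1 (by linarith)
  have z2 : red l g (r ^ 2) = 0 := norm_eq_zero.1 (by linarith)
  constructor
  · rw [(lift_red l f hr').eq_of_nhds, z1, mul_zero]
  · rw [(lift_red l g hr').eq_of_nhds, z2, mul_zero]

theorem Triv.conj {l : ℕ} {lam : ℂ} (h : Triv m β G l lam) : Triv m β G l (conj lam) := by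
  intro f g hs r hr
  have h1 := hs.swap
  simp only [Complex.conj_conj, Pi.zero_apply, map_zero] at h1
  have h2 := h _ _ h1 r hr
  simpa [and_comm] using h2

theorem msat_of_triv (hm : 1 ≤ m) (hG : IsProfile m β G) {l : ℕ} {lam : ℂ}
    (h : 2 ≤ ‖lam‖ ∨ 2 ≤ l) (ht : Triv m β G l lam) : MSat m β G l lam := by
  intro f g hf hg c₀ c₁ c₂ e
  rcases h with h | h
  · have n0 : lam ≠ 0 := by
      rintro rfl
      norm_num at h
    have n1 : lam - 1 ≠ 0 := by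
      rw [sub_ne_zero]
      rintro rfl
      norm_num at h
    have n2 : lam - 1 / 2 ≠ 0 := by
      rw [sub_ne_zero]
      rintro rfl
      norm_num at h
    refine ⟨-c₀ / lam, -c₁ / (lam - 1), -c₂ / (lam - 1 / 2), fun r hr => ?_⟩
    have hb := bddC_sym hG l (-c₀ / lam) (-c₁ / (lam - 1)) (-c₂ / (lam - 1 / 2))
    have hs : RSol m β G l lam
        (fun r => f r - symF m β G l (-c₀ / lam) (-c₁ / (lam - 1)) (-c₂ / (lam - 1 / 2)) r)
        (fun r => g r - symG m β G l (-c₀ / lam) (-c₁ / (lam - 1)) (-c₂ / (lam - 1 / 2)) r)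
        0 0 := by
      refine ⟨bdd_sub hf hb.1, bdd_sub hg hb.2, fun r hr => ?_, fun r hr => ?_⟩
      · rw [opF_sub hf hb.1, (e r hr).1, (mode_eq hm hG l lam _ _ _ hr).1,
          mul_div_cancel₀ _ n0, mul_div_cancel₀ _ n1, mul_div_cancel₀ _ n2]
        unfold symF
        split_ifs <;> simp only [Pi.zero_apply] <;> ring
      · rw [opG_sub hg hb.2, (e r hr).2, (mode_eq hm hG l lam _ _ _ hr).2,
          mul_div_cancel₀ _ n0, mul_div_cancel₀ _ n1, mul_div_cancel₀ _ n2]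
        unfold symG
        split_ifs <;> simp only [Pi.zero_apply] <;> ring
    have := ht _ _ hs r hr
    exact ⟨sub_eq_zero.1 this.1, sub_eq_zero.1 this.2⟩
  · have l0 : l ≠ 0 := by omega
    have l1 : l ≠ 1 := by omega
    refine ⟨0, 0, 0, fun r hr => ?_⟩
    simp only [symF, symG, l0, l1, if_false, mul_zero] at e ⊢
    exact ht f g ⟨hf, hg, fun r hr => (e r hr).1, fun r hr => (e r hr).2⟩ r hr

theorem symb_pot (hm : 1 ≤ m) (hG : IsProfile m β G) :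
    Symb (-1) (fun ρ => pot1 m (G ρ)) ∧ Symb (-1) (fun ρ => pot2 m (G ρ)) := by
  have h := symb_G hG
  obtain ⟨n, rfl⟩ : ∃ n, m = n + 1 := ⟨m - 1, by omega⟩
  have hn : ((n + 1 : ℕ) : ℝ) ≠ 0 := by positivity
  simp only [pot1, pot2, Sym.norm_pow_eq, Nat.add_sub_cancel]
  constructor
  · refine (((symb_pow h (n + 1)).mul (symb_pow h.cj (n + 1))).const_mul _).mono (le_of_eq ?_)
    field_simp
    ring
  · refine ((((symb_pow h n).mul (symb_pow h.cj n)).const_mul _).mul (symb_pow h 2)).mono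
      (le_of_eq ?_)
    field_simp
    push_cast
    ring

end Vale.Agent.P139Z
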