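import Vale.Agent.P139Z.Defs

/-!
Block NRM: scaled norms on the Wiener algebra and the nonlinearity.
-/

open Set Filter Topology MeasureTheory Complex
open scoped NNReal ENNReal ComplexConjugate ContDiff

namespace Vale.Agent.P139Z

open Vale.Agent.P139 Vale.Agent.P139.A Vale.Agent.P139.A.WA

variable {d k : ℕ}

theorem Nrm.wt_le {ρ : ℝ} (hρ : 0 ≤ ρ) {j : ℕ} (hj : j ≤ k) (n : Lat d) :
    (1 + ρ * ‖n‖) ^ j ≤ max 1 ρ ^ k * W k n := by
  have h1 : 0 ≤ ρ * ‖n‖ := by positivity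
  calc (1 + ρ * ‖n‖) ^ j ≤ (1 + ρ * ‖n‖) ^ k := pow_le_pow_right₀ (by linarith) hj
    _ ≤ (max 1 ρ * (1 + ‖n‖)) ^ k := by
        refine pow_le_pow_left₀ (by linarith) ?_ k
        have := mul_le_mul_of_nonneg_right (le_max_right 1 ρ) (norm_nonneg n)
        linarith [le_max_left 1 ρ]
    _ = _ := mul_pow _ _ _

theorem summable_nrm {ρ : ℝ} (hρ : 0 ≤ ρ) {j : ℕ} (hj : j ≤ k) (a : WA d k) :
    Summable fun n => (1 + ρ * ‖n‖) ^ j * ‖coef a n‖ := by
  refine Summable.of_nonneg_of_le (fun n => by positivity) (fun n => ?_)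
    (a.summable.mul_left (max 1 ρ ^ k))
  rw [← mul_assoc]
  exact mul_le_mul_of_nonneg_right (Nrm.wt_le hρ hj n) (norm_nonneg _)

theorem nrm_nonneg {ρ : ℝ} (hρ : 0 ≤ ρ) (j : ℕ) (a : WA d k) : 0 ≤ nrm ρ j a := tsum_nonneg fun n => by positivity

theorem nrm_add_le {ρ : ℝ} (hρ : 0 ≤ ρ) {j : ℕ} (hj : j ≤ k) (a b : WA d k) :
    nrm ρ j (a + b) ≤ nrm ρ j a + nrm ρ j b := by
  unfold nrm
  rw [← (summable_nrm hρ hj a).tsum_add (summable_nrm hρ hj b)]
  refine (summable_nrm hρ hj _).tsum_le_tsum (fun n => ?_)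
    ((summable_nrm hρ hj a).add (summable_nrm hρ hj b))
  rw [coef_add, ← mul_add]
  exact mul_le_mul_of_nonneg_left (norm_add_le _ _) (by positivity)

theorem nrm_neg (ρ : ℝ) (j : ℕ) (a : WA d k) : nrm ρ j (-a) = nrm ρ j a := by
  simp only [nrm, coef_neg, norm_neg]

theorem nrm_smul (ρ : ℝ) (j : ℕ) (c : ℂ) (a : WA d k) : nrm ρ j (c • a) = ‖c‖ * nrm ρ j a := by
  unfold nrm
  rw [← tsum_mul_left]
  exact tsum_congr fun n => by rw [coef_smul, norm_mul]; ring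

theorem nrm_star (ρ : ℝ) (j : ℕ) (a : WA d k) : nrm ρ j (star a) = nrm ρ j a := by
  unfold nrm
  rw [← (Equiv.neg (Lat d)).tsum_eq fun n => (1 + ρ * ‖n‖) ^ j * ‖coef a n‖]
  refine tsum_congr fun n => ?_
  rw [star_eq, coef_conjL, RCLike.norm_conj, Equiv.neg_apply, norm_neg]

theorem Nrm.mul_le {ρ : ℝ} (hρ : 0 ≤ ρ) {j i₁ i₂ i₃ i₄ : ℕ} (hj : j ≤ k) (h₁ : i₁ ≤ k)
    (h₂ : i₂ ≤ k) (h₃ : i₃ ≤ k) (h₄ : i₄ ≤ k) (c : ℝ) (a b : WA d k)
    (h : ∀ x y : ℝ, 0 ≤ x → 0 ≤ y → (1 + (x + y)) ^ j ≤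
      (1 + x) ^ i₁ * (1 + y) ^ i₂ + c * (1 + x) ^ i₃ * (1 + y) ^ i₄) :
    nrm ρ j (a * b) ≤ nrm ρ i₁ a * nrm ρ i₂ b + c * nrm ρ i₃ a * nrm ρ i₄ b := by
  let F : ℕ → ℕ → Lat d × Lat d → ℝ := fun i i' q =>
    ((1 + ρ * ‖q.1‖) ^ i * ‖coef a q.1‖) * ((1 + ρ * ‖q.2‖) ^ i' * ‖coef b q.2‖)
  have hF : ∀ i i', i ≤ k → i' ≤ k → Summable (F i i') := fun i i' hi hi' =>
    (summable_nrm hρ hi a).mul_of_nonneg (summable_nrm hρ hi' b) (fun n => by positivity)
      fun n => by positivity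
  have hT : ∀ i i', i ≤ k → i' ≤ k → nrm ρ i a * nrm ρ i' b = ∑' q, F i i' q :=
    fun i i' hi hi' => (summable_nrm hρ hi a).tsum_mul_tsum (summable_nrm hρ hi' b) (hF i i' hi hi')
  have hG : Summable fun q => F i₁ i₂ q + c * F i₃ i₄ q :=
    (hF _ _ h₁ h₂).add ((hF _ _ h₃ h₄).mul_left c)
  have hS : Summable fun p : Lat d × Lat d =>
      F i₁ i₂ (p.2, p.1 - p.2) + c * F i₃ i₄ (p.2, p.1 - p.2) := (shear d).summable_iff.2 hG
  have e : nrm ρ i₁ a * nrm ρ i₂ b + c * nrm ρ i₃ a * nrm ρ i₄ b =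
      ∑' n, ∑' m, (F i₁ i₂ (m, n - m) + c * F i₃ i₄ (m, n - m)) := by
    rw [mul_assoc, hT _ _ h₁ h₂, hT _ _ h₃ h₄, ← tsum_mul_left,
      ← (hF _ _ h₁ h₂).tsum_add ((hF _ _ h₃ h₄).mul_left c), ← hS.tsum_prod]
    exact ((shear d).tsum_eq fun q => F i₁ i₂ q + c * F i₃ i₄ q).symm
  rw [e]
  refine (summable_nrm hρ hj _).tsum_le_tsum (fun n => ?_) hS.prod
  rw [coef_mul]
  refine (mul_le_mul_of_nonneg_left (norm_tsum_le_tsum_norm (summable_conv_norm a b n))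
    (by positivity)).trans ?_
  rw [← tsum_mul_left]
  refine ((summable_conv_norm a b n).mul_left _).tsum_le_tsum (fun m => ?_) (hS.prod_factor n)
  have h1 : ‖n‖ ≤ ‖m‖ + ‖n - m‖ := by simpa using norm_add_le m (n - m)
  have h2 : (1 + ρ * ‖n‖) ^ j ≤ (1 + (ρ * ‖m‖ + ρ * ‖n - m‖)) ^ j :=
    pow_le_pow_left₀ (by positivity) (by nlinarith) j
  have h3 := mul_le_mul_of_nonneg_right (h2.trans (h _ _ (by positivity) (by positivity)))
    (mul_nonneg (norm_nonneg (coef a m)) (norm_nonneg (coef b (n - m))))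
  rw [norm_mul]
  refine h3.trans (le_of_eq ?_)
  simp only [F]
  ring

theorem nrm_mul_le {ρ : ℝ} (hρ : 0 ≤ ρ) {j : ℕ} (hj : j ≤ k) (a b : WA d k) :
    nrm ρ j (a * b) ≤ nrm ρ j a * nrm ρ j b := by
  have := Nrm.mul_le hρ hj hj hj hj hj 0 a b fun x y hx hy => by
    rw [zero_mul, zero_mul, add_zero, ← mul_pow]
    exact pow_le_pow_left₀ (by positivity) (by nlinarith [mul_nonneg hx hy]) j
  simpa using this

theorem Nrm.pow_LY (k : ℕ) {x y : ℝ} (hx : 0 ≤ x) (hy : 0 ≤ y) :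
    (1 + (x + y)) ^ k ≤ (1 + y) ^ k + k * (1 + x) ^ k * (1 + y) ^ (k - 1) := by
  rcases k with _ | k
  · simp
  have h1 : ∀ j : ℕ, (1 + (x + y)) ^ (j + 1) ≤
      (1 + y) ^ (j + 1) + (j + 1) * x * (1 + (x + y)) ^ j := by
    intro j
    induction j with
    | zero => simp only [Nat.cast_zero, pow_zero, zero_add, pow_one]; linarith
    | succ j ih =>
      have h2 : (1 + y) ^ (j + 1) ≤ (1 + (x + y)) ^ (j + 1) :=
        pow_le_pow_left₀ (by positivity) (by linarith) _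
      have h3 := mul_le_mul_of_nonneg_left ih (show 0 ≤ 1 + (x + y) by positivity)
      have h4 := mul_le_mul_of_nonneg_left h2 hx
      push_cast
      rw [pow_succ' (1 + (x + y)) (j + 1), pow_succ' (1 + y) (j + 1)]
      rw [pow_succ' (1 + (x + y)) j] at h3 h4 ⊢
      nlinarith
  have h5 : (1 + (x + y)) ^ k ≤ (1 + x) ^ k * (1 + y) ^ k := by
    rw [← mul_pow]
    exact pow_le_pow_left₀ (by positivity) (by nlinarith [mul_nonneg hx hy]) k
  have h6 : x * (1 + (x + y)) ^ k ≤ (1 + x) * ((1 + x) ^ k * (1 + y) ^ k) :=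
    mul_le_mul (by linarith) h5 (by positivity) (by positivity)
  have h7 := mul_le_mul_of_nonneg_left h6 (show (0 : ℝ) ≤ k + 1 by positivity)
  have h8 := h1 k
  push_cast
  rw [pow_succ' (1 + x) k]
  linarith

theorem nrm_mul_le_LY {ρ : ℝ} (hρ : 0 ≤ ρ) (a b : WA d k) :
    nrm ρ k (a * b) ≤ nrm ρ 0 a * nrm ρ k b + k * nrm ρ k a * nrm ρ (k - 1) b := 
  Nrm.mul_le hρ le_rfl (Nat.zero_le k) le_rfl le_rfl (Nat.sub_le k 1) k a b
    fun x y hx hy => by simpa using Nrm.pow_LY k hx hy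

theorem nrm_mono_order {ρ : ℝ} (hρ : 0 ≤ ρ) {i j : ℕ} (hij : i ≤ j) (hj : j ≤ k) (a : WA d k) :
    nrm ρ i a ≤ nrm ρ j a := 
  (summable_nrm hρ (hij.trans hj) a).tsum_le_tsum (fun n => mul_le_mul_of_nonneg_right
    (pow_le_pow_right₀ (le_add_of_nonneg_right (by positivity)) hij) (norm_nonneg _))
    (summable_nrm hρ hj a)

theorem nrm_scale_le {ρ ρ' c : ℝ} (hρ : 0 ≤ ρ) (hρ' : 0 ≤ ρ') (hc : 1 ≤ c) (h : ρ' ≤ c * ρ) {j : ℕ}
    (hj : j ≤ k) (a : WA d k) : nrm ρ' j a ≤ c ^ j * nrm ρ j a := by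
  unfold nrm
  rw [← tsum_mul_left]
  refine (summable_nrm hρ' hj a).tsum_le_tsum (fun n => ?_) ((summable_nrm hρ hj a).mul_left _)
  rw [← mul_assoc, ← mul_pow]
  refine mul_le_mul_of_nonneg_right (pow_le_pow_left₀ (by positivity) ?_ j) (norm_nonneg _)
  nlinarith [mul_le_mul_of_nonneg_right h (norm_nonneg n)]

theorem nrm_one (a : WA d k) : nrm 1 k a = ‖a‖ := by
  rw [norm_eq]
  simp only [nrm, one_mul, W]

theorem Nrm.le_norm {ρ : ℝ} (hρ : 0 ≤ ρ) {j : ℕ} (hj : j ≤ k) (a : WA d k) :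
    nrm ρ j a ≤ max 1 ρ ^ k * ‖a‖ := by
  rw [norm_eq, ← tsum_mul_left]
  refine (summable_nrm hρ hj a).tsum_le_tsum (fun n => ?_) (a.summable.mul_left _)
  rw [← mul_assoc]
  exact mul_le_mul_of_nonneg_right (Nrm.wt_le hρ hj n) (norm_nonneg _)

theorem continuous_nrm {j : ℕ} (hj : j ≤ k) :
    ContinuousOn (fun p : ℝ × WA d k => nrm p.1 j p.2) (Ici 0 ×ˢ univ) := by
  rintro ⟨ρ, a⟩ ⟨hρ, -⟩
  have hρ0 : 0 ≤ ρ := hρ
  have h1 : ContinuousOn (fun r : ℝ => nrm r j a) (Icc 0 (ρ + 1)) := by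
    refine continuousOn_tsum (fun n => by fun_prop)
      (summable_nrm (by linarith : 0 ≤ ρ + 1) hj a) fun n r hr => ?_
    have := hr.1
    rw [Real.norm_of_nonneg (by positivity)]
    exact mul_le_mul_of_nonneg_right (pow_le_pow_left₀ (by positivity)
      (by nlinarith [hr.2, norm_nonneg n]) j) (norm_nonneg _)
  have h2 : ContinuousWithinAt (fun r : ℝ => nrm r j a) (Ici 0) ρ :=
    (h1 ρ ⟨hρ0, by linarith⟩).mono_of_mem_nhdsWithin (by
      rw [← Ici_inter_Iic]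
      exact inter_mem_nhdsWithin _ (Iic_mem_nhds (by linarith)))
  have h3 : ContinuousWithinAt (fun p : ℝ × WA d k => nrm p.1 j a) (Ici 0 ×ˢ univ) (ρ, a) :=
    ContinuousWithinAt.comp (g := fun r : ℝ => nrm r j a) (f := Prod.fst) (t := Ici 0) h2
      continuousWithinAt_fst fun p hp => hp.1
  have h4 : Tendsto (fun p : ℝ × WA d k => nrm p.1 j p.2 - nrm p.1 j a)
      (𝓝[Ici 0 ×ˢ univ] (ρ, a)) (𝓝 0) := by
    have h5 : Tendsto (fun p : ℝ × WA d k => max 1 p.1 ^ k * ‖p.2 - a‖)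
        (𝓝[Ici 0 ×ˢ univ] (ρ, a)) (𝓝 0) :=
      (Continuous.tendsto' (by fun_prop) (ρ, a) 0 (by simp)).mono_left nhdsWithin_le_nhds
    refine squeeze_zero_norm' ?_ h5
    filter_upwards [self_mem_nhdsWithin] with p hp
    have h6 := nrm_add_le hp.1 hj (p.2 - a) a
    have h7 := nrm_add_le hp.1 hj (-(p.2 - a)) p.2
    rw [sub_add_cancel] at h6
    rw [nrm_neg, neg_sub, sub_add_cancel] at h7
    have h8 := Nrm.le_norm hp.1 hj (p.2 - a)
    rw [Real.norm_eq_abs, abs_le]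
    constructor <;> linarith
  have := h4.add h3
  simpa [ContinuousWithinAt] using this

namespace Nrm

section Abstract

variable {W : Type*} [CommRing W] [StarRing W]

/-- A submultiplicative and star invariant size function. -/
structure SN (N : W → ℝ) : Prop where
  nonneg : ∀ a, 0 ≤ N a
  add : ∀ a b, N (a + b) ≤ N a + N b
  mul : ∀ a b, N (a * b) ≤ N a * N b
  star : ∀ a, N (star a) = N a

theorem SN.mul_le {N : W → ℝ} (h : SN N) {a b : W} {A B : ℝ} (ha : N a ≤ A) (hb : N b ≤ B) :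
    N (a * b) ≤ A * B :=
  (h.mul a b).trans (mul_le_mul ha hb (h.nonneg b) ((h.nonneg a).trans ha))

theorem SN.add_le {N : W → ℝ} (h : SN N) {a b : W} {A B : ℝ} (ha : N a ≤ A) (hb : N b ≤ B) :
    N (a + b) ≤ A + B := (h.add a b).trans (add_le_add ha hb)

theorem SN.star_le {N : W → ℝ} (h : SN N) {a : W} {A : ℝ} (ha : N a ≤ A) : N (Star.star a) ≤ A := by
  rwa [h.star]

theorem SN.nl_le {N : W → ℝ} (h : SN N) {u : W} {R : ℝ} (hu : N u ≤ R) (m : ℕ) :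
    N ((u * Star.star u) ^ m * u) ≤ R ^ (2 * m + 1) := by
  induction m with
  | zero => simpa using hu
  | succ m ih =>
    rw [show (u * Star.star u) ^ (m + 1) * u = u * Star.star u * ((u * Star.star u) ^ m * u) by ring,
      show R ^ (2 * (m + 1) + 1) = R * R * R ^ (2 * m + 1) by ring]
    exact h.mul_le (h.mul_le hu (h.star_le hu)) ih

theorem nl_sub (m : ℕ) {R : ℝ} (hR : 0 ≤ R) : ∃ C : ℝ, 0 ≤ C ∧ ∀ N : W → ℝ, SN N → ∀ a b : W,
    N a ≤ R → N b ≤ R → N ((a * star a) ^ m * a - (b * star b) ^ m * b) ≤ C * N (a - b) := by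
  induction m with
  | zero => exact ⟨1, zero_le_one, fun N _ a b _ _ => by simp⟩
  | succ m ih =>
    obtain ⟨C, hC, ih⟩ := ih
    refine ⟨2 * R * R ^ (2 * m + 1) + R * R * C, by positivity, fun N h a b ha hb => ?_⟩
    have e : (a * star a) ^ (m + 1) * a - (b * star b) ^ (m + 1) * b =
        (a * star (a - b) + (a - b) * star b) * ((a * star a) ^ m * a)
          + b * star b * ((a * star a) ^ m * a - (b * star b) ^ m * b) := by
      rw [star_sub]; ring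
    rw [e]
    refine (h.add_le (h.mul_le (h.add_le (h.mul_le ha (h.star_le le_rfl))
      (h.mul_le le_rfl (h.star_le hb))) (h.nl_le ha m))
      (h.mul_le (h.mul_le hb (h.star_le hb)) (ih N h a b ha hb))).trans (le_of_eq ?_)
    ring

theorem nl_rem (m : ℕ) {R : ℝ} (hR : 0 ≤ R) : ∃ C : ℝ, 0 ≤ C ∧ ∀ N : W → ℝ, SN N → N 0 = 0 →
    ∀ q w : W, N q ≤ R → N w ≤ R →
      N (((q + w) * star (q + w)) ^ m * (q + w) - (q * star q) ^ m * q
        - (((m : W) + 1) * (q * star q) ^ m * w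
          + (m : W) * ((q * star q) ^ (m - 1) * (q * q)) * star w)) ≤ C * N w ^ 2 := by
  induction m with
  | zero => exact ⟨0, le_rfl, fun N _ h0 q w _ _ => by simp [h0]⟩
  | succ m ih =>
    obtain ⟨C, hC, ih⟩ := ih
    obtain ⟨K, hK, hs⟩ := nl_sub (W := W) m (show 0 ≤ R + R by positivity)
    refine ⟨R * R * C + 2 * R * K + (R + R) ^ (2 * m + 1), by positivity,
      fun N h h0 q w hq hw => ?_⟩
    have e : ((q + w) * star (q + w)) ^ (m + 1) * (q + w) - (q * star q) ^ (m + 1) * q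
        - ((((m + 1 : ℕ) : W) + 1) * (q * star q) ^ (m + 1) * w
          + ((m + 1 : ℕ) : W) * ((q * star q) ^ (m + 1 - 1) * (q * q)) * star w) =
        q * star q * (((q + w) * star (q + w)) ^ m * (q + w) - (q * star q) ^ m * q
          - (((m : W) + 1) * (q * star q) ^ m * w
            + (m : W) * ((q * star q) ^ (m - 1) * (q * q)) * star w))
        + (q * star w + star q * w)
          * (((q + w) * star (q + w)) ^ m * (q + w) - (q * star q) ^ m * q)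
        + w * star w * (((q + w) * star (q + w)) ^ m * (q + w)) := by
      rw [pow_succ' ((q + w) * star (q + w)) m]
      generalize ((q + w) * star (q + w)) ^ m = P
      rw [star_add]
      rcases m with _ | m
      · push_cast; ring
      · simp only [Nat.add_sub_cancel]
        push_cast; ring
    have h1 := hs N h (q + w) q (h.add_le hq hw) (by linarith)
    rw [add_sub_cancel_left] at h1
    rw [e]
    refine (h.add_le (h.add_le (h.mul_le (h.mul_le hq (h.star_le hq)) (ih N h h0 q w hq hw))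
      (h.mul_le (h.add_le (h.mul_le hq (h.star_le le_rfl)) (h.mul_le (h.star_le hq) le_rfl)) h1))
      (h.mul_le (h.mul_le le_rfl (h.star_le le_rfl)) (h.nl_le (h.add_le hq hw) m))).trans
      (le_of_eq ?_)
    ring

end Abstract

theorem sn {ρ : ℝ} (hρ : 0 ≤ ρ) {j : ℕ} (hj : j ≤ k) : SN (nrm ρ j : WA d k → ℝ) :=
  ⟨nrm_nonneg hρ j, nrm_add_le hρ hj, nrm_mul_le hρ hj, nrm_star ρ j⟩

end Nrm

/-- Lipschitz bound for the nonlinearity. -/
theorem nrm_nl_sub (m : ℕ) (R : ℝ) : ∃ C : ℝ, 0 ≤ C ∧ ∀ ρ : ℝ, 0 ≤ ρ → ∀ j ≤ k, ∀ a b : WA d k,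
    nrm ρ j a ≤ R → nrm ρ j b ≤ R → nrm ρ j (nl m a - nl m b) ≤ C * nrm ρ j (a - b) := by
  obtain ⟨C, hC, h⟩ := Nrm.nl_sub (W := WA d k) m (le_max_right R 0)
  exact ⟨C, hC, fun ρ hρ j hj a b ha hb =>
    h _ (Nrm.sn hρ hj) a b (ha.trans (le_max_left _ _)) (hb.trans (le_max_left _ _))⟩

/-- Second-order expansion of the nonlinearity. -/
theorem nrm_nl_rem {m : ℕ} (_hm : 1 ≤ m) (R : ℝ) : ∃ C : ℝ, 0 ≤ C ∧ ∀ ρ : ℝ, 0 ≤ ρ →
    ∀ q w : WA d k, nrm ρ k q ≤ R → nrm ρ k w ≤ R →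
      nrm ρ k (nl m (q + w) - nl m q - (((m : ℂ) + 1) • (q * star q) ^ m * w
        + (m : ℂ) • ((q * star q) ^ (m - 1) * (q * q)) * star w)) ≤ C * nrm ρ k w ^ 2 := by
  obtain ⟨C, hC, h⟩ := Nrm.nl_rem (W := WA d k) m (le_max_right R 0)
  refine ⟨C, hC, fun ρ hρ q w hq hw => ?_⟩
  have := h _ (Nrm.sn hρ le_rfl) (by simp [nrm]) q w (hq.trans (le_max_left _ _))
    (hw.trans (le_max_left _ _))
  simpa only [nl, Algebra.smul_def, map_add, map_natCast, map_one] using this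

/-- A solution of the equation on the torus, continuous in the weighted Wiener algebra. -/
structure IsWSol (m : ℕ) (T : ℝ) (U : ℝ → WA d k) : Prop where
  cont : ContinuousOn U (Icc 0 T)
  eqn : ∀ t ∈ Icc 0 T, ∀ n, HasDerivWithinAt (fun s => coef (U s) n)
    (-I * sqNorm n * coef (U t) n - I * coef (nl m (U t)) n) (Icc 0 T) t

end Vale.Agent.P139Z
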