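import Vale.Agent.P139Z.ODefs
import Vale.Agent.P139Z.OBase.Uniq

/-! Existence, uniqueness, stability and regularity for the radial equations. -/

open Set Filter Topology MeasureTheory Complex
open scoped NNReal ENNReal ComplexConjugate ContDiff

namespace Vale.Agent.P139Z

theorem exists_free (A : ℂ) (B : ℕ) {S : ℝ → ℂ} (hS : ContDiffOn ℝ ∞ S (Ioi 0)) {ρ₀ : ℝ}
    (hρ : 0 < ρ₀) (y₀ y₁ : ℂ) :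
    ∃ F : ℝ → ℂ, ContDiffOn ℝ ∞ F (Ioi 0) ∧ (∀ ρ : ℝ, 0 < ρ → Mop A B F ρ = S ρ) ∧
      F ρ₀ = y₀ ∧ deriv F ρ₀ = y₁ := by
  obtain ⟨F, hF, e, h₀, h₁⟩ := OBase.exists_gen A B (g := fun ρ _ => S ρ) (L := 0) le_rfl
    (hS.continuousOn.comp continuous_fst.continuousOn fun q hq => hq.1)
    (fun _ _ _ _ => by simp) hρ y₀ y₁
  exact ⟨F, OBase.smooth_gen isOpen_Ioi subset_rfl hF
    (fun n _ => contDiffOn_infty.1 hS n) e, e, h₀, h₁⟩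

theorem exists_semi (A : ℂ) (B : ℕ) {N : ℂ → ℂ} {L : ℝ≥0} (hN : LipschitzWith L N) {ρ₀ : ℝ}
    (hρ : 0 < ρ₀) (y₀ y₁ : ℂ) :
    ∃ F : ℝ → ℂ, ContDiffOn ℝ 2 F (Ioi 0) ∧ (∀ ρ : ℝ, 0 < ρ → Mop A B F ρ = N (F ρ)) ∧
      F ρ₀ = y₀ ∧ deriv F ρ₀ = y₁ :=
  OBase.exists_gen A B (g := fun _ y => N y) L.coe_nonneg
    (hN.continuous.comp continuous_snd).continuousOn
    (fun _ _ y z => by simpa only [dist_eq_norm] using hN.dist_le_mul y z) hρ y₀ y₁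

/-- Gronwall estimate for a pair, with an integrable remainder. -/
theorem stab2 {a : ℝ} (ha : 0 < a) (b K : ℝ) :
    ∃ C : ℝ, 0 < C ∧ ∀ (A A' : ℂ) (B B' : ℕ) (F H : ℝ → ℂ) (s : ℝ → ℝ), ‖A‖ ≤ K → ‖A'‖ ≤ K →
      (B : ℝ) ≤ K → (B' : ℝ) ≤ K → (∀ ρ ∈ Icc a b, ContDiffAt ℝ 2 F ρ) →
      (∀ ρ ∈ Icc a b, ContDiffAt ℝ 2 H ρ) → ContinuousOn s (Icc a b) → (∀ ρ ∈ Icc a b, 0 ≤ s ρ) →
      (∀ ρ ∈ Icc a b, ‖Mop A B F ρ‖ + ‖Mop A' B' H ρ‖ ≤ K * (‖F ρ‖ + ‖H ρ‖) + s ρ) →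
      ∀ ρ₀ ∈ Icc a b, ∀ ρ ∈ Icc a b, ‖F ρ‖ + ‖deriv F ρ‖ + ‖H ρ‖ + ‖deriv H ρ‖ ≤
        C * (‖F ρ₀‖ + ‖deriv F ρ₀‖ + ‖H ρ₀‖ + ‖deriv H ρ₀‖ + ∫ x in a..b, s x) :=
  OBase.stab2 ha b K

theorem free_unique {A : ℂ} {B : ℕ} {F H : ℝ → ℂ} (hF : ContDiffOn ℝ 2 F (Ioi 0))
    (hH : ContDiffOn ℝ 2 H (Ioi 0)) (h : ∀ ρ : ℝ, 0 < ρ → Mop A B F ρ = Mop A B H ρ) {ρ₀ : ℝ}
    (hρ : 0 < ρ₀) (h₀ : F ρ₀ = H ρ₀) (h₁ : deriv F ρ₀ = deriv H ρ₀) : EqOn F H (Ioi 0) :=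
  OBase.free_unique hF hH h hρ h₀ h₁

theorem semi_unique {A : ℂ} {B m : ℕ} {a b : ℝ} (ha : 0 ≤ a) {F H : ℝ → ℂ}
    (hF : ContDiffOn ℝ 2 F (Ioo a b)) (hH : ContDiffOn ℝ 2 H (Ioo a b))
    (eF : ∀ ρ ∈ Ioo a b, Mop A B F ρ = (‖F ρ‖ : ℂ) ^ (2 * m) * F ρ)
    (eH : ∀ ρ ∈ Ioo a b, Mop A B H ρ = (‖H ρ‖ : ℂ) ^ (2 * m) * H ρ) {ρ₀ : ℝ} (hρ : ρ₀ ∈ Ioo a b)
    (h₀ : F ρ₀ = H ρ₀) (h₁ : deriv F ρ₀ = deriv H ρ₀) : EqOn F H (Ioo a b) :=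
  OBase.semi_unique ha hF hH eF eH hρ h₀ h₁

theorem smooth_of_ode {A : ℂ} {B m : ℕ} {s : Set ℝ} (hs : IsOpen s) (hs' : s ⊆ Ioi 0) {F : ℝ → ℂ}
    (hF : ContDiffOn ℝ 2 F s) (e : ∀ ρ ∈ s, Mop A B F ρ = (‖F ρ‖ : ℂ) ^ (2 * m) * F ρ) :
    ContDiffOn ℝ ∞ F s :=
  OBase.smooth_gen hs hs' hF (fun _ h => OBase.contDiffOn_nl m h) e

theorem smooth_of_free {A : ℂ} {B : ℕ} {s : Set ℝ} (hs : IsOpen s) (hs' : s ⊆ Ioi 0)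
    {F S : ℝ → ℂ} (hF : ContDiffOn ℝ 2 F s) (hS : ContDiffOn ℝ ∞ S s)
    (e : ∀ ρ ∈ s, Mop A B F ρ = S ρ) : ContDiffOn ℝ ∞ F s :=
  OBase.smooth_gen hs hs' hF (fun n _ => contDiffOn_infty.1 hS n) e

/-- Joint continuity of free solutions in the parameters. -/
theorem free_cont {X : Type*} [MetricSpace X] {s : Set X} {A : X → ℂ} (hA : ContinuousOn A s)
    (B : ℕ) {F : X → ℝ → ℂ} (hF : ∀ p ∈ s, ContDiffOn ℝ 2 (F p) (Ioi 0))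
    (e : ∀ p ∈ s, ∀ ρ : ℝ, 0 < ρ → Mop (A p) B (F p) ρ = 0) {T : X → ℝ} (hT : ContinuousOn T s)
    (hT' : ∀ p ∈ s, 0 < T p) (h₀ : ContinuousOn (fun p => F p (T p)) s)
    (h₁ : ContinuousOn (fun p => deriv (F p) (T p)) s) :
    ContinuousOn (fun q : X × ℝ => F q.1 q.2) (s ×ˢ Ioi 0) ∧
      ContinuousOn (fun q : X × ℝ => deriv (F q.1) q.2) (s ×ˢ Ioi 0) :=
  OBase.free_cont hA B hF e hT hT' h₀ h₁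

end Vale.Agent.P139Z
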