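import Vale.Agent.P139Z.Per.Ana

/-!
Block PER: transfer between the whole space and the torus of scale `ρ`, through the cells of the
lattice `ρ ℤ^d` in frequency space.
-/

open Set Filter Topology MeasureTheory Complex
open scoped NNReal ENNReal ComplexConjugate ContDiff

namespace Vale.Agent.P139Z

open Vale.Agent.P139 Vale.Agent.P139.A Vale.Agent.P139.A.WA XW Per

variable {d k : ℕ}

theorem exists_per (d k : ℕ) (ρ : ℝ) : ∃ L : XW d k →L[ℂ] WA d k, 0 < ρ →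
    ∀ F n, coef (L F) n = ∫ ξ in cell ρ n, fn F ξ := by
  by_cases hρ : 0 < ρ
  · obtain ⟨L, hL⟩ := exists_cellOp (d := d) (k := k) (k' := k) hρ (φ := fun _ => 1)
      aestronglyMeasurable_const (C := (1 + ρ / 2) ^ k) fun ξ => by
        rw [norm_one, mul_one]; exact w_rd_le hρ k ξ
    exact ⟨L, fun _ F n => by simpa only [one_mul] using hL F n⟩
  · exact ⟨0, fun h => absurd h hρ⟩

/-- From the whole space to the torus. -/
noncomputable def per (ρ : ℝ) : XW d k →L[ℂ] WA d k := (exists_per d k ρ).choose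

theorem coef_per {ρ : ℝ} (hρ : 0 < ρ) (F : XW d k) (n : Lat d) :
    coef (per ρ F) n = ∫ ξ in cell ρ n, fn F ξ := (exists_per d k ρ).choose_spec hρ F n

theorem extn_aux {ρ : ℝ} (hρ : 0 < ρ) {j : ℕ} (hj : j ≤ k) (a : WA d k) :
    (Integrable fun ξ : Fq d => (wt j ξ : ℂ) * (((ρ : ℂ) ^ d)⁻¹ * coef a (rd ρ ξ))) ∧
      ∫ ξ : Fq d, wt j ξ * ‖((ρ : ℂ) ^ d)⁻¹ * coef a (rd ρ ξ)‖ ≤ (1 + ρ / 2) ^ j * nrm ρ j a := by
  have hs := summable_nrm hρ hj a
  obtain ⟨h1, h2⟩ := pc (c := fun n => (1 + ρ * ‖n‖) ^ j * ‖coef a n‖) hρ hs.norm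
  have h3 : ∀ ξ : Fq d, wt j ξ * ‖((ρ : ℂ) ^ d)⁻¹ * coef a (rd ρ ξ)‖ ≤ (1 + ρ / 2) ^ j * (ρ ^ d)⁻¹ *
      ((1 + ρ * ‖rd ρ ξ‖) ^ j * ‖coef a (rd ρ ξ)‖) := fun ξ => by
    rw [norm_mul, norm_inv, norm_pow, norm_real, Real.norm_of_nonneg hρ.le]
    calc _ ≤ (1 + ρ / 2) ^ j * (1 + ρ * ‖rd ρ ξ‖) ^ j * ((ρ ^ d)⁻¹ * ‖coef a (rd ρ ξ)‖) := by
          gcongr; exact wt_le_rd hρ j ξ
      _ = _ := by ring
  constructor
  · refine (h1.const_mul ((1 + ρ / 2) ^ j * (ρ ^ d)⁻¹)).mono'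
      ((continuous_ofReal.comp (continuous_wt j)).aestronglyMeasurable.mul
      (((measurable_of_countable (coef a)).comp (measurable_rd ρ)).aestronglyMeasurable.const_mul _))
      (Eventually.of_forall fun ξ => ?_)
    rw [norm_mul, norm_real, Real.norm_of_nonneg (wt_pos _ _).le]
    exact h3 ξ
  · refine (integral_mono_of_nonneg (Eventually.of_forall fun ξ =>
      mul_nonneg (wt_pos _ _).le (norm_nonneg _)) (h1.const_mul _) (Eventually.of_forall h3)).trans ?_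
    rw [integral_const_mul, h2, smul_eq_mul, nrm, mul_assoc, inv_mul_cancel_left₀ (by positivity)]

theorem nrm_le_norm {ρ : ℝ} (hρ : 0 < ρ) {j : ℕ} (hj : j ≤ k) (a : WA d k) :
    nrm ρ j a ≤ (1 + ρ) ^ j * ‖a‖ := by
  rw [nrm, WA.norm_eq, ← tsum_mul_left]
  refine (summable_nrm hρ hj a).tsum_le_tsum (fun n => ?_) (a.summable.mul_left _)
  rw [← mul_assoc]; gcongr; exact le_W hρ hj n

theorem exists_extn (d k : ℕ) (ρ : ℝ) : ∃ L : WA d k →L[ℂ] XW d k, 0 < ρ →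
    ∀ a, fn (L a) =ᵐ[volume] fun ξ => ((ρ : ℂ) ^ d)⁻¹ * coef a fun i => round (ξ i / ρ) := by
  by_cases hρ : 0 < ρ
  swap
  · exact ⟨0, fun h => absurd h hρ⟩
  have h1 := fun a : WA d k => fn_mk _ (extn_aux hρ le_rfl a).1
  refine ⟨LinearMap.mkContinuous
    { toFun := fun a => XW.mk _ (extn_aux hρ le_rfl a).1
      map_add' := fun a b => ext_ae ?_
      map_smul' := fun c a => ext_ae ?_ } ((1 + ρ / 2) ^ k * (1 + ρ) ^ k) fun a => ?_,
    fun _ a => h1 a⟩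
  · filter_upwards [h1 (a + b), h1 a, h1 b, fn_add (XW.mk _ (extn_aux hρ le_rfl a).1)
      (XW.mk _ (extn_aux hρ le_rfl b).1)] with ξ a1 a2 a3 a4
    rw [a1, a4, a2, a3, coef_add, mul_add]
  · filter_upwards [h1 (c • a), h1 a, fn_smul c (XW.mk _ (extn_aux hρ le_rfl a).1)] with ξ a1 a2 a3
    rw [a1, RingHom.id_apply, a3, a2, coef_smul]; ring
  · simp only [LinearMap.coe_mk, AddHom.coe_mk]
    rw [XW.norm_eq, nrmX, integral_congr_ae (g := fun ξ =>
      wt k ξ * ‖((ρ : ℂ) ^ d)⁻¹ * coef a (rd ρ ξ)‖) (by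
        filter_upwards [h1 a] with ξ a1; rw [a1]), mul_assoc]
    refine (extn_aux hρ le_rfl a).2.trans ?_
    gcongr
    exact nrm_le_norm hρ le_rfl a

/-- From the torus to the whole space. -/
noncomputable def extn (ρ : ℝ) : WA d k →L[ℂ] XW d k := (exists_extn d k ρ).choose

theorem fn_extn {ρ : ℝ} (hρ : 0 < ρ) (a : WA d k) :
    fn (extn ρ a) =ᵐ[volume] fun ξ => ((ρ : ℂ) ^ d)⁻¹ * coef a fun i => round (ξ i / ρ) :=
  (exists_extn d k ρ).choose_spec hρ a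

theorem exists_shift (d k : ℕ) (x : Fin d → ℝ) : ∃ L : WA d k →L[ℂ] WA d k,
    ∀ a n, coef (L a) n = expi n x * coef a n := by
  have h1 : ∀ a : WA d k, Summable fun n => W k n * ‖expi n x * coef a n‖ := fun a => by
    simpa only [norm_mul, norm_expi, one_mul] using a.summable
  refine ⟨LinearMap.mkContinuous
    { toFun := fun a => WA.mk _ (h1 a)
      map_add' := fun a b => ?_
      map_smul' := fun c a => ?_ } 1 fun a => ?_, fun a n => coef_mk _ (h1 a) n⟩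
  · ext n
    simp only [coef_mk, coef_add, mul_add]
  · ext n
    simp only [coef_mk, coef_smul, RingHom.id_apply]; ring
  · simp only [LinearMap.coe_mk, AddHom.coe_mk]
    rw [WA.norm_eq, WA.norm_eq a]
    simp only [coef_mk, norm_mul, norm_expi, one_mul, le_refl]

/-- Translation on the torus. -/
noncomputable def shift (x : Fin d → ℝ) : WA d k →L[ℂ] WA d k := (exists_shift d k x).choose

theorem coef_shift (x : Fin d → ℝ) (a : WA d k) (n : Lat d) :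
    coef (shift x a) n = expi n x * coef a n := (exists_shift d k x).choose_spec a n

theorem nrm_per {ρ : ℝ} (hρ : 0 < ρ) {j : ℕ} (hj : j ≤ k) (F : XW d k) :
    nrm ρ j (per ρ F) ≤ (1 + ρ / 2) ^ j * nrmX j F := by
  have := (sum_mul_le (ρ := ρ) (φ := fun _ => 1) (om := fun n => (1 + ρ * ‖n‖) ^ j)
    (fun n => by positivity) hj (C := (1 + ρ / 2) ^ j) (fun ξ => by
      rw [norm_one, mul_one]; exact w_rd_le hρ j ξ) F).2
  simpa only [nrm, coef_per hρ, one_mul] using this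

theorem nrmX_extn {ρ : ℝ} (hρ : 0 < ρ) {j : ℕ} (hj : j ≤ k) (a : WA d k) :
    nrmX j (extn ρ a) ≤ (1 + ρ / 2) ^ j * nrm ρ j a := by
  rw [nrmX, integral_congr_ae (g := fun ξ => wt j ξ * ‖((ρ : ℂ) ^ d)⁻¹ * coef a (rd ρ ξ)‖) (by
    filter_upwards [fn_extn hρ a] with ξ a1; rw [a1]; rfl)]
  exact (extn_aux hρ hj a).2

theorem per_extn {ρ : ℝ} (hρ : 0 < ρ) (a : WA d k) : per ρ (extn ρ a) = a := by
  ext n
  rw [coef_per hρ, integral_congr_ae (ae_restrict_of_ae (fn_extn hρ a)), integral_const_mul]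
  have h : ∫ ξ in cell ρ n, coef a (fun i => round (ξ i / ρ)) = _ := setIntegral_rd hρ (coef a) n
  rw [h, inv_mul_cancel_left₀ (pow_ne_zero _ (by exact_mod_cast hρ.ne'))]

theorem per_st {ρ : ℝ} (hρ : 0 < ρ) (F : XW d k) : per ρ (st F) = star (per ρ F) := by
  ext n
  rw [star_eq, coef_conjL, coef_per hρ, coef_per hρ, ← cell_neg hρ,
    integral_congr_ae (ae_restrict_of_ae (fn_st F)), integral_conj]

theorem per_conv (V : XW d k) (ε : ℝ) (hε : 0 < ε) : ∃ ρ₀ : ℝ, 0 < ρ₀ ∧ ∀ ρ : ℝ, 0 < ρ → ρ ≤ ρ₀ →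
    ∀ F : XW d k, nrm ρ k (per ρ V * per ρ F - per ρ (conv V F)) ≤ ε * ‖F‖ := by
  obtain ⟨r, hr, h⟩ := transl_cont V (δ := ε / 2 ^ k) (by positivity)
  refine ⟨min r 1, by positivity, fun ρ hρ h1 F => ?_⟩
  have h2 := h1.trans (min_le_left _ _)
  have h3 := h1.trans (min_le_right _ _)
  have h4 := conv_err hρ F V fun y hy => h y (by linarith)
  have i1 : Integrable fun ξ => ∫ η, fn F η * fn V (ξ - lat ρ (rd ρ η)) := by
    simpa only using
      (integrable_skew' F V (measurable_lat_rd ρ) (norm_sub_lat hρ)).integral_prod_right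
  have i2 : Integrable fun ξ => ∫ η, fn F η * fn V (ξ - η) :=
    (integrable_fn (XW.conv F V)).congr (fn_conv F V)
  have e : ∀ n, coef (per ρ V * per ρ F - per ρ (XW.conv V F)) n = ∫ ξ in cell ρ n,
      ((∫ η, fn F η * fn V (ξ - lat ρ (rd ρ η))) - ∫ η, fn F η * fn V (ξ - η)) := fun n => by
    rw [coef_sub, mul_comm, coef_mul, conv_comm, coef_per hρ,
      integral_congr_ae (ae_restrict_of_ae (fn_conv F V)),
      integral_sub i1.integrableOn i2.integrableOn, ← conv_cell hρ]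
    simp only [coef_per hρ]
  simp only [nrm, e]
  refine h4.trans ?_
  gcongr
  calc (1 + ρ / 2) ^ k * (ε / 2 ^ k) ≤ 2 ^ k * (ε / 2 ^ k) := by gcongr; linarith
    _ = ε := by field_simp

theorem tsum_coef_per {ρ : ℝ} (hρ : 0 < ρ) (F : XW d k) :
    ∑' n, coef (per ρ F) n = XW.ev F 0 := by
  simp only [coef_per hρ]
  rw [(hasSum_cell ρ (integrable_fn F)).tsum_eq, XW.ev, evf]
  simp [dot]

theorem per_T_dil {ρ : ℝ} (hρ : 0 < ρ) (Λ : ℂ) (s : ℝ) (F : XW d k) :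
    per (ρ * Real.exp (-s / 2)) (T Λ 0 s F) = cexp (-Λ * s) • per ρ F := by
  ext n
  have h := cell_T ρ Λ 0 s F (fun _ => 1) n
  rw [coef_smul, coef_per (by positivity), coef_per hρ]
  simpa using h

theorem mul_exp_log {ρ : ℝ} (hρ : 0 < ρ) : ρ * Real.exp (-(2 * Real.log ρ) / 2) = 1 := by
  rw [show -(2 * Real.log ρ) / 2 = -Real.log ρ by ring, Real.exp_neg, Real.exp_log hρ,
    mul_inv_cancel₀ hρ.ne']

theorem per_eq {ρ : ℝ} (hρ : 0 < ρ) (F : XW d k) :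
    per ρ F = per 1 (T 0 0 (2 * Real.log ρ) F) := by
  have h := per_T_dil hρ 0 (2 * Real.log ρ) F
  rw [mul_exp_log hρ] at h
  simp [h]

theorem continuousOn_T_log {S : Set ℝ} {ρ : ℝ → ℝ} (hρ : ContinuousOn ρ S)
    (hρ0 : ∀ s ∈ S, 0 < ρ s) {W : ℝ → XW d k} (hW : ContinuousOn W S) :
    ContinuousOn (fun s => T 0 0 (2 * Real.log (ρ s)) (W s)) S := by
  have h1 : ContinuousOn (fun s => 2 * Real.log (ρ s)) S :=
    continuousOn_const.mul (hρ.log fun s hs => (hρ0 s hs).ne')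
  simpa only [Function.comp_def] using (continuous_T_uncurry 0 0).comp_continuousOn (h1.prodMk hW)

theorem continuousOn_per {S : Set ℝ} {ρ : ℝ → ℝ} (hρ : ContinuousOn ρ S) (hρ0 : ∀ s ∈ S, 0 < ρ s)
    {W : ℝ → XW d k} (hW : ContinuousOn W S) : ContinuousOn (fun s => per (ρ s) (W s)) S := 
  ((per 1).continuous.comp_continuousOn (continuousOn_T_log hρ hρ0 hW)).congr
    fun s hs => per_eq (hρ0 s hs) _

theorem per_deriv (hk : 2 ≤ k) {lam : ℝ} (hlam : 0 < lam) (Λ : ℂ) {Z : ℝ → XW d k} {H : XW d k}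
    {S : Set ℝ} {s : ℝ} (hZ : HasDerivWithinAt Z (T Λ 1 (-s) H) S s) (n : Lat d) :
    HasDerivWithinAt (fun t => coef (per (lam * Real.exp (-t / 2)) (T Λ 1 t (Z t))) n)
      (-Λ * coef (per (lam * Real.exp (-s / 2)) (T Λ 1 s (Z s))) n
        - I * (∫ ξ in cell (lam * Real.exp (-s / 2)) n, (sq ξ : ℂ) * fn (T Λ 1 s (Z s)) ξ)
        + coef (per (lam * Real.exp (-s / 2)) H) n) S s := by
  have hp : ∀ t : ℝ, 0 < lam * Real.exp (-t / 2) := fun t => by positivity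
  have hL : Continuous fun p : ℝ × XW d k => ((coefL n).comp
      ((per (lam * Real.exp (-p.1 / 2))).comp (T Λ 1 p.1))) p.2 := by
    have h1 : Continuous fun p : ℝ × XW d k => 2 * Real.log (lam * Real.exp (-p.1 / 2)) :=
      continuous_const.mul (Continuous.log (by fun_prop) fun p => (hp _).ne')
    have h2 := (coefL n).continuous.comp ((per 1).continuous.comp ((continuous_T_uncurry 0 0).comp
      (h1.prodMk (continuous_T_uncurry Λ 1))))
    refine h2.congr fun p => ?_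
    simp only [Function.comp_def, ContinuousLinearMap.comp_apply]
    rw [per_eq (hp _)]
  have e : ∀ t, coef (per (lam * Real.exp (-t / 2)) (T Λ 1 t (Z s))) n = cexp (-Λ * t) *
      ∫ η in cell lam n, cexp (-I * ((1 - Real.exp (-t)) * sq η : ℝ)) * fn (Z s) η := fun t => by
    have h := cell_T lam Λ 1 t (Z s) (fun _ => 1) n
    simp only [one_mul, ofReal_one, mul_one] at h
    rw [coef_per (hp t), h]
  have h1 : HasDerivAt (fun t : ℝ => cexp (-Λ * t)) (cexp (-Λ * s) * -Λ) s := by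
    simpa using (((hasDerivAt_id s).ofReal_comp).const_mul (-Λ)).cexp
  have h2 := h1.mul (deriv_cell hk (Z s) (cell lam n) s)
  have h3 := deriv_apply (L := fun t => (coefL n).comp
    ((per (lam * Real.exp (-t / 2))).comp (T Λ 1 t))) hL hZ (h2.congr_of_eventuallyEq
      (Eventually.of_forall e))
  simp only [ContinuousLinearMap.comp_apply, coefL_apply, T_add, add_neg_cancel, T_zero] at h3
  refine h3.congr_deriv ?_
  have h4 := cell_T lam Λ 1 s (Z s) (fun ξ => (sq ξ : ℂ)) n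
  have h5 : Real.exp (-s / 2) ^ 2 = Real.exp (-s) := by
    rw [← Real.exp_nat_mul]; congr 1; push_cast; ring
  simp only [ofReal_one, mul_one, sq_smul, h5] at h4
  rw [e, h4]
  ring

theorem lap_mul_le {ρ : ℝ} (hρ : 0 < ρ) (ξ : Fq d) :
    (1 + ρ * ‖rd ρ ξ‖) ^ k * ‖((sq ξ - ρ ^ 2 * sqNorm (rd ρ ξ) : ℝ) : ℂ)‖ ≤
      (1 + ρ / 2) ^ k * (d * (ρ * max 1 ρ)) * wt (k + 1) ξ := by
  have h1 : |sq ξ - ρ ^ 2 * sqNorm (rd ρ ξ)| ≤ d * (ρ * max 1 ρ * (1 + ‖ξ‖)) := by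
    rw [sq, sqNorm, Finset.mul_sum, ← Finset.sum_sub_distrib]
    refine (Finset.abs_sum_le_sum_abs _ _).trans ((Finset.sum_le_card_nsmul _ _ _
      fun i _ => ?_).trans (by simp; rfl))
    have h2 := abs_sub_lat hρ ξ i
    have h3 : |ξ i| ≤ ‖ξ‖ := norm_le_pi_norm ξ i
    have h4 : |ξ i + ρ * rd ρ ξ i| ≤ 2 * ‖ξ‖ + ρ / 2 := by
      rw [show ξ i + ρ * rd ρ ξ i = 2 * ξ i - (ξ i - ρ * rd ρ ξ i) by ring]
      refine (abs_sub _ _).trans ?_
      rw [abs_mul, abs_two]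
      linarith
    rw [← mul_pow, sq_sub_sq, abs_mul]
    have h5 := le_max_left 1 ρ
    have h6 := le_max_right 1 ρ
    have h7 := norm_nonneg ξ
    calc _ ≤ (2 * ‖ξ‖ + ρ / 2) * (ρ / 2) := by gcongr
      _ = ρ * (‖ξ‖ + ρ / 4) := by ring
      _ ≤ ρ * (max 1 ρ * (1 + ‖ξ‖)) := by gcongr; nlinarith
      _ = _ := by ring
  rw [norm_real, Real.norm_eq_abs]
  have h2 := wt_pos k ξ
  calc _ ≤ (1 + ρ / 2) ^ k * wt k ξ * (d * (ρ * max 1 ρ * (1 + ‖ξ‖))) := by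
        gcongr; exact w_rd_le hρ k ξ
    _ = _ := by simp only [wt]; ring

theorem lap_congr (ρ : ℝ) (f : Fq d → ℂ) (n : Lat d) :
    ∫ ξ in cell ρ n, ((sq ξ - ρ ^ 2 * sqNorm n : ℝ) : ℂ) * f ξ =
      ∫ ξ in cell ρ n, ((sq ξ - ρ ^ 2 * sqNorm (rd ρ ξ) : ℝ) : ℂ) * f ξ :=
  setIntegral_congr_fun (ms_cell ρ n) fun ξ h => by simp only [mem_cell.1 h]

theorem exists_lapErr (d k : ℕ) (ρ : ℝ) : ∃ L : XW d (k + 1) →L[ℂ] WA d k, 0 < ρ → ∀ W n,
    coef (L W) n = ∫ ξ in cell ρ n, ((sq ξ - ρ ^ 2 * sqNorm n : ℝ) : ℂ) * fn W ξ := by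
  by_cases hρ : 0 < ρ
  · obtain ⟨L, hL⟩ := exists_cellOp (d := d) (k := k) (k' := k + 1) hρ
      (measurable_ofReal.comp (continuous_sq.measurable.sub (((measurable_of_countable sqNorm).comp
        (measurable_rd ρ)).const_mul (ρ ^ 2)))).aestronglyMeasurable (lap_mul_le hρ)
    exact ⟨L, fun _ F n => by rw [hL, lap_congr]; rfl⟩
  · exact ⟨0, fun h => absurd h hρ⟩

/-- The commutator of the Laplacian with the transfer to the torus. -/
noncomputable def lapErr (ρ : ℝ) : XW d (k + 1) →L[ℂ] WA d k := (exists_lapErr d k ρ).choose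

theorem coef_lapErr {ρ : ℝ} (hρ : 0 < ρ) (W : XW d (k + 1)) (n : Lat d) :
    coef (lapErr ρ W) n = ∫ ξ in cell ρ n, ((sq ξ - ρ ^ 2 * sqNorm n : ℝ) : ℂ) * fn W ξ :=
  (exists_lapErr d k ρ).choose_spec hρ W n

theorem nrm_lapErr {ρ : ℝ} (hρ : 0 < ρ) (hρ1 : ρ ≤ 1) (W : XW d (k + 1)) :
    nrm ρ k (lapErr ρ W) ≤ (d : ℝ) * 2 ^ k * ρ * ‖W‖ := by
  have := (sum_mul_le (ρ := ρ) (om := fun n => (1 + ρ * ‖n‖) ^ k)
    (fun n => by positivity) le_rfl (lap_mul_le hρ) W).2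
  simp only [nrm, coef_lapErr hρ, lap_congr]
  refine this.trans ?_
  rw [max_eq_left hρ1, ← XW.norm_eq]
  calc _ ≤ 2 ^ k * (d * (ρ * 1)) * ‖W‖ := by gcongr; linarith
    _ = _ := by ring

theorem lapErr_eq {ρ : ℝ} (hρ : 0 < ρ) (W : XW d (k + 1)) :
    lapErr ρ W = ((ρ ^ 2 : ℝ) : ℂ) • lapErr 1 (T 0 0 (2 * Real.log ρ) W) := by
  ext n
  have h := cell_T ρ 0 0 (2 * Real.log ρ) W (fun ξ => ((sq ξ - 1 ^ 2 * sqNorm n : ℝ) : ℂ)) n
  have h1 : Real.exp (-(2 * Real.log ρ) / 2) = ρ⁻¹ := eq_inv_of_mul_eq_one_right (mul_exp_log hρ)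
  rw [mul_exp_log hρ, h1] at h
  rw [coef_smul, coef_lapErr hρ, coef_lapErr one_pos, h]
  simp only [neg_zero, zero_mul, ofReal_zero, mul_zero, Complex.exp_zero, one_mul, sq_smul]
  rw [← integral_const_mul]
  refine integral_congr_ae (Eventually.of_forall fun ξ => ?_)
  have h2 : (ρ : ℂ) ≠ 0 := by exact_mod_cast hρ.ne'
  push_cast
  field_simp

theorem continuousOn_lapErr {S : Set ℝ} {ρ : ℝ → ℝ} (hρ : ContinuousOn ρ S)
    (hρ0 : ∀ s ∈ S, 0 < ρ s) {W : ℝ → XW d (k + 1)} (hW : ContinuousOn W S) :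
    ContinuousOn (fun s => lapErr (ρ s) (W s)) S := 
  ((continuous_ofReal.comp_continuousOn (hρ.pow 2)).smul
    ((lapErr 1).continuous.comp_continuousOn (continuousOn_T_log hρ hρ0 hW))).congr
    fun s hs => lapErr_eq (hρ0 s hs) _

theorem nrm_shift_per {ρ : ℝ} (hρ : 0 < ρ) (hρ1 : ρ ≤ 1) (y : Eu d) (F : XW d k) :
    nrm ρ k (shift (fun i => ρ * y i) (per ρ F) - per ρ (transl y F))
      ≤ (d : ℝ) * 2 ^ k * ρ * ‖y‖ * ‖F‖ := by
  have hb : ∀ ξ : Fq d, (1 + ρ * ‖rd ρ ξ‖) ^ k *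
      ‖expi (rd ρ ξ) (fun i => ρ * y i) - cexp (I * dot ξ y)‖ ≤
      (d : ℝ) * 2 ^ k * ρ * ‖y‖ * wt k ξ := fun ξ => by
    have h1 : |∑ i, (ρ * rd ρ ξ i - ξ i) * y i| ≤ d * (ρ * ‖y‖) := by
      refine (Finset.abs_sum_le_sum_abs _ _).trans ((Finset.sum_le_card_nsmul _ _ _
        fun i _ => ?_).trans (by simp; rfl))
      have h2 := abs_sub_lat hρ ξ i
      have h3 : |y i| ≤ ‖y‖ := PiLp.norm_apply_le y i
      rw [abs_mul, abs_sub_comm]
      gcongr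
      linarith
    have h2 : expi (rd ρ ξ) (fun i => ρ * y i) - cexp (I * dot ξ y) = cexp (I * dot ξ y) *
        (cexp (I * (∑ i, (ρ * rd ρ ξ i - ξ i) * y i : ℝ)) - 1) := by
      rw [mul_sub, mul_one, ← Complex.exp_add, ← mul_add, expi, dot]
      push_cast
      rw [← Finset.sum_add_distrib]
      congr 3
      exact Finset.sum_congr rfl fun i _ => by ring
    rw [h2, norm_mul, norm_exp_I_mul_ofReal, one_mul]
    have h3 := (Real.norm_exp_I_mul_ofReal_sub_one_le (x := ∑ i, (ρ * rd ρ ξ i - ξ i) * y i)).trans h1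
    have h4 := wt_pos k ξ
    calc _ ≤ (1 + ρ / 2) ^ k * wt k ξ * (d * (ρ * ‖y‖)) := by gcongr; exact w_rd_le hρ k ξ
      _ ≤ 2 ^ k * wt k ξ * (d * (ρ * ‖y‖)) := by gcongr; linarith
      _ = _ := by ring
  have := (sum_mul_le (ρ := ρ) (om := fun n => (1 + ρ * ‖n‖) ^ k)
    (fun n => by positivity) le_rfl hb F).2
  rw [← XW.norm_eq] at this
  refine le_trans (le_of_eq (tsum_congr fun n => ?_)) this
  rw [coef_sub, coef_shift, coef_per hρ, coef_per hρ, ← integral_const_mul,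
    ← integral_sub ((integrable_fn F).const_mul _).integrableOn (integrable_fn _).integrableOn]
  congr 2
  refine integral_congr_ae ?_
  filter_upwards [ae_restrict_mem (ms_cell ρ n), ae_restrict_of_ae (fn_transl y F)] with ξ a1 a2
  rw [a2, mem_cell.1 a1, sub_mul]

end Vale.Agent.P139Z
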