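import Vale.Agent.P139Z.Prob.Aux1

/-!
Block PROB: Gaussian data charge every ball of the weighted Wiener algebra; local existence.
-/

open Set Filter Topology MeasureTheory ProbabilityTheory Complex
open scoped NNReal ENNReal

namespace Vale.Agent.P139Z

open Vale.Agent.P139.A

theorem ball_pos {d k : ℕ} {Ω : Type} [MeasurableSpace Ω] (P : Measure Ω) [IsProbabilityMeasure P]
    (g : Lat d → Ω → ℂ) (hm : ∀ n, Measurable (g n)) (hind : iIndepFun g P)
    (hg : ∀ n, P.map (g n) = stdComplexGaussian) {α : ℝ} (hα : (k : ℝ) + 1 + d < α)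
    (φ : Lat d → ℂ) (hφ : Summable fun n => W k n * ‖φ n‖) {ε : ℝ} (hε : 0 < ε) :
    ∃ E : Set Ω, MeasurableSet E ∧ 0 < P E ∧ ∀ ω ∈ E,
      (Summable fun n => W (k + 1) n * ‖datum g α ω n‖) ∧
        ∑' n, W k n * ‖datum g α ω n - φ n‖ < ε := by
  classical
  set w : Lat d → ℝ := fun n => Real.sqrt (1 + sqNorm n) ^ (-α) with hw
  have hw0 : ∀ n, 0 < w n := fun n => Prob.w_pos α n
  have hq0 : ∀ n, 0 ≤ W (k + 1) n * w n := fun n => mul_nonneg (W_pos n).le (hw0 n).le
  have hq : Summable fun n => W (k + 1) n * w n := Prob.summable_q (by push_cast; exact hα)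
  have hφ0 : ∀ n, 0 ≤ W k n * ‖φ n‖ := fun n => mul_nonneg (W_pos n).le (norm_nonneg _)
  have hWW : ∀ n : Lat d, W k n ≤ W (k + 1) n := fun n => by
    unfold W
    exact pow_le_pow_right₀ (by linarith [norm_nonneg n]) (Nat.le_succ k)
  obtain ⟨s, hs1, hs2⟩ := ((Prob.event P g hm hind hg hq0 hq (show 0 < ε / 3 by linarith)
    (fun n => φ n / w n)).and (Prob.tail_small hφ (show 0 < ε / 3 by linarith))).exists
  set Q : ℝ := ∑ n ∈ s, W (k + 1) n * w n with hQ
  have hQ0 : 0 ≤ Q := Finset.sum_nonneg fun n _ => hq0 n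
  set r : ℝ := ε / (3 * (Q + 1)) with hr
  have hr0 : 0 < r := by positivity
  obtain ⟨E, hE1, hE2, hE3⟩ := hs1 r hr0
  refine ⟨E, hE1, hE2, fun ω hω => ?_⟩
  obtain ⟨h1, h2, h3⟩ := hE3 ω hω
  have hfin : ∀ f : Lat d → ℝ, Summable fun n => if n ∈ s then f n else 0 := fun f =>
    summable_of_ne_finset_zero (s := s) fun n hn => if_neg hn
  constructor
  · refine ((hfin fun n => W (k + 1) n * w n * ‖g n ω‖).add h2).congr fun n => ?_
    rw [Prob.norm_datum, ← mul_assoc]
    split_ifs <;> simp [hw]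
  · have hφs := Prob.summable_tail hφ0 hφ s
    have hle : ∀ n, W k n * ‖datum g α ω n - φ n‖ ≤ (if n ∈ s then W (k + 1) n * w n * r else 0) +
        ((if n ∈ s then 0 else W (k + 1) n * w n * ‖g n ω‖) +
          (if n ∈ s then 0 else W k n * ‖φ n‖)) := by
      intro n
      by_cases hn : n ∈ s
      · simp only [hn, if_true, add_zero]
        have e : datum g α ω n - φ n = (w n : ℂ) * (g n ω - φ n / w n) := by
          have : (w n : ℂ) ≠ 0 := by exact_mod_cast (hw0 n).ne'
          show g n ω * (w n : ℂ) - φ n = _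
          field_simp
        rw [e, norm_mul, Complex.norm_real, Real.norm_of_nonneg (hw0 n).le, ← mul_assoc]
        exact mul_le_mul (mul_le_mul_of_nonneg_right (hWW n) (hw0 n).le) (h1 n hn)
          (norm_nonneg _) (hq0 n)
      · simp only [hn, if_false, zero_add]
        have a1 := norm_sub_le (datum g α ω n) (φ n)
        rw [Prob.norm_datum] at a1
        have a2 : W k n * (w n * ‖g n ω‖) ≤ W (k + 1) n * (w n * ‖g n ω‖) :=
          mul_le_mul_of_nonneg_right (hWW n) (mul_nonneg (hw0 n).le (norm_nonneg _))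
        have a3 := mul_le_mul_of_nonneg_left a1 (W_pos (k := k) n).le
        rw [mul_add] at a3
        rw [mul_assoc]
        exact a3.trans (add_le_add a2 le_rfl)
    have hs3 := (hfin fun n => W (k + 1) n * w n * r).add (h2.add hφs)
    have h4 := (Summable.of_nonneg_of_le
      (fun n => mul_nonneg (W_pos n).le (norm_nonneg _)) hle hs3).tsum_le_tsum hle hs3
    rw [(hfin _).tsum_add (h2.add hφs), h2.tsum_add hφs,
      tsum_eq_sum (s := s) (fun n hn => if_neg hn),
      Finset.sum_congr rfl fun n hn => if_pos hn, ← Finset.sum_mul, ← hQ] at h4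
    have h5 : Q * r ≤ ε / 3 := by
      rw [hr, mul_div_assoc', div_le_div_iff₀ (by positivity) (by positivity)]
      nlinarith
    linarith

theorem ae_lifespan_pos {d m k : ℕ} {Ω : Type} [MeasurableSpace Ω] (P : Measure Ω)
    [IsProbabilityMeasure P] (g : Lat d → Ω → ℂ) (hm : ∀ n, Measurable (g n))
    (hg : ∀ n, P.map (g n) = stdComplexGaussian) {α : ℝ} (hα : (k : ℝ) + d < α) :
    ∀ᵐ ω ∂P, MemSobolev k (datum g α ω) ∧ 0 < lifespan d (2 * m + 1) k (datum g α ω) := by
  filter_upwards [Prob.ae_summable_q hm hg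
    (fun n => mul_nonneg (W_pos n).le (Prob.w_pos α n).le) (Prob.summable_q hα)] with ω hω
  have hsum : Summable fun n => W k n * ‖datum g α ω n‖ := hω.congr fun n => by
    rw [Prob.norm_datum, mul_assoc]
  have ha : WA.coef (WA.mk (datum g α ω) hsum : WA d k) = datum g α ω :=
    funext (WA.coef_mk _ hsum)
  obtain ⟨T, hT, u, hu0, hu⟩ := Prob.local_exists m (WA.mk (datum g α ω) hsum : WA d k)
  refine ⟨ha ▸ memSobolev (WA.mk (datum g α ω) hsum : WA d k), ?_⟩
  refine lt_of_lt_of_le (ENNReal.ofReal_pos.2 hT) (Vale.Agent.P139.lifespan_ge hT.le ⟨_, ?_, hu⟩)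
  show WA.coef (u 0) = _
  rw [hu0, ha]

theorem exists_gaussian_family (d : ℕ) : ∃ (Ω : Type) (_ : MeasurableSpace Ω) (P : Measure Ω)
    (_ : IsProbabilityMeasure P) (g : Lat d → Ω → ℂ), (∀ n, Measurable (g n)) ∧ iIndepFun g P ∧
      ∀ n, P.map (g n) = stdComplexGaussian := by
  have : IsProbabilityMeasure stdComplexGaussian := by
    unfold stdComplexGaussian
    exact Measure.isProbabilityMeasure_map measurable_mkC.aemeasurable
  obtain ⟨Ω, mΩ, P, g, h1, h2, h3, h4⟩ := exists_iid (Lat d) stdComplexGaussian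
  exact ⟨Ω, mΩ, P, h4, g, h1, h3, fun n => (h2 n).map_eq⟩

end Vale.Agent.P139Z
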