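import Vale.Agent.P139Z.Semi
import Vale.Agent.P139Z.QC.Shift

/-!
Block QC: quasi-compactness of the linearized semigroup.
-/

open Set Filter Topology MeasureTheory Complex
open scoped NNReal ENNReal ComplexConjugate ContDiff

namespace Vale.Agent.P139Z

variable {d k : ℕ}

open XW

namespace QC

open XBase

theorem wt_dil_mono (j : ℕ) {t : ℝ} (ht : 0 ≤ t) (η : Fq d) :
    wt j (Real.exp (-t / 2) • η) ≤ wt j η := by
  unfold wt
  rw [norm_smul, Real.norm_of_nonneg (Real.exp_pos _).le]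
  refine pow_le_pow_left₀ (by positivity) (add_le_add le_rfl ?_) j
  exact mul_le_of_le_one_left (norm_nonneg _) (Real.exp_le_one_iff.2 (by linarith))

theorem wt_dil_gain (k : ℕ) {t : ℝ} (ht : 0 ≤ t) (η : Fq d) :
    wt k (Real.exp (-t / 2) • η) ≤ Real.exp (-(k / 4) * t) * wt k η + 2 ^ k * wt 0 η := by
  have h0 : 0 < Real.exp (-t / 4) := Real.exp_pos _
  have h1 : Real.exp (-t / 4) ≤ 1 := Real.exp_le_one_iff.2 (by linarith)
  have h2 : Real.exp (-t / 2) = Real.exp (-t / 4) * Real.exp (-t / 4) := by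
    rw [← Real.exp_add]
    ring_nf
  have h3 : Real.exp (-(k / 4) * t) = Real.exp (-t / 4) ^ k := by
    rw [← Real.exp_nat_mul]
    ring_nf
  unfold wt
  rw [norm_smul, Real.norm_of_nonneg (Real.exp_pos _).le, h2, h3, pow_zero, mul_one, ← mul_pow]
  set c := Real.exp (-t / 4)
  have hu := norm_nonneg η
  rcases le_total 1 (c * ‖η‖) with h | h
  · refine le_add_of_le_of_nonneg (pow_le_pow_left₀ (by positivity) ?_ k) (by positivity)
    nlinarith [mul_le_mul_of_nonneg_left h (sub_nonneg.2 h1)]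
  · refine le_add_of_nonneg_of_le (by positivity) (pow_le_pow_left₀ (by positivity) ?_ k)
    nlinarith [mul_le_mul h1 h (by positivity) zero_le_one]

theorem nrmX_T_le (Λ : ℂ) (σ : ℝ) {t : ℝ} (ht : 0 ≤ t) (F : XW d k) {j : ℕ} (hj : j ≤ k) :
    nrmX j (T Λ σ t F) ≤ Real.exp (-Λ.re * t) * nrmX j F := by
  rw [nrmX_T]
  refine mul_le_mul_of_nonneg_left (integral_mono_of_nonneg (Eventually.of_forall fun η =>
    mul_nonneg (wt_pos j _).le (norm_nonneg _)) (integrable_wt_norm F hj)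
    (Eventually.of_forall fun η => ?_)) (Real.exp_pos _).le
  exact mul_le_mul_of_nonneg_right (wt_dil_mono j ht η) (norm_nonneg _)

theorem norm_T_le_self {Λ : ℂ} (hΛ : 0 < Λ.re) (σ : ℝ) {t : ℝ} (ht : 0 ≤ t) (F : XW d k) :
    ‖T Λ σ t F‖ ≤ ‖F‖ := by
  rw [norm_eq, norm_eq]
  exact (nrmX_T_le Λ σ ht F le_rfl).trans (mul_le_of_le_one_left (nrmX_nonneg _ _)
    (Real.exp_le_one_iff.2 (by nlinarith)))

theorem norm_T_gain {Λ : ℂ} (hΛ : 0 < Λ.re) (σ : ℝ) {t : ℝ} (ht : 0 ≤ t) (F : XW d k) :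
    ‖T Λ σ t F‖ ≤ Real.exp (-(k / 4) * t) * ‖F‖ + 2 ^ k * nrmX 0 F := by
  have h1 := (integrable_wt_norm F le_rfl).const_mul (Real.exp (-(k / 4) * t))
  have h2 := (integrable_wt_norm F (Nat.zero_le k)).const_mul (2 ^ k)
  rw [norm_eq, norm_eq, nrmX_T]
  refine (mul_le_of_le_one_left (integral_nonneg fun η =>
    mul_nonneg (wt_pos k _).le (norm_nonneg _)) (Real.exp_le_one_iff.2 (by nlinarith))).trans ?_
  rw [nrmX, nrmX, ← integral_const_mul, ← integral_const_mul, ← integral_add h1 h2]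
  refine integral_mono_of_nonneg (Eventually.of_forall fun η =>
    mul_nonneg (wt_pos k _).le (norm_nonneg _)) (h1.add h2) (Eventually.of_forall fun η => ?_)
  have h3 := mul_le_mul_of_nonneg_right (wt_dil_gain k ht η) (norm_nonneg (fn F η))
  simp only
  linarith

theorem nrmX_zero_le (F : XW d k) : nrmX 0 F ≤ ‖F‖ := by
  rw [norm_eq]
  exact nrmX_mono F (Nat.zero_le k) le_rfl

theorem norm_st (F : XW d k) : ‖st F‖ = ‖F‖ := by rw [norm_eq, norm_eq, nrmX_st]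

theorem norm_conv_hi (hk : 1 ≤ k) {N : ℝ} (hN : 0 < N) (V F : XW d k) {c : ℝ} (hc : ‖F‖ ≤ c) :
    ‖conv V (F - lo N F)‖ ≤ (nrmX 0 V + k * ‖V‖ * N⁻¹) * c := by
  refine (norm_conv_le_LY _ _).trans ?_
  rw [add_mul, mul_assoc _ N⁻¹]
  exact add_le_add (mul_le_mul_of_nonneg_left ((norm_hi_le N F).trans hc) (nrmX_nonneg _ _))
    (mul_le_mul_of_nonneg_left ((nrmX_pred_hi_le hk hN F).trans
      (mul_le_mul_of_nonneg_left hc (inv_nonneg.2 hN.le))) (by positivity))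

theorem nrmX_conv_hi (hk : 1 ≤ k) {N : ℝ} (hN : 0 < N) (V F : XW d k) {c : ℝ} (hc : ‖F‖ ≤ c) :
    nrmX 0 (conv V (F - lo N F)) ≤ ‖V‖ * N⁻¹ * c := by
  refine (nrmX_conv_le (Nat.zero_le k) _ _).trans ?_
  rw [mul_assoc]
  exact mul_le_mul (nrmX_zero_le V) ((nrmX_mono _ (Nat.zero_le _) (Nat.sub_le k 1)).trans
    ((nrmX_pred_hi_le hk hN F).trans (mul_le_mul_of_nonneg_left hc (inv_nonneg.2 hN.le))))
    (nrmX_nonneg _ _) (norm_nonneg _)

/-- The unweighted norm as a seminorm. -/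
noncomputable def n0 : Seminorm ℂ (XW d k) :=
  Seminorm.of (nrmX 0) (nrmX_add_le (Nat.zero_le k)) (nrmX_smul 0)

/-- The unweighted norm of a pair. -/
noncomputable def p0 : Seminorm ℂ (XW d k × XW d k) :=
  n0.comp (LinearMap.fst ℂ _ _) ⊔ n0.comp (LinearMap.snd ℂ _ _)

theorem p0_apply (x : XW d k × XW d k) : p0 x = max (nrmX 0 x.1) (nrmX 0 x.2) := rfl

theorem T2_apply (Λ : ℂ) (s : ℝ) (x : XW d k × XW d k) :
    T2 Λ s x = (T Λ 1 s x.1, T (conj Λ) (-1) s x.2) := rfl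

theorem B2_apply (V U : XW d k) (x : XW d k × XW d k) :
    B2 V U x = ((-I) • (conv V x.1 + conv U x.2), I • (conv (st U) x.1 + conv V x.2)) := rfl

theorem continuous_T2 (Λ : ℂ) : Continuous fun q : ℝ × (XW d k × XW d k) => T2 Λ q.1 q.2 := by
  have h1 : Continuous fun q : ℝ × (XW d k × XW d k) => (q.1, q.2.1) := by fun_prop
  have h2 : Continuous fun q : ℝ × (XW d k × XW d k) => (q.1, q.2.2) := by fun_prop
  have h3 := ((continuous_T_uncurry Λ 1).comp' h1).prodMk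
    ((continuous_T_uncurry (conj Λ) (-1)).comp' h2)
  simp only [T2_apply]
  exact h3

theorem T2_add (Λ : ℂ) (s t : ℝ) (x : XW d k × XW d k) : T2 Λ s (T2 Λ t x) = T2 Λ (s + t) x :=
  Prod.ext (T_add _ _ _ _ _) (T_add _ _ _ _ _)

theorem T2_zero (Λ : ℂ) (x : XW d k × XW d k) : T2 Λ 0 x = x :=
  Prod.ext (T_zero _ _ _) (T_zero _ _ _)

theorem duhamel {Λ : ℂ} {V U : XW d k} {S} (hS : IsSemi Λ V U S) (s : ℝ) (x : XW d k × XW d k) :
    S s x = T2 Λ s x + ∫ r in (0 : ℝ)..s, T2 Λ (s - r) (B2 V U (S r x)) := by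
  have h0 : Continuous fun r : ℝ => (-r, B2 V U (S r x)) :=
    continuous_neg.prodMk ((B2 V U).continuous.comp (hS.cont x))
  have h1 : Continuous fun r => T2 Λ (-r) (B2 V U (S r x)) := by
    have h := (continuous_T2 Λ).comp' h0
    simp only at h
    exact h
  have h2 := intervalIntegral.integral_eq_sub_of_hasDerivAt (fun r _ => hS.deriv x r)
    (h1.intervalIntegrable 0 s)
  have h3 := congrArg (T2 Λ s) h2
  rw [← ContinuousLinearMap.intervalIntegral_comp_comm _ (h1.intervalIntegrable 0 s), map_sub,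
    T2_add, T2_add, add_neg_cancel, T2_zero, neg_zero, add_zero, hS.zero] at h3
  simp only [T2_add, ← sub_eq_add_neg] at h3
  rw [h3, add_sub_cancel]

theorem exists_split (hk : 1 ≤ k) (V U : XW d k) (ε : ℝ) (hε : 0 < ε) :
    ∃ K : XW d k × XW d k →L[ℂ] XW d k × XW d k,
      (∀ R : ℝ, ∃ C : Set (XW d k × XW d k), IsCompact C ∧ ∀ x, ‖x‖ ≤ R → K x ∈ C) ∧
      (∀ x, ‖B2 V U x - K x‖ ≤ (nrmX 0 V + nrmX 0 U + 1) * ‖x‖) ∧
      ∀ x, p0 (B2 V U x - K x) ≤ ε * ‖x‖ := by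
  obtain ⟨N, hN, h1, h2⟩ : ∃ N : ℝ, 0 < N ∧ k * (‖V‖ + ‖U‖) * N⁻¹ ≤ 1 ∧
      (‖V‖ + ‖U‖) * N⁻¹ ≤ ε := by
    refine ⟨k * (‖V‖ + ‖U‖) + (‖V‖ + ‖U‖) / ε + 1, by positivity, ?_, ?_⟩
    · refine mul_inv_le_one_of_le₀ ?_ (by positivity)
      have : 0 ≤ (‖V‖ + ‖U‖) / ε := by positivity
      linarith
    · rw [mul_inv_le_iff₀ (by positivity), mul_add, mul_add, mul_div_cancel₀ _ hε.ne']
      have : 0 ≤ ε * (k * (‖V‖ + ‖U‖)) := by positivity
      linarith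
  have h3 : ∀ x, B2 V U x - ((B2 V U).comp ((lo N).prodMap (lo N))) x =
      B2 V U (x.1 - lo N x.1, x.2 - lo N x.2) := fun x => (map_sub (B2 V U) _ _).symm
  refine ⟨(B2 V U).comp ((lo N).prodMap (lo N)), fun R => ?_, fun x => ?_, fun x => ?_⟩
  · obtain ⟨C₁, hC₁, hC₁'⟩ := conv_lo_compact V N R
    obtain ⟨C₂, hC₂, hC₂'⟩ := conv_lo_compact U N R
    obtain ⟨C₃, hC₃, hC₃'⟩ := conv_lo_compact (st U) N R
    refine ⟨(fun z : (XW d k × XW d k) × XW d k × XW d k =>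
      ((-I) • (z.1.1 + z.1.2), I • (z.2.1 + z.2.2))) '' ((C₁ ×ˢ C₂) ×ˢ (C₃ ×ˢ C₁)),
      ((hC₁.prod hC₂).prod (hC₃.prod hC₁)).image (by fun_prop), fun x hx => ?_⟩
    have h4 := (norm_fst_le x).trans hx
    have h5 := (norm_snd_le x).trans hx
    exact ⟨((_, _), (_, _)), ⟨⟨hC₁' _ h4, hC₂' _ h5⟩, ⟨hC₃' _ h4, hC₁' _ h5⟩⟩, rfl⟩
  · have h4 := norm_conv_hi hk hN V x.1 (norm_fst_le x)
    have h5 := norm_conv_hi hk hN U x.2 (norm_snd_le x)
    have h6 := norm_conv_hi hk hN (st U) x.1 (norm_fst_le x)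
    have h7 := norm_conv_hi hk hN V x.2 (norm_snd_le x)
    have h8 := mul_le_mul_of_nonneg_right h1 (norm_nonneg x)
    rw [nrmX_st, norm_st] at h6
    rw [h3, B2_apply, Prod.norm_mk, norm_smul, norm_smul, norm_neg, norm_I, one_mul, one_mul]
    refine max_le ((norm_add_le _ _).trans ?_) ((norm_add_le _ _).trans ?_) <;> linarith
  · have h4 := nrmX_conv_hi hk hN V x.1 (norm_fst_le x)
    have h5 := nrmX_conv_hi hk hN U x.2 (norm_snd_le x)
    have h6 := nrmX_conv_hi hk hN (st U) x.1 (norm_fst_le x)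
    have h7 := nrmX_conv_hi hk hN V x.2 (norm_snd_le x)
    have h8 := mul_le_mul_of_nonneg_right h2 (norm_nonneg x)
    rw [norm_st] at h6
    rw [h3, B2_apply, p0_apply, nrmX_smul, nrmX_smul, norm_neg, norm_I, one_mul, one_mul]
    refine max_le ((nrmX_add_le (Nat.zero_le k) _ _).trans ?_)
      ((nrmX_add_le (Nat.zero_le k) _ _).trans ?_) <;> linarith

end QC

open QC in
/-- Block QC: quasi-compactness. -/
theorem IsSemi.quasiCompact {Λ : ℂ} (hΛ : 0 < Λ.re) {V U : XW d k}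
    (hk : 8 * (nrmX 0 V + nrmX 0 U) + 8 ≤ k) {S} (hS : IsSemi Λ V U S) :
    ∃ (τ θ C : ℝ) (n : ℕ) (l : Fin n → (XW d k × XW d k →L[ℂ] ℂ)), 0 < τ ∧ θ < 1 ∧
      ∀ x, ‖S τ x‖ ≤ θ * ‖x‖ + C * ∑ i, ‖l i x‖ := by
  have h1 := nrmX_nonneg 0 V
  have h2 := nrmX_nonneg 0 U
  have h3 : 1 ≤ k := by exact_mod_cast (show (1 : ℝ) ≤ k by linarith)
  have hΛ' : 0 < (conj Λ).re := hΛ
  refine abstract_qc (T2 Λ) S (B2 V U) p0 (fun x => ?_) (g := k / 4) (D := 2 ^ k) hΛ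
    (by positivity) (by linarith) (by positivity) (continuous_T2 Λ) (fun t ht x => ?_)
    (fun t ht x => ?_) (fun t ht x => ?_) hS.zero hS.add hS.cont (duhamel hS)
    (exists_split h3 V U)
  · exact max_le_max (nrmX_zero_le x.1) (nrmX_zero_le x.2)
  · exact max_le_max (norm_T_le_self hΛ 1 ht x.1) (norm_T_le_self hΛ' (-1) ht x.2)
  · rw [p0_apply, p0_apply, mul_max_of_nonneg _ _ (Real.exp_pos _).le]
    exact max_le_max (nrmX_T_le Λ 1 ht x.1 (Nat.zero_le k))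
      (nrmX_T_le (conj Λ) (-1) ht x.2 (Nat.zero_le k))
  · refine max_le ((norm_T_gain hΛ 1 ht x.1).trans (add_le_add ?_ ?_))
      ((norm_T_gain hΛ' (-1) ht x.2).trans (add_le_add ?_ ?_))
    · exact mul_le_mul_of_nonneg_left (norm_fst_le x) (Real.exp_pos _).le
    · exact mul_le_mul_of_nonneg_left (le_max_left _ _) (by positivity)
    · exact mul_le_mul_of_nonneg_left (norm_snd_le x) (Real.exp_pos _).le
    · exact mul_le_mul_of_nonneg_left (le_max_right _ _) (by positivity)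

end Vale.Agent.P139Z
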