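import Vale.Agent.P139Z.XBg
import Vale.Agent.P139Z.Flow

/-!
Block SEMI: the complexified linearized semigroup; mild solutions.
-/

open Set Filter Topology MeasureTheory Complex
open scoped NNReal ENNReal ComplexConjugate ContDiff

namespace Vale.Agent.P139Z

variable {d k : ℕ}

open XW

/-- The free flow of the complexified system. -/
noncomputable def T2 (Λ : ℂ) (s : ℝ) : XW d k × XW d k →L[ℂ] XW d k × XW d k :=
  (T Λ 1 s).prodMap (T (conj Λ) (-1) s)

/-- The potential term of the complexified system, for kernels `V` (diagonal) and `U`. -/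
noncomputable def B2 (V U : XW d k) : XW d k × XW d k →L[ℂ] XW d k × XW d k :=
  ((-I) • ((conv V).coprod (conv U))).prod (I • ((conv (st U)).coprod (conv V)))

/-- `S` is the semigroup generated by the free flow and the potential term. -/
structure IsSemi (Λ : ℂ) (V U : XW d k)
    (S : ℝ → XW d k × XW d k →L[ℂ] XW d k × XW d k) : Prop where
  zero : ∀ x, S 0 x = x
  add : ∀ s t x, S (s + t) x = S s (S t x)
  cont : ∀ x, Continuous fun s => S s x
  deriv : ∀ x s, HasDerivAt (fun t => T2 Λ (-t) (S t x)) (T2 Λ (-s) (B2 V U (S s x))) s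
  uniq : ∀ (τ : ℝ) (Z : ℝ → XW d k × XW d k),
    (∀ s ∈ Icc 0 τ, HasDerivWithinAt Z (T2 Λ (-s) (B2 V U (T2 Λ s (Z s)))) (Icc 0 τ) s) →
    ∀ s ∈ Icc 0 τ, T2 Λ s (Z s) = S s (Z 0)

namespace Semi

section abstract

variable {X : Type*} [NormedAddCommGroup X] [NormedSpace ℝ X]

theorem conj_cont {G : ℝ → X →L[ℝ] X} (B : X →L[ℝ] X)
    (hc : Continuous fun p : ℝ × X => G p.1 p.2) :
    Continuous fun p : ℝ × X => ((G (-p.1)).comp (B.comp (G p.1))) p.2 :=
  hc.comp (continuous_fst.neg.prodMk (B.continuous.comp hc))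

theorem conj_bound {G : ℝ → X →L[ℝ] X} (B : X →L[ℝ] X)
    (hb : ∀ R : ℝ, ∃ M : ℝ, ∀ s, |s| ≤ R → ‖G s‖ ≤ M) (R : ℝ) :
    ∃ M : ℝ, ∀ s, |s| ≤ R → ‖(G (-s)).comp (B.comp (G s))‖ ≤ M := by
  obtain ⟨M, hM⟩ := hb R
  refine ⟨M * (‖B‖ * M), fun s hs => ?_⟩
  have h1 := hM s hs
  have h2 := hM (-s) (by rwa [abs_neg])
  refine (ContinuousLinearMap.opNorm_comp_le _ _).trans ?_
  refine mul_le_mul h2 ((ContinuousLinearMap.opNorm_comp_le _ _).trans ?_) (norm_nonneg _)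
    ((norm_nonneg _).trans h1)
  exact mul_le_mul_of_nonneg_left h1 (norm_nonneg _)

/-- A group perturbed by a bounded operator. -/
theorem exists_semi [NormedSpace ℂ X] [IsScalarTower ℝ ℂ X] [CompleteSpace X]
    (G : ℝ → X →L[ℂ] X) (B : X →L[ℂ] X) (h0 : ∀ x, G 0 x = x)
    (hadd : ∀ s t x, G s (G t x) = G (s + t) x) (hc : Continuous fun p : ℝ × X => G p.1 p.2)
    (hb : ∀ R : ℝ, ∃ M : ℝ, ∀ s, |s| ≤ R → ‖G s‖ ≤ M) :
    ∃ S : ℝ → X →L[ℂ] X, (∀ x, S 0 x = x) ∧ (∀ s t x, S (s + t) x = S s (S t x)) ∧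
      (∀ x, Continuous fun s => S s x) ∧
      (∀ x s, HasDerivAt (fun t => G (-t) (S t x)) (G (-s) (B (S s x))) s) ∧
      ∀ (τ : ℝ) (Z : ℝ → X),
        (∀ s ∈ Icc 0 τ, HasDerivWithinAt Z (G (-s) (B (G s (Z s)))) (Icc 0 τ) s) →
        ∀ s ∈ Icc 0 τ, G s (Z s) = S s (Z 0) := by
  have hA := conj_cont (G := fun s => (G s).restrictScalars ℝ) (B.restrictScalars ℝ) hc
  have hAb := conj_bound (G := fun s => (G s).restrictScalars ℝ) (B.restrictScalars ℝ)
    (fun R => by simpa only [ContinuousLinearMap.norm_restrictScalars] using hb R)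
  choose Z hZ0 hZ using fun x => exists_linear_flow _ hA hAb x
  have hZ' : ∀ x s, HasDerivAt (Z x) (G (-s) (B (G s (Z x s)))) s := hZ
  have hun : ∀ (W : ℝ → X), (∀ s, HasDerivAt W (G (-s) (B (G s (W s)))) s) →
      ∀ t, W t = Z (W 0) t := fun W hW t =>
    Flow.unique_univ hAb hW (hZ (W 0)) (hZ0 _).symm t
  have hZadd : ∀ t x y, Z (x + y) t = Z x t + Z y t := by
    intro t x y
    have h1 := hun (fun s => Z x s + Z y s) (fun s => by
      simpa only [map_add] using (hZ' x s).fun_add (hZ' y s)) t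
    simpa only [hZ0] using h1.symm
  have hZsmul : ∀ t (c : ℂ) x, Z (c • x) t = c • Z x t := by
    intro t c x
    have h1 := hun (fun s => c • Z x s) (fun s => by
      simpa only [map_smul] using (hZ' x s).fun_const_smul c) t
    simpa only [hZ0] using h1.symm
  have hZb : ∀ t, ∃ C : ℝ, ∀ x, ‖Z x t‖ ≤ C * ‖x‖ := by
    intro t
    obtain ⟨M, hM⟩ := hAb |t|
    refine ⟨Real.exp (M * |t|), fun x => ?_⟩
    have h1 := Flow.bound_univ hM (hZ x) le_rfl
    rwa [hZ0, mul_comm] at h1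
  let L : ℝ → X →L[ℂ] X := fun t => LinearMap.mkContinuousOfExistsBound
    { toFun := fun x => Z x t, map_add' := hZadd t, map_smul' := hZsmul t } (hZb t)
  have hS : ∀ t x, ((G t).comp (L t)) x = G t (Z x t) := fun _ _ => rfl
  refine ⟨fun t => (G t).comp (L t), fun x => ?_, fun s t x => ?_, fun x => ?_, fun x s => ?_,
    fun τ W hW s hs => ?_⟩
  · rw [hS, hZ0, h0]
  · have h1 := hun (fun r => G t (Z x (r + t))) (fun r => by
      have h2 := ((G t).restrictScalars ℝ).hasFDerivAt.comp_hasDerivAt r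
        ((hZ' x (r + t)).comp_add_const r t)
      have h3 : G (-r) (B (G r (G t (Z x (r + t))))) =
          G t (G (-(r + t)) (B (G (r + t) (Z x (r + t))))) := by
        rw [hadd, hadd, show t + -(r + t) = -r by ring]
      rw [h3]
      exact h2) s
    simp only [zero_add] at h1
    rw [hS, hS, hS, ← h1, hadd]
  · exact hc.comp (continuous_id.prodMk
      (continuous_iff_continuousAt.2 fun s => (hZ' x s).continuousAt))
  · have h1 : (fun t => G (-t) (((G t).comp (L t)) x)) = Z x := by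
      funext t
      rw [hS, hadd, neg_add_cancel, h0]
    rw [h1, hS]
    exact hZ' x s
  · rw [hS, Flow.unique_Icc hAb hW (fun r _ => (hZ (W 0) r).hasDerivWithinAt) (hZ0 _).symm s hs]

end abstract

theorem T_bound (Λ : ℂ) (σ R : ℝ) :
    ∃ M : ℝ, ∀ s, |s| ≤ R → ‖(T Λ σ s : XW d k →L[ℂ] XW d k)‖ ≤ M :=
  ⟨Real.exp ((|Λ.re| + k) * R), fun s hs => (norm_T_le Λ σ s).trans
    (Real.exp_le_exp.2 (mul_le_mul_of_nonneg_left hs (by positivity)))⟩

theorem T2_zero (Λ : ℂ) (x : XW d k × XW d k) : T2 Λ 0 x = x :=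
  Prod.ext (T_zero _ _ _) (T_zero _ _ _)

theorem T2_add (Λ : ℂ) (s t : ℝ) (x : XW d k × XW d k) : T2 Λ s (T2 Λ t x) = T2 Λ (s + t) x :=
  Prod.ext (T_add _ _ _ _ _) (T_add _ _ _ _ _)

theorem continuous_T2_uncurry (Λ : ℂ) :
    Continuous fun p : ℝ × (XW d k × XW d k) => T2 Λ p.1 p.2 := by
  have h1 : Continuous fun p : ℝ × (XW d k × XW d k) => ((p.1, p.2.1) : ℝ × XW d k) := by
    fun_prop
  have h2 : Continuous fun p : ℝ × (XW d k × XW d k) => ((p.1, p.2.2) : ℝ × XW d k) := by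
    fun_prop
  have h3 := (continuous_T_uncurry (d := d) (k := k) Λ 1).comp h1
  have h4 := (continuous_T_uncurry (d := d) (k := k) (conj Λ) (-1)).comp h2
  refine (h3.prodMk h4).congr fun p => ?_
  simp only [T2, Function.comp_apply, ContinuousLinearMap.coe_prodMap', Prod.map]

theorem T2_bound (Λ : ℂ) (R : ℝ) : ∃ M : ℝ, ∀ s, |s| ≤ R →
    ‖(T2 Λ s : XW d k × XW d k →L[ℂ] XW d k × XW d k)‖ ≤ M := by
  obtain ⟨M, hM⟩ := T_bound (d := d) (k := k) Λ 1 R
  obtain ⟨M', hM'⟩ := T_bound (d := d) (k := k) (conj Λ) (-1) R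
  refine ⟨max M M', fun s hs => ?_⟩
  have h0 : 0 ≤ max M M' := ((norm_nonneg _).trans (hM s hs)).trans (le_max_left _ _)
  refine ContinuousLinearMap.opNorm_le_bound _ h0 fun x => ?_
  rw [Prod.norm_def]
  refine max_le ?_ ?_
  · exact ((T Λ 1 s).le_opNorm x.1).trans (mul_le_mul ((hM s hs).trans (le_max_left _ _))
      (norm_fst_le x) (norm_nonneg _) h0)
  · exact ((T (conj Λ) (-1) s).le_opNorm x.2).trans
      (mul_le_mul ((hM' s hs).trans (le_max_right _ _)) (norm_snd_le x) (norm_nonneg _) h0)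

end Semi

/-- Block SEMI, part 1. -/
theorem exists_isSemi (Λ : ℂ) (V U : XW d k) : ∃ S, IsSemi Λ V U S := by
  obtain ⟨S, h1, h2, h3, h4, h5⟩ := Semi.exists_semi (T2 Λ) (B2 V U) (Semi.T2_zero Λ)
    (Semi.T2_add Λ) (Semi.continuous_T2_uncurry Λ) (Semi.T2_bound Λ)
  exact ⟨S, h1, h2, h3, h4, h5⟩

namespace Bg

variable {m : ℕ} (B : Bg d m)

/-- The potential term as a real-linear operator. -/
noncomputable def BopL (k : ℕ) : XW d k →L[ℝ] XW d k :=
  (-I) • ((conv (B.V1h k)).restrictScalars ℝ + ((conv (B.V2h k)).restrictScalars ℝ).comp st)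

theorem BopL_apply (k : ℕ) (F : XW d k) : B.BopL k F = B.Bop k F := rfl

/-- Block SEMI, part 2: existence of mild solutions with a bound. -/
theorem exists_mild (k : ℕ) (τ : ℝ) : ∃ C : ℝ, 0 ≤ C ∧ ∀ F : XW d k, ∃ Z : ℝ → XW d k,
    B.IsMild k τ Z ∧ Z 0 = F ∧ ∀ s ∈ Icc 0 τ, ‖T B.Λ 1 s (Z s)‖ ≤ C * ‖F‖ := by
  have hA := Semi.conj_cont (G := fun s => (T B.Λ 1 s : XW d k →L[ℂ] XW d k).restrictScalars ℝ)
    (B.BopL k) (continuous_T_uncurry B.Λ 1)
  have hAb := Semi.conj_bound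
    (G := fun s => (T B.Λ 1 s : XW d k →L[ℂ] XW d k).restrictScalars ℝ) (B.BopL k)
    (fun R => by
      simpa only [ContinuousLinearMap.norm_restrictScalars] using Semi.T_bound B.Λ 1 R)
  obtain ⟨M, hM⟩ := hAb τ
  obtain ⟨M', hM'⟩ := Semi.T_bound (d := d) (k := k) B.Λ 1 τ
  refine ⟨|M'| * Real.exp (|M| * τ), by positivity, fun F => ?_⟩
  obtain ⟨Z, hZ0, hZ⟩ := exists_linear_flow _ hA hAb F
  refine ⟨Z, fun s _ => (hZ s).hasDerivWithinAt, hZ0, fun s hs => ?_⟩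
  have hs' : |s| ≤ τ := by rw [abs_of_nonneg hs.1]; exact hs.2
  have h1 := Flow.bound_univ hM hZ hs'
  have h2 : Real.exp (M * |s|) ≤ Real.exp (|M| * τ) :=
    Real.exp_le_exp.2 (mul_le_mul (le_abs_self M) hs' (abs_nonneg _) (abs_nonneg _))
  rw [hZ0] at h1
  calc ‖T B.Λ 1 s (Z s)‖ ≤ ‖(T B.Λ 1 s : XW d k →L[ℂ] XW d k)‖ * ‖Z s‖ :=
        ContinuousLinearMap.le_opNorm _ _
    _ ≤ |M'| * (‖F‖ * Real.exp (|M| * τ)) :=
        mul_le_mul ((hM' s hs').trans (le_abs_self _))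
          (h1.trans (mul_le_mul_of_nonneg_left h2 (norm_nonneg _))) (norm_nonneg _) (abs_nonneg _)
    _ = _ := by ring

end Bg

end Vale.Agent.P139Z
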