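import Vale.Agent.P139Z.OBase
import Vale.Agent.P139Z.OCalc
import Vale.Agent.P139Z.ShA.Fix

/-! Regular solutions of the truncated profile equation. -/

open Set Filter Topology MeasureTheory Complex
open scoped NNReal ENNReal ComplexConjugate ContDiff

namespace Vale.Agent.P139Z

theorem exists_core {m : ℕ} (hm : 1 ≤ m) :
    ∃ J : ℝ → ℝ → ℝ → ℂ, (∀ β q : ℝ, IsCore m β (J β q) ∧ J β q 0 = q) ∧
      Continuous (fun p : ℝ × ℝ × ℝ => J p.1 p.2.1 p.2.2) ∧
      Continuous (fun p : ℝ × ℝ × ℝ => deriv (J p.1 p.2.1) p.2.2) := by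
  obtain ⟨L, hL, hlip⟩ := ShA.Ntr_lip hm
  have hΛ : Continuous fun x : ℝ × ℝ => Lam m x.1 := by unfold Lam; fun_prop
  have hN := ShA.continuous_Ntr m
  obtain ⟨G, hG, h⟩ := ShA.exists_fix (X := ℝ × ℝ) (F := fun x z => Ntr m z - I * Lam m x.1 * z)
    ((hN.comp continuous_snd).sub ((continuous_const.mul (hΛ.comp continuous_fst)).mul
      continuous_snd)) (L := fun x => L + ‖Lam m x.1‖) (continuous_const.add hΛ.norm)
    (fun x => by positivity) (fun x z w => by
      rw [sub_sub_sub_comm, ← mul_sub, add_mul]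
      refine (norm_sub_le _ _).trans (add_le_add (hlip z w) ?_)
      rw [norm_mul, norm_mul, norm_I, one_mul]) (fun x => by simp [Ntr])
    (q := fun x => (x.2 : ℂ)) (by fun_prop)
  have hc := fun x : ℝ × ℝ => ShA.isCore (hG.comp (Continuous.prodMk_right x)) (h x)
  have ha : Continuous fun p : ℝ × ℝ × ℝ => ((p.1, p.2.1), p.2.2) := by fun_prop
  refine ⟨fun β q => G (β, q), fun β q => ⟨(hc (β, q)).1, (h _ _).trans (by simp)⟩, hG.comp ha, ?_⟩
  have h1 := ShA.continuous_Top (S := fun (x : ℝ × ℝ) s => Ntr m (G x s) - I * Lam m x.1 * G x s)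
    ((hN.comp hG).sub ((continuous_const.mul (hΛ.comp continuous_fst)).mul hG))
  exact (h1.comp ha).congr fun p => (congrFun (hc (p.1, p.2.1)).2 p.2.2).symm

end Vale.Agent.P139Z
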