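import Vale.Agent.P139Z.OBase
import Vale.Agent.P139Z.OCalc
import Vale.Agent.P139Z.ShB.Est

/-! Maximum principle and interior estimates before the exit time. -/

open Set Filter Topology MeasureTheory Complex
open scoped NNReal ENNReal ComplexConjugate ContDiff

namespace Vale.Agent.P139Z

namespace ShB

/-- `log |G|`. -/
noncomputable def lG (G : ℝ → ℂ) (ρ : ℝ) : ℝ := Real.log (‖G ρ‖ ^ 2) / 2

/-- The real part of `G'/G`. -/
noncomputable def uG (G : ℝ → ℂ) (ρ : ℝ) : ℝ := (deriv G ρ / G ρ).re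

/-- The imaginary part of `G'/G`. -/
noncomputable def wG (G : ℝ → ℂ) (ρ : ℝ) : ℝ := (deriv G ρ / G ρ).im

variable {m : ℕ} {β T ρ : ℝ} {G : ℝ → ℂ}

theorem exp_lG (h : G ρ ≠ 0) : Real.exp (lG G ρ) = ‖G ρ‖ := by
  rw [lG, Real.log_pow, Nat.cast_ofNat, mul_div_cancel_left₀ _ two_ne_zero,
    Real.exp_log (norm_pos_iff.2 h)]

theorem exp_lG_div (h : G ρ ≠ 0) :
    Real.exp (lG G ρ / (1 / (2 * (m : ℝ)))) = ‖G ρ‖ ^ (2 * m) := by
  rw [one_div, div_inv_eq_mul, mul_comm, ← exp_lG h, ← Real.exp_nat_mul]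
  push_cast
  rfl

theorem re_conj_mul (h : G ρ ≠ 0) : (conj (G ρ) * deriv G ρ).re = ‖G ρ‖ ^ 2 * uG G ρ := by
  have : conj (G ρ) * deriv G ρ = ((‖G ρ‖ ^ 2 : ℝ) : ℂ) * (deriv G ρ / G ρ) := by
    rw [ofReal_pow, ← Complex.conj_mul']
    field_simp
  rw [this, re_ofReal_mul, uG]

theorem hasDerivAt_lG (hG : ContDiff ℝ 1 G) (h : G ρ ≠ 0) : HasDerivAt (lG G) (uG G ρ) ρ := by
  have h1 := (hG.differentiable one_ne_zero ρ).hasDerivAt.norm_sq
  have h2 : ‖G ρ‖ ^ 2 ≠ 0 := pow_ne_zero _ (norm_ne_zero_iff.2 h)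
  refine ((h1.log h2).div_const 2).congr_deriv ?_
  rw [Complex.inner, mul_comm (deriv G ρ), re_conj_mul h]
  field_simp

theorem ode_div (hG : IsCore m β G) (h0 : 0 ≤ ρ) (h : G ρ ≠ 0) :
    4 * (ρ : ℂ) * (iteratedDeriv 2 G ρ / G ρ) + (24 + I * ρ) * (deriv G ρ / G ρ) =
      ((min (‖G ρ‖ ^ (2 * m)) 2 - β : ℝ) : ℂ) - I * ((1 / (2 * (m : ℝ)) : ℝ) : ℂ) := by
  have h1 := hG.ode ρ h0
  unfold Mop Ntr Lam at h1
  refine mul_right_cancel₀ h ?_
  have e1 : iteratedDeriv 2 G ρ / G ρ * G ρ = iteratedDeriv 2 G ρ := div_mul_cancel₀ _ h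
  have e2 : deriv G ρ / G ρ * G ρ = deriv G ρ := div_mul_cancel₀ _ h
  push_cast at h1 ⊢
  linear_combination h1 + 4 * (ρ : ℂ) * e1 + (24 + I * ρ) * e2 + β * G ρ * I_mul_I

theorem hasDerivAt_v (hG : IsCore m β G) (h0 : 0 < ρ) (h : G ρ ≠ 0) :
    HasDerivAt (fun x => deriv G x / G x)
      (iteratedDeriv 2 G ρ / G ρ - (deriv G ρ / G ρ) ^ 2) ρ := by
  have h1 : ContDiffAt ℝ 2 G ρ := hG.c2.contDiffAt (Ioi_mem_nhds h0)
  have h2 : DifferentiableAt ℝ (deriv G) ρ :=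
    (h1.derivWithin (m := 1) (by norm_num)).differentiableAt one_ne_zero
  have h3 := h2.hasDerivAt.div (hG.c1.differentiable one_ne_zero ρ).hasDerivAt h
  refine h3.congr_deriv ?_
  rw [iteratedDeriv_succ, iteratedDeriv_one]
  field_simp

theorem ne_zero_of (hm : 1 ≤ m) (h : 1 / 6 ≤ ‖G ρ‖ ^ (2 * m)) : G ρ ≠ 0 := by
  intro h0
  rw [h0, norm_zero, zero_pow (by omega)] at h
  norm_num at h

theorem sys (hm : 500 ≤ m) (hβ : InB β) (hG : IsCore m β G) (hT : T ∈ Icc (0 : ℝ) 11)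
    (hl : ∀ ρ ∈ Icc (0 : ℝ) T, 1 / 6 ≤ ‖G ρ‖ ^ (2 * m)) (he : ‖G T‖ ^ (2 * m) = 1 / 6) :
    Sys (1 / (2 * (m : ℝ))) β T (lG G) (uG G) (wG G) := by
  have hm' : (500 : ℝ) ≤ m := by exact_mod_cast hm
  have hne : ∀ ρ ∈ Icc (0 : ℝ) T, G ρ ≠ 0 := fun ρ hρ => ne_zero_of (by omega) (hl ρ hρ)
  have hc : ContinuousOn (fun x => deriv G x / G x) (Icc 0 T) :=
    (hG.c1.continuous_deriv le_rfl).continuousOn.div hG.c1.continuous.continuousOn hne
  have h00 : (0 : ℝ) ∈ Icc (0 : ℝ) T := ⟨le_rfl, hT.1⟩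
  refine ⟨by positivity, one_div_le_one_div_of_le (by norm_num) (by linarith), hβ.1, hβ.2, hT.1,
    hT.2, continuous_re.comp_continuousOn hc, continuous_im.comp_continuousOn hc,
    fun ρ hρ => hasDerivAt_lG hG.c1 (hne ρ hρ), fun ρ hρ => ?_, fun ρ hρ => ?_, ?_, ?_,
    fun ρ hρ => by rw [exp_lG_div (hne ρ hρ)]; exact hl ρ hρ,
    by rw [exp_lG_div (hne T ⟨hT.1, le_rfl⟩)]; exact he⟩
  · have h0 := hne ρ (Ioc_subset_Icc_self hρ)
    have h1 := reCLM.hasFDerivAt.comp_hasDerivAt ρ (hasDerivAt_v hG hρ.1 h0)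
    refine h1.congr_deriv ?_
    have h2 := congrArg re (ode_div hG hρ.1.le h0)
    rw [eq_div_iff (by linarith [hρ.1]), Th, exp_lG_div h0, uG, wG]
    generalize iteratedDeriv 2 G ρ / G ρ = y at h2 ⊢
    generalize deriv G ρ / G ρ = v at h2 ⊢
    simp only [add_re, mul_re, mul_im, add_im, re_ofNat, im_ofNat, ofReal_re, ofReal_im, I_re,
      I_im, sub_re, reCLM_apply, pow_two] at h2 ⊢
    linarith
  · have h0 := hne ρ (Ioc_subset_Icc_self hρ)
    have h1 := imCLM.hasFDerivAt.comp_hasDerivAt ρ (hasDerivAt_v hG hρ.1 h0)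
    refine h1.congr_deriv ?_
    have h2 := congrArg im (ode_div hG hρ.1.le h0)
    rw [eq_div_iff (by linarith [hρ.1]), uG, wG]
    generalize iteratedDeriv 2 G ρ / G ρ = y at h2 ⊢
    generalize deriv G ρ / G ρ = v at h2 ⊢
    simp only [add_re, mul_re, mul_im, add_im, re_ofNat, im_ofNat, ofReal_re, ofReal_im, I_re,
      I_im, sub_im, imCLM_apply, pow_two] at h2 ⊢
    linarith
  · have h2 := congrArg re (ode_div hG le_rfl (hne 0 h00))
    rw [Th, exp_lG_div (hne 0 h00), uG]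
    generalize iteratedDeriv 2 G 0 / G 0 = y at h2 ⊢
    generalize deriv G 0 / G 0 = v at h2 ⊢
    simp only [add_re, mul_re, mul_im, add_im, re_ofNat, im_ofNat, ofReal_re, ofReal_im, I_re,
      I_im, sub_re] at h2 ⊢
    linarith
  · have h2 := congrArg im (ode_div hG le_rfl (hne 0 h00))
    rw [wG]
    generalize iteratedDeriv 2 G 0 / G 0 = y at h2 ⊢
    generalize deriv G 0 / G 0 = v at h2 ⊢
    simp only [add_re, mul_re, mul_im, add_im, re_ofNat, im_ofNat, ofReal_re, ofReal_im, I_re,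
      I_im, sub_im] at h2 ⊢
    linarith

theorem norm_deriv_eq (h : G ρ ≠ 0) : ‖deriv G ρ‖ = Real.exp (lG G ρ) * ‖deriv G ρ / G ρ‖ := by
  rw [exp_lG h, ← norm_mul, mul_div_cancel₀ _ h]

end ShB

open ShB

theorem core_max : ∃ m₀ : ℕ, ∀ m : ℕ, m₀ ≤ m → ∀ (β : ℝ) (G : ℝ → ℂ) (T : ℝ), InB β →
    IsCore m β G → T ∈ Icc (0 : ℝ) 11 → (∀ ρ ∈ Icc (0 : ℝ) T, 1 / 6 ≤ ‖G ρ‖ ^ (2 * m)) →
    ‖G T‖ ^ (2 * m) = 1 / 6 →
    (∀ ρ ∈ Icc (0 : ℝ) T, ‖G ρ‖ ^ (2 * m) < 2) ∧ (conj (G T) * deriv G T).re < 0 := by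
  refine ⟨500, fun m hm β G T hβ hG hT hl he => ?_⟩
  have S := sys hm hβ hG hT hl he
  have hne : ∀ ρ ∈ Icc (0 : ℝ) T, G ρ ≠ 0 := fun ρ hρ => ne_zero_of (by omega) (hl ρ hρ)
  refine ⟨fun ρ hρ => by rw [← exp_lG_div (hne ρ hρ)]; exact S.lt_two hρ, ?_⟩
  have h := hne T ⟨hT.1, le_rfl⟩
  rw [re_conj_mul h]
  exact mul_neg_of_pos_of_neg (pow_pos (norm_pos_iff.2 h) 2) S.u_last

theorem core_in {η : ℝ} (hη : 0 < η) : ∃ m₀ : ℕ, ∀ m : ℕ, m₀ ≤ m → ∀ (β : ℝ) (G : ℝ → ℂ) (T : ℝ),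
    InB β → IsCore m β G → (G 0).im = 0 → 0 < (G 0).re → T ∈ Icc (10.8 : ℝ) 10.9 →
    (∀ ρ ∈ Icc (0 : ℝ) T, 1 / 6 ≤ ‖G ρ‖ ^ (2 * m)) → ‖G T‖ ^ (2 * m) = 1 / 6 →
    (∀ ρ ∈ Icc (0 : ℝ) T, ‖G ρ - 1‖ ≤ η ∧ Real.sqrt ρ * ‖deriv G ρ‖ ≤ η ∧ (m : ℝ) * sf G ρ ≤ η) ∧
      ∀ b ∈ Icc (0 : ℝ) T, ∫ ρ in (0 : ℝ)..b, |deriv (sf G) ρ| ≤ η := by
  obtain ⟨k, hk⟩ := exists_nat_ge (max (650 / η) (550 / η ^ 2))
  refine ⟨max 500 k, fun m hm β G T hβ hG hi hr hT hl he => ?_⟩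
  have hm1 : 500 ≤ m := (le_max_left _ _).trans hm
  have hm2 : (k : ℝ) ≤ m := by exact_mod_cast (le_max_right _ _).trans hm
  have hm0 : (0 : ℝ) < m := by exact_mod_cast (show 0 < m by omega)
  have hT' : T ∈ Icc (0 : ℝ) 11 := ⟨by linarith [hT.1], by linarith [hT.2]⟩
  have S := sys hm1 hβ hG hT' hl he
  have hne : ∀ ρ ∈ Icc (0 : ℝ) T, G ρ ≠ 0 := fun ρ hρ => ne_zero_of (by omega) (hl ρ hρ)
  have hma : (m : ℝ) * (2 * (1 / (2 * (m : ℝ)))) = 1 := by field_simp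
  have k1 : 1300 * (1 / (2 * (m : ℝ))) ≤ η := by
    have h := ((le_max_left _ _).trans hk).trans hm2
    rw [div_le_iff₀ hη] at h
    rw [mul_one_div, div_le_iff₀ (by positivity)]
    linarith
  have k2 : 1100 * (1 / (2 * (m : ℝ))) ≤ η ^ 2 := by
    have h := ((le_max_right _ _).trans hk).trans hm2
    rw [div_le_iff₀ (by positivity)] at h
    rw [mul_one_div, div_le_iff₀ (by positivity)]
    linarith
  generalize 1 / (2 * (m : ℝ)) = a at S hma k1 k2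
  have ha0 := S.a0
  have ha1 := S.a1
  have h00 : (0 : ℝ) ∈ Icc (0 : ℝ) T := ⟨le_rfl, hT'.1⟩
  have hd : ∀ x, HasDerivAt G (deriv G x) x := fun x =>
    (hG.c1.differentiable one_ne_zero x).hasDerivAt
  refine ⟨fun ρ hρ => ⟨?_, ?_, ?_⟩, fun b hb => ?_⟩
  · have h1 := image_norm_le_of_norm_deriv_right_le_deriv_boundary' (a := 0) (b := T)
      (f := fun x => G x - G 0) (f' := deriv G) (hG.c1.continuous.sub continuous_const).continuousOn
      (fun x _ => ((hd x).sub_const _).hasDerivWithinAt)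
      (B := fun x => 12 * a * x - 2 * lG G x + 2 * lG G 0) (B' := fun x => 12 * a - 2 * uG G x)
      (by simp) (by have := S.cl; fun_prop)
      (fun x hx => ((((((hasDerivAt_id' x).const_mul (12 * a)).sub
        ((S.hl x (Ico_subset_Icc_self hx)).const_mul 2)).add_const _)).congr_deriv
          (by ring)).hasDerivWithinAt)
      (fun x hx => by
        have hx' := Ico_subset_Icc_self hx
        have h2 : ‖deriv G x / G x‖ ≤ 6 * a - uG G x := by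
          have h3 := norm_le_abs_re_add_abs_im (deriv G x / G x)
          have h4 : |uG G x| ≤ 4 * a - uG G x := by
            rw [abs_le]
            constructor <;> linarith [(S.u_bd hx').2]
          have h5 := S.w_abs hx'
          unfold uG wG at *
          linarith
        rw [norm_deriv_eq (hne x hx')]
        have h3 : Real.exp (lG G x) ≤ 2 := by linarith [S.q_le hx']
        have h4 := mul_le_mul h3 h2 (norm_nonneg _) (by norm_num)
        linarith) hρ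
    have h2 : ‖G 0 - 1‖ ≤ 5 * a := by
      have h3 : G 0 = ((G 0).re : ℂ) := Complex.ext rfl hi
      have h4 : ‖G 0‖ = (G 0).re := by
        rw [h3, Complex.norm_real, ofReal_re, Real.norm_of_nonneg hr.le]
      rw [h3, ← ofReal_one, ← ofReal_sub, Complex.norm_real, Real.norm_eq_abs, ← h4,
        ← exp_lG (hne 0 h00), abs_le]
      constructor <;> linarith [S.q_le h00, S.q_ge h00]
    have h3 := norm_sub_le_norm_sub_add_norm_sub (G ρ) (G 0) 1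
    have h4 := S.l_ge hρ
    have h5 := S.l_le h00
    have h6 : a * ρ ≤ a * 11 := mul_le_mul_of_nonneg_left (hρ.2.trans hT'.2) ha0.le
    linarith
  · refine abs_le_of_sq_le_sq' ?_ hη.le |>.2
    rw [mul_pow, Real.sq_sqrt hρ.1, norm_deriv_eq (hne ρ hρ), mul_pow, Complex.sq_norm,
      normSq_apply]
    have h1 : Real.exp (lG G ρ) ^ 2 ≤ 2 ^ 2 :=
      pow_le_pow_left₀ (Real.exp_pos _).le (by linarith [S.q_le hρ]) 2
    have h2 := S.u_sq hρ
    have h3 := abs_le.1 (S.w_abs hρ)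
    have h4 : wG G ρ ^ 2 ≤ (2 * a) ^ 2 := sq_le_sq' h3.1 h3.2
    have h5 := mul_le_mul (hρ.2.trans hT'.2) h4 (sq_nonneg _) (by norm_num)
    have h6 : ρ * (uG G ρ * uG G ρ + wG G ρ * wG G ρ) ≤ 7 * a := by nlinarith
    have h7 := mul_le_mul h1 h6
      (mul_nonneg hρ.1 (add_nonneg (mul_self_nonneg _) (mul_self_nonneg _))) (by norm_num)
    change ρ * (_ * (uG G ρ * uG G ρ + wG G ρ * wG G ρ)) ≤ _
    linarith
  · have h1 := mul_le_mul_of_nonneg_left (S.U_le hρ) (mul_pos hm0 two_pos).le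
    have h2 : (m : ℝ) * 2 * (748 * a ^ 2) = 748 * a := by linear_combination 748 * a * hma
    change (m : ℝ) * (2 * ρ * uG G ρ) ≤ η
    linarith
  · have h1 := S.tv hb (s := deriv (sf G)) fun x hx => by
      have h2 : sf G = fun y => 2 * (y * uG G y) := funext fun y => mul_assoc _ _ _
      rw [h2]
      exact ((S.hU hx).const_mul 2).deriv
    have h2 : |b * uG G b| ≤ η / 4 := by
      refine abs_le.2 (abs_le_of_sq_le_sq' ?_ (by positivity))
      have h3 := mul_le_mul (hb.2.trans hT'.2) (S.u_sq hb) (mul_nonneg hb.1 (sq_nonneg _))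
        (by norm_num)
      nlinarith
    linarith

end Vale.Agent.P139Z
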