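import Vale.Agent.P139Z.ShB
import Vale.Agent.P139Z.ShC.Layer

/-! The boundary layer after the exit time. -/

open Set Filter Topology MeasureTheory Complex
open scoped NNReal ENNReal ComplexConjugate ContDiff

namespace Vale.Agent.P139Z

namespace ShC

theorem I_mul_Lam (m : ℕ) (β : ℝ) :
    I * Lam m β = I * ((1 / (2 * (m : ℝ)) : ℝ) : ℂ) + β := by
  unfold Lam
  push_cast
  linear_combination (-(β : ℂ)) * I_mul_I

theorem exists_m {θ σ : ℝ} (h0 : 0 ≤ θ) (h1 : θ < 1) (hσ : 0 < σ) :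
    ∃ m₀ : ℕ, ∀ m : ℕ, m₀ ≤ m → 1 ≤ m ∧ 1 / (2 * (m : ℝ)) ≤ 0.005 ∧
      θ ^ m + 1 / (2 * (m : ℝ)) ≤ σ := by
  have t1 : Tendsto (fun m : ℕ => θ ^ m) atTop (𝓝 0) :=
    tendsto_pow_atTop_nhds_zero_of_lt_one h0 h1
  have t2 : Tendsto (fun m : ℕ => 1 / (2 * (m : ℝ))) atTop (𝓝 0) :=
    tendsto_const_nhds.div_atTop (tendsto_natCast_atTop_atTop.const_mul_atTop two_pos)
  have t3 := t1.add t2
  rw [add_zero] at t3
  have e := ((eventually_ge_atTop 1).and
    (t2.eventually (eventually_le_nhds (show (0 : ℝ) < 0.005 by norm_num)))).and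
    (t3.eventually (eventually_le_nhds hσ))
  obtain ⟨m₀, hm₀⟩ := eventually_atTop.1 e
  exact ⟨m₀, fun m hm => ⟨(hm₀ m hm).1.1, (hm₀ m hm).1.2, (hm₀ m hm).2⟩⟩

end ShC

open ShC in
theorem shot_of_core {η : ℝ} (hη : 0 < η) : ∃ m₀ : ℕ, ∀ m : ℕ, m₀ ≤ m →
    ∀ (β : ℝ) (G : ℝ → ℂ) (T : ℝ), InB β → IsCore m β G → (G 0).im = 0 → 0 < (G 0).re →
    T ∈ Icc (10.8 : ℝ) 10.9 → (∀ ρ ∈ Icc (0 : ℝ) T, 1 / 6 ≤ ‖G ρ‖ ^ (2 * m)) →
    ‖G T‖ ^ (2 * m) = 1 / 6 → IsShot m β G T η := by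
  set ε : ℝ := min (η / 20) 0.0005 with hε
  have hε0 : 0 < ε := lt_min (by positivity) (by norm_num)
  have hε1 : ε ≤ η / 20 := min_le_left _ _
  have hε2 : ε ≤ 0.0005 := min_le_right _ _
  obtain ⟨m₁, h₁⟩ := core_max
  obtain ⟨m₂, h₂⟩ := core_in hε0
  obtain ⟨m₃, h₃⟩ := exists_m (θ := 1 - 0.0007 * ε ^ 2) (σ := ε) (by nlinarith)
    (by nlinarith [pow_pos hε0 2]) hε0
  refine ⟨max m₁ (max m₂ m₃), fun m hm β G T hβ hG him hre hT hlow hexit => ?_⟩
  obtain ⟨hm1, ha1, hsm⟩ := h₃ m ((le_max_right _ _).trans ((le_max_right _ _).trans hm))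
  have hT0 : 0 < T := by linarith [hT.1]
  obtain ⟨hup, hneg⟩ := h₁ m ((le_max_left _ _).trans hm) β G T hβ hG
    ⟨hT0.le, by linarith [hT.2]⟩ hlow hexit
  obtain ⟨hin, htv⟩ := h₂ m ((le_max_left _ _).trans ((le_max_right _ _).trans hm)) β G T hβ hG
    him hre hT hlow hexit
  set a : ℝ := 1 / (2 * (m : ℝ)) with ha
  have ha0 : 0 ≤ a := by positivity
  set nn : ℝ → ℝ := fun x => min (‖G x‖ ^ (2 * m)) 2 with hnn
  have hGT : ‖G T‖ ≤ 1 := by
    by_contra hc
    have := one_le_pow₀ (n := 2 * m) (not_le.1 hc).le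
    linarith
  have hG1 : ‖deriv G T‖ ≤ ε := by
    have b1 := (hin T ⟨hT0.le, le_rfl⟩).2.1
    have b2 : 1 ≤ Real.sqrt T := Real.one_le_sqrt.2 (by linarith [hT.1])
    nlinarith [norm_nonneg (deriv G T)]
  have hG0 : ‖G T - 1‖ ≤ ε := (hin T ⟨hT0.le, le_rfl⟩).1
  have heq : ∀ x : ℝ, 0 < x → 4 * x * iteratedDeriv 2 G x =
      ((nn x - β : ℝ) - I * a) * G x - (24 + I * x) * deriv G x := fun x hx => by
    have e := hG.ode x hx.le
    rw [Mop, I_mul_Lam, Ntr] at e
    push_cast at e ⊢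
    simp only [hnn, ha]
    push_cast
    linear_combination e
  have hD : Dat G (deriv G) (iteratedDeriv 2 G) nn β a T :=
    { hT := hT
      hβ := hβ
      a0 := ha0
      a1 := ha1
      d1 := fun x hx => (derivs hG.c2 hx).1
      d2 := fun x hx => (derivs hG.c2 hx).2
      eq := heq
      n0 := fun x => le_min (by positivity) (by norm_num)
      n1 := fun x hx => (min_le_left _ _).trans
        ((pow_le_pow_left₀ (norm_nonneg _) hx _).trans hexit.le)
      g0 := hG0.trans hε2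
      g1 := hGT
      g2 := hG1.trans hε2
      p0 := hneg }
  have hle : ∀ x ∈ Icc T 11.2, ‖G x‖ ≤ ‖G T‖ := fun x hx => by
    have := hD.drop x hx
    refine (pow_le_pow_iff_left₀ (norm_nonneg _) (norm_nonneg _) two_ne_zero).1 ?_
    nlinarith [sq_nonneg (x - T)]
  have hsix : ∀ x ∈ Icc T 11.2, ‖G x‖ ^ (2 * m) ≤ 1 / 6 := fun x hx =>
    (pow_le_pow_left₀ (norm_nonneg _) (hle x hx) _).trans hexit.le
  have hlt : ∀ x ∈ Icc (0 : ℝ) 11.2, ‖G x‖ ^ (2 * m) < 2 := fun x hx => by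
    rcases le_total x T with h | h
    · exact hup x ⟨hx.1, h⟩
    · exact (hsix x ⟨h, hx.2⟩).trans_lt (by norm_num)
  refine
    { smooth := hG.reg 11.2 (by norm_num) hlt
      ode := fun x hx => ?_
      upper := fun x hx => (hlt x hx).le
      core := fun x hx => le_trans (by norm_num) (hlow x hx)
      near := fun x hx => ⟨(hin x hx).1.trans (by linarith), (hin x hx).2.1.trans (by linarith)⟩
      mono := fun x hx => ?_
      tv := fun b hb => (htv b hb).trans (by linarith)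
      out := fun W hW hWo hW0 hW1 => ?_ }
  · rw [hG.ode x hx.1, Ntr, min_eq_left (hlt x hx).le]
    push_cast
    rfl
  · have hP : 0 ≤ Pf m G x := by unfold Pf; positivity
    have hs : (m : ℝ) * sf G x ≤ η := by
      rcases le_total x T with h | h
      · exact (hin x ⟨hx.1, h⟩).2.2.trans (by linarith)
      · have b1 := (hD.persist x ⟨h, hx.2⟩).1
        have b2 : (deriv G x / G x).re ≤ 0 := by
          have : (deriv G x / G x).re = (conj (G x) * deriv G x).re / normSq (G x) := by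
            rw [Complex.div_re]
            simp only [Complex.mul_re, Complex.conj_re, Complex.conj_im]
            ring
          rw [this]
          exact div_nonpos_of_nonpos_of_nonneg b1 (normSq_nonneg _)
        have b3 : sf G x ≤ 0 := mul_nonpos_of_nonneg_of_nonpos (by linarith [hx.1]) b2
        exact (mul_nonpos_of_nonneg_of_nonpos (Nat.cast_nonneg m) b3).trans hη.le
    nlinarith [mul_le_mul_of_nonneg_right hs hP]
  · have hW2 : ContDiffOn ℝ 2 W (Ioi 0) := hW.of_le (WithTop.coe_le_coe.2 (le_top : (2 : ℕ∞) ≤ ⊤))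
    set F : ℝ → ℂ := fun x => G x - W x with hF
    set F1 : ℝ → ℂ := fun x => deriv G x - deriv W x with hF1
    set F2 : ℝ → ℂ := fun x => iteratedDeriv 2 G x - iteratedDeriv 2 W x with hF2
    set r : ℝ → ℂ := fun x => ((nn x : ℂ) - I * a) * G x with hr
    have d1 : ∀ x : ℝ, 0 < x → HasDerivAt F (F1 x) x := fun x hx =>
      (derivs hG.c2 hx).1.sub (derivs hW2 hx).1
    have d2 : ∀ x : ℝ, 0 < x → HasDerivAt F1 (F2 x) x := fun x hx =>
      (derivs hG.c2 hx).2.sub (derivs hW2 hx).2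
    have e : ∀ x : ℝ, 0 < x → 4 * x * F2 x = r x - β * F x - (24 + I * x) * F1 x :=
      fun x hx => by
      have e1 := heq x hx
      have e2 := hWo x hx
      rw [Mop] at e2
      simp only [hF, hF1, hF2, hr]
      push_cast at e1 e2
      linear_combination e1 - e2 - (β : ℂ) * W x * I_mul_I
    have hrb : ∀ x ∈ Icc T 11.2, ‖r x‖ ≤ ‖G x‖ ^ (2 * m) + a := fun x hx => by
      have b1 : ‖((nn x : ℂ) - I * a)‖ ≤ ‖G x‖ ^ (2 * m) + a := by
        refine (norm_sub_le _ _).trans ?_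
        rw [norm_mul, Complex.norm_I, one_mul, Complex.norm_real, Complex.norm_real,
          Real.norm_of_nonneg ha0, Real.norm_of_nonneg (hD.n0 x)]
        exact add_le_add_left (min_le_left _ _) _
      have b2 := (hle x hx).trans hGT
      simp only [hr]
      rw [norm_mul]
      calc _ ≤ (‖G x‖ ^ (2 * m) + a) * 1 := by gcongr
        _ = _ := mul_one _
    have hX0 : ‖(F T, F1 T)‖ ≤ ε := by
      rw [Prod.norm_mk]
      refine max_le ?_ ?_
      · simpa only [hF, hW0] using hG0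
      · simpa only [hF1, hW1, sub_zero] using hG1
    have hTε : T + ε ≤ 11.2 := by linarith [hT.2]
    have ph1 : ∀ x ∈ Icc T (T + ε), ‖(F x, F1 x)‖ ≤ 5 * ε := fun x hx => by
      have := gron (σ := 1) hT.1 hTε hβ (fun y hy => d1 y (hD.pos hy))
        (fun y hy => d2 y (hD.pos hy)) (fun y hy => e y (hD.pos hy)) (fun y hy => by
          have b1 := hrb y ⟨hy.1, hy.2.trans hTε⟩
          have b2 := hsix y ⟨hy.1, hy.2.trans hTε⟩
          linarith) x hx
      linarith [hx.2]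
    have ph2 : ∀ x ∈ Icc (T + ε) 11.2, ‖(F x, F1 x)‖ ≤ 16 * ε := fun x hx => by
      have hsub : ∀ y ∈ Icc (T + ε) 11.2, y ∈ Icc T 11.2 := fun y hy =>
        ⟨by linarith [hy.1], hy.2⟩
      have := gron (σ := ε) (by linarith [hT.1]) le_rfl hβ
        (fun y hy => d1 y (hD.pos (hsub y hy))) (fun y hy => d2 y (hD.pos (hsub y hy)))
        (fun y hy => e y (hD.pos (hsub y hy))) (fun y hy => by
          have b1 := hrb y (hsub y hy)
          have b2 : ‖G y‖ ^ 2 ≤ 1 - 0.0007 * ε ^ 2 := by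
            have c1 := hD.drop y (hsub y hy)
            have c2 : ‖G T‖ ^ 2 ≤ 1 := pow_le_one₀ (norm_nonneg _) hGT
            have c3 : ε ^ 2 ≤ (y - T) ^ 2 := pow_le_pow_left₀ hε0.le (by linarith [hy.1]) 2
            linarith
          have b3 : ‖G y‖ ^ (2 * m) ≤ (1 - 0.0007 * ε ^ 2) ^ m := by
            rw [pow_mul]
            exact pow_le_pow_left₀ (by positivity) b2 m
          linarith) x hx
      have b4 := ph1 (T + ε) ⟨by linarith, le_rfl⟩
      have b5 : x - (T + ε) ≤ 0.4 := by linarith [hx.2, hT.1]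
      nlinarith
    intro x hx
    have hX : ‖(F x, F1 x)‖ ≤ η := by
      rcases le_total x (T + ε) with h | h
      · linarith [ph1 x ⟨hx.1, h⟩]
      · linarith [ph2 x ⟨h, hx.2⟩]
    exact ⟨(norm_fst_le (F x, F1 x)).trans hX, (norm_snd_le (F x, F1 x)).trans hX⟩

end Vale.Agent.P139Z
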