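import Vale.Agent.P139Z.ShA
import Vale.Agent.P139Z.ShC
import Vale.Agent.P139Z.Shoot.Exit

/-! The shooting family and its exit time. -/

open Set Filter Topology MeasureTheory Complex
open scoped NNReal ENNReal ComplexConjugate ContDiff

namespace Vale.Agent.P139Z

theorem shoot {η : ℝ} (hη : 0 < η) : ∃ m₀ : ℕ, ∀ m : ℕ, m₀ ≤ m →
    ∃ (J : ℝ → ℝ → ℝ → ℂ) (τ : ℝ → ℝ → ℝ),
      ContinuousOn (fun p : ℝ × ℝ => (J p.1 p.2 11.2, deriv (J p.1 p.2) 11.2, τ p.1 p.2))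
        ({β | InB β} ×ˢ Icc 0 1) ∧
      ∀ β : ℝ, InB β → τ β 0 = 10.8192 ∧ τ β 1 = 10.8216 ∧ ∀ t ∈ Icc (0 : ℝ) 1,
        τ β t ∈ Icc (10.8192 : ℝ) 10.8216 ∧
          (τ β t ∈ Ioo (10.8192 : ℝ) 10.8216 → IsShot m β (J β t) (τ β t) η) := by
  obtain ⟨m₁, h₁⟩ := core_max
  obtain ⟨m₂, h₂⟩ := shot_of_core hη
  refine ⟨max 1 (max m₁ m₂), fun m hm => ?_⟩
  have hm1 : 1 ≤ m := (le_max_left _ _).trans hm
  have hmm₁ : m₁ ≤ m := (le_max_left _ _).trans ((le_max_right _ _).trans hm)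
  have hmm₂ : m₂ ≤ m := (le_max_right _ _).trans ((le_max_right _ _).trans hm)
  have h2m : 2 * m ≠ 0 := by omega
  obtain ⟨J, hJ, hJc, hJc'⟩ := exists_core hm1
  obtain ⟨a, ha0, ha⟩ : ∃ a : ℝ, 0 < a ∧ a ^ (2 * m) = 1 / 6 :=
    ⟨(1 / 6 : ℝ) ^ ((2 * m : ℕ) : ℝ)⁻¹, Real.rpow_pos_of_pos (by norm_num) _,
      Real.rpow_inv_natCast_pow (by norm_num) h2m⟩
  obtain ⟨b, hb0, hb⟩ : ∃ b : ℝ, 0 < b ∧ b ^ (2 * m) = 2 :=
    ⟨(2 : ℝ) ^ ((2 * m : ℕ) : ℝ)⁻¹, Real.rpow_pos_of_pos (by norm_num) _,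
      Real.rpow_inv_natCast_pow (by norm_num) h2m⟩
  have hab : a ≤ b := by
    refine le_of_lt (lt_of_pow_lt_pow_left₀ (2 * m) hb0.le ?_)
    rw [ha, hb]; norm_num
  set q : ℝ → ℝ := fun t => a + t * (b - a) with hq
  have hqa : ∀ t : ℝ, 0 ≤ t → a ≤ q t := fun t ht => by
    simp only [hq]; nlinarith [mul_nonneg ht (sub_nonneg.mpr hab)]
  set n : ℝ × ℝ → ℝ → ℝ := fun p ρ => ‖J p.1 (q p.2) ρ‖ ^ (2 * m) with hn
  have hqc : Continuous q := by simp only [hq]; fun_prop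
  have hnc : Continuous (fun z : (ℝ × ℝ) × ℝ => n z.1 z.2) := by
    have : Continuous (fun z : (ℝ × ℝ) × ℝ => J z.1.1 (q z.1.2) z.2) :=
      hJc.comp (f := fun z : (ℝ × ℝ) × ℝ => (z.1.1, q z.1.2, z.2)) (by fun_prop)
    exact this.norm.pow _
  have hnp : ∀ p, Continuous (n p) := fun p => hnc.comp (Continuous.prodMk_right p)
  have hn0 : ∀ p : ℝ × ℝ, 0 ≤ p.2 → n p 0 = q p.2 ^ (2 * m) := fun p hp => by
    simp only [hn]
    rw [(hJ p.1 (q p.2)).2, Complex.norm_real, Real.norm_of_nonneg (ha0.le.trans (hqa _ hp))]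
  have hn0' : ∀ p : ℝ × ℝ, 0 ≤ p.2 → 1 / 6 ≤ n p 0 := fun p hp => by
    rw [hn0 p hp, ← ha]
    exact pow_le_pow_left₀ ha0.le (hqa _ hp) _
  have hB : (0 : ℝ) ≤ 10.8216 := by norm_num
  refine ⟨fun β t => J β (q t), fun β t => max 10.8192 (Shoot.ex (n (β, t)) (1 / 6) 10.8216),
    ?_, fun β hβ => ⟨?_, ?_, fun t ht => ⟨?_, fun hτ => ?_⟩⟩⟩
  · refine ContinuousOn.prodMk ?_ (ContinuousOn.prodMk ?_ ?_)
    · exact (hJc.comp (f := fun z : ℝ × ℝ => (z.1, q z.2, (11.2 : ℝ))) (by fun_prop)).continuousOn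
    · exact (hJc'.comp (f := fun z : ℝ × ℝ => (z.1, q z.2, (11.2 : ℝ))) (by fun_prop)).continuousOn
    · refine continuousOn_const.sup (Shoot.ex_continuousOn (n := n) hnc hB
        (fun p hp => hn0' p hp.2.1) ?_)
      intro p hp T hT hge heq d hd
      have hcore := (hJ p.1 (q p.2)).1
      have hlt := (h₁ m hmm₁ p.1 _ T hp.1 hcore ⟨hT.1, hT.2.trans (by norm_num)⟩ hge heq).2
      obtain ⟨ρ, hρ, hρ'⟩ := Shoot.exists_norm_lt
        (hcore.c1.differentiable one_ne_zero).differentiableAt hlt hd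
      refine ⟨ρ, hρ, ?_⟩
      rw [← heq]
      exact pow_lt_pow_left₀ hρ' (norm_nonneg _) h2m
  · have h0 : n (β, 0) 0 ≤ 1 / 6 := by
      rw [hn0 (β, 0) le_rfl, ← ha]; simp [hq]
    exact max_eq_left ((Shoot.ex_le_of ⟨le_rfl, hB⟩ h0).trans (by norm_num))
  · have h1 : Shoot.ex (n (β, 1)) (1 / 6) 10.8216 = 10.8216 := by
      by_contra hne
      have hlt := lt_of_le_of_ne (Shoot.ex_le (n (β, 1)) (1 / 6) hB) hne
      have h0 := hn0' (β, 1) zero_le_one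
      have hT := Shoot.ex_nonneg (n (β, 1)) (1 / 6) hB
      have := (h₁ m hmm₁ β _ _ hβ (hJ β (q 1)).1 ⟨hT, hlt.le.trans (by norm_num)⟩
        (Shoot.le_on_ex (hnp _) hB h0) (Shoot.eq_at_ex (hnp _) hB h0 hlt)).1 0 ⟨le_rfl, hT⟩
      have h2 : n (β, 1) 0 = 2 := by
        rw [hn0 (β, 1) zero_le_one, ← hb]; simp [hq]
      exact absurd h2 (ne_of_lt this)
    show max _ _ = _
    rw [h1]
    exact max_eq_right (by norm_num)
  · exact ⟨le_max_left _ _, max_le (by norm_num) (Shoot.ex_le _ _ hB)⟩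
  · have hτ1 : 10.8192 < Shoot.ex (n (β, t)) (1 / 6) 10.8216 :=
      (lt_max_iff.mp hτ.1).resolve_left (lt_irrefl _)
    have hτ2 : Shoot.ex (n (β, t)) (1 / 6) 10.8216 < 10.8216 := (le_max_right _ _).trans_lt hτ.2
    have h0 := hn0' (β, t) ht.1
    show IsShot m β (J β (q t)) (max _ _) η
    rw [max_eq_right hτ1.le]
    refine h₂ m hmm₂ β _ _ hβ (hJ β (q t)).1 ?_ ?_
      ⟨le_trans (by norm_num) hτ1.le, hτ2.le.trans (by norm_num)⟩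
      (Shoot.le_on_ex (hnp _) hB h0) (Shoot.eq_at_ex (hnp _) hB h0 hτ2)
    · rw [(hJ β (q t)).2, Complex.ofReal_im]
    · rw [(hJ β (q t)).2, Complex.ofReal_re]
      exact ha0.trans_le (hqa t ht.1)

end Vale.Agent.P139Z
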