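import Vale.Agent.P139Z.Sph.Rad

/-!
Block SPH: reduction of mode stability in physical space to the radial statement, through
spherical harmonics.
-/

open Set Filter Topology MeasureTheory Complex
open scoped NNReal ENNReal ComplexConjugate ContDiff

namespace Vale.Agent.P139Z

namespace Sph

theorem deriv_Qr {G : ℝ → ℂ} (hG : ContDiff ℝ ∞ G) (r : ℝ) :
    deriv (Qr G) r = 2 * r * deriv G (r ^ 2) := by
  have h1 := ((hG.differentiable (by simp)) (r ^ 2)).hasDerivAt.scomp r (hasDerivAt_pow 2 r)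
  rw [show Qr G = G ∘ fun x => x ^ 2 from rfl, h1.deriv]
  simp

theorem norm_ray {d : ℕ} {r : ℝ} (hr : 0 < r) (w : Sp d) : ‖r • (w : Eu d)‖ = r := by
  rw [norm_smul, nrm_one, Real.norm_of_nonneg hr.le, mul_one]

end Sph

open Sph

theorem pms_of_modeStable {m : ℕ} {β : ℝ} {G : ℝ → ℂ} (hG : ContDiff ℝ ∞ G)
    (hs : ModeStable m β G) (B : Bg 12 m) (hΛ : B.Λ = Lam m β)
    (hQ : ∀ y, evf B.Q y = G (‖y‖ ^ 2)) (hD : ∀ y, evf B.DQ y = DQr m β G ‖y‖)
    (hX : ∀ i y, evf (fun ξ => I * ξ i * B.Q ξ) y = 2 * (y i : ℂ) * deriv G (‖y‖ ^ 2)) :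
    B.PMS 30 := by
  rintro lam hlam f g hf hg ⟨C, hC⟩ c₀ c₁ c heq
  have hd : 2 ≤ 12 := by norm_num
  have hf2 : ContDiff ℝ 2 f := hf.of_le (by norm_cast)
  have hg2 : ContDiff ℝ 2 g := hg.of_le (by norm_cast)
  have cf := hf.continuous
  have cg := hg.continuous
  have eF : ∀ (a₀ a₁ : ℂ) (a : Fin 12 → ℂ) {r : ℝ}, 0 < r → ∀ w : Sp 12,
      B.eF a₀ a₁ a (r • (w : Eu 12)) = a₀ * (I * Qr G r) + a₁ * DQr m β G r +
        deriv (Qr G) r * ∑ i, a i * ((w : Eu 12) i : ℂ) := by
    intro a₀ a₁ a r hr w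
    simp only [Bg.eF, hQ, hD, hX, norm_ray hr, deriv_Qr hG, Finset.mul_sum, Qr, PiLp.smul_apply,
      smul_eq_mul, ofReal_mul]
    congr 1
    exact Finset.sum_congr rfl fun i _ => by ring
  have eG : ∀ (a₀ a₁ : ℂ) (a : Fin 12 → ℂ) {r : ℝ}, 0 < r → ∀ w : Sp 12,
      B.eG a₀ a₁ a (r • (w : Eu 12)) = a₀ * conj (I * Qr G r) + a₁ * conj (DQr m β G r) +
        conj (deriv (Qr G) r) * ∑ i, a i * ((w : Eu 12) i : ℂ) := by
    intro a₀ a₁ a r hr w
    simp only [Bg.eG, hQ, hD, hX, norm_ray hr, deriv_Qr hG, Finset.mul_sum, Qr, PiLp.smul_apply,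
      smul_eq_mul, ofReal_mul, map_mul, conj_ofReal]
    congr 1
    exact Finset.sum_congr rfl fun i _ => by ring
  have key : ∀ (l : ℕ) (Y : Sp 12 → ℂ), Eig l Y → ∃ a₀ a₁ a₂ : ℂ, ∀ r : ℝ, 0 < r →
      pr f Y r = symF m β G l a₀ a₁ a₂ r ∧ pr g Y r = symG m β G l a₀ a₁ a₂ r := by
    intro l Y hY
    refine hs l lam hlam _ _ (bddC_pr hf hY.cont fun j hj y => (hC j hj y).1)
      (bddC_pr hg hY.cont fun j hj y => (hC j hj y).2) (c₀ * ∫ w, Y w ∂sg 12)
      (c₁ * ∫ w, Y w ∂sg 12) (∑ i, c i * ∫ w : Sp 12, ((w : Eu 12) i : ℂ) * Y w ∂sg 12)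
      fun r hr => ?_
    have h1 := radial hY hf2 cg hr (a := -I / 2) (b := pot1 m (Qr G r) - I * (lam + Lam m β))
      (b' := pot2 m (Qr G r)) (P := -I * (c₀ * (I * Qr G r) + c₁ * DQr m β G r))
      (R := -I * deriv (Qr G) r) (c := c) fun w => by
        have h := (heq (r • (w : Eu 12))).1
        rw [eF _ _ _ hr, linF, hQ, norm_ray hr, hΛ, show G (r ^ 2) = Qr G r from rfl] at h
        linear_combination (-I) * h + (lap f (r • (w : Eu 12)) - pot1 m (Qr G r) * f (r • w) -
          pot2 m (Qr G r) * g (r • w)) * I_sq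
    have h2 := radial hY hg2 cf hr (a := I / 2) (b := pot1 m (Qr G r) + I * (lam + conj (Lam m β)))
      (b' := conj (pot2 m (Qr G r))) (P := I * (c₀ * conj (I * Qr G r) + c₁ * conj (DQr m β G r)))
      (R := I * conj (deriv (Qr G) r)) (c := c) fun w => by
        have h := (heq (r • (w : Eu 12))).2
        rw [eG _ _ _ hr, linG, hQ, norm_ray hr, hΛ, show G (r ^ 2) = Qr G r from rfl] at h
        linear_combination I * h + (lap g (r • (w : Eu 12)) - pot1 m (Qr G r) * g (r • w) -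
          conj (pot2 m (Qr G r)) * f (r • w)) * I_sq
    simp only [Sph.ev] at h1 h2
    push_cast at h1 h2
    simp only [opF, opG, symF, symG]
    by_cases l0 : l = 0
    · simp only [hY.int_coord hd (by omega : l ≠ 1), mul_zero, Finset.sum_const_zero] at h1 h2
      simp only [if_pos l0]
      exact ⟨by linear_combination h1, by linear_combination h2⟩
    simp only [hY.int_one hd l0] at h1 h2
    by_cases l1 : l = 1
    · simp only [if_neg l0, if_pos l1]
      exact ⟨by linear_combination h1, by linear_combination h2⟩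
    · simp only [hY.int_coord hd l1, mul_zero, Finset.sum_const_zero] at h1 h2
      simp only [if_neg l0, if_neg l1]
      exact ⟨by linear_combination h1, by linear_combination h2⟩
  obtain ⟨a₀, a₁, a₂, h0⟩ := key 0 _ eig_one
  choose b₀ b₁ a h1 using fun i => key 1 _ (eig_coord i)
  refine ⟨a₀ / mass 12, a₁ / mass 12, fun i => a i / mom i, ?_⟩
  have h2 : ∀ y : Eu 12, y ≠ 0 → f y = B.eF (a₀ / mass 12) (a₁ / mass 12) (fun i => a i / mom i) y ∧
      g y = B.eG (a₀ / mass 12) (a₁ / mass 12) (fun i => a i / mom i) y := by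
    intro y hy
    have hr : 0 < ‖y‖ := norm_pos_iff.2 hy
    obtain ⟨w, hw⟩ : ∃ w : Sp 12, y = ‖y‖ • (w : Eu 12) :=
      ⟨⟨‖y‖⁻¹ • y, by simp [norm_smul, hr.ne']⟩, by simp [smul_smul, hr.ne']⟩
    generalize ‖y‖ = r at hr hw
    subst hw
    have k0 := h0 r hr
    have k1 := fun i => h1 i r hr
    simp only [pr, symF, symG, mul_one, if_true, one_ne_zero, if_false] at k0 k1
    constructor
    · rw [eF _ _ _ hr, recon hd (h := fun w => f (r • (w : Eu 12))) (by fun_prop)
        (fun l hl Y hY => ?_) w, k0.1, Finset.mul_sum]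
      · congr 1
        · ring
        · exact Finset.sum_congr rfl fun i _ => by rw [(k1 i).1]; ring
      · obtain ⟨_, _, _, h⟩ := key l Y hY
        simpa [pr, symF, show l ≠ 0 by omega, show l ≠ 1 by omega] using (h r hr).1
    · rw [eG _ _ _ hr, recon hd (h := fun w => g (r • (w : Eu 12))) (by fun_prop)
        (fun l hl Y hY => ?_) w, k0.2, Finset.mul_sum]
      · congr 1
        · ring
        · exact Finset.sum_congr rfl fun i _ => by rw [(k1 i).2]; ring
      · obtain ⟨_, _, _, h⟩ := key l Y hY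
        simpa [pr, symG, show l ≠ 0 by omega, show l ≠ 1 by omega] using (h r hr).2
  have cG := hG.continuous
  have cG' : Continuous (deriv G) := hG.continuous_deriv (by simp)
  have c1 : Continuous (evf B.Q) := by rw [funext hQ]; fun_prop
  have c2 : Continuous (evf B.DQ) := by
    rw [funext hD]
    simp only [DQr, deriv_Qr hG, Qr]
    fun_prop
  have c3 : ∀ i, Continuous (evf fun ξ => I * ξ i * B.Q ξ) := fun i => by
    rw [funext (hX i)]; fun_prop
  intro y
  exact ⟨congrFun (Continuous.ext_on (dense_compl_singleton (0 : Eu 12)) cf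
      (by unfold Bg.eF; fun_prop) fun y hy => (h2 y hy).1) y,
    congrFun (Continuous.ext_on (dense_compl_singleton (0 : Eu 12)) cg
      (by unfold Bg.eG; fun_prop) fun y hy => (h2 y hy).2) y⟩

end Vale.Agent.P139Z
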