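import Vale.Agent.P139Z.Semi
import Vale.Agent.P139Z.Per
import Vale.Agent.P139Z.Energy
import Vale.Agent.P139Z.Step.Core

/-!
Block STEP: the one-step contraction modulo symmetries on the torus.
-/

open Set Filter Topology MeasureTheory Complex
open scoped NNReal ENNReal ComplexConjugate ContDiff

namespace Vale.Agent.P139Z

open Vale.Agent.P139 Vale.Agent.P139.A Vale.Agent.P139.A.WA XW

variable {d m : ℕ}

namespace Bg

variable (B : Bg d m)

/-- Distance of `a`, rescaled to scale `lam`, from the profile. -/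
noncomputable def dist (k : ℕ) (lam : ℝ) (a : WA d k) : ℝ :=
  nrm lam k (cexp (2 * B.Λ * Real.log lam) • a - per lam (B.Qh k))

/-- Block STEP. -/
theorem one_step (hm : 1 ≤ m) {k : ℕ} (hk : 8 * B.K0 + 8 ≤ k) (hL : B.LIN k) :
    ∃ δ₀ : ℝ, 0 < δ₀ ∧ ∀ δ : ℝ, 0 < δ → δ ≤ δ₀ → ∃ lam₀ : ℝ, 0 < lam₀ ∧ lam₀ ≤ 1 ∧
      ∀ lam : ℝ, 0 < lam → lam ≤ lam₀ → ∀ U : ℝ → WA d k, IsWSol m (lam ^ 2) U →
        B.dist k lam (U 0) ≤ δ →
        ∃ t ∈ Icc 0 (lam ^ 2), ∃ lam' : ℝ, 0 < lam' ∧ lam' ≤ lam / 2 ∧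
          ∃ (x : Fin d → ℝ) (w : ℂ), ‖w‖ = 1 ∧ B.dist k lam' (w • shift x (U t)) ≤ δ := by
  have hK0 := Step.K0_nonneg B
  have hk8 : (8 : ℝ) ≤ k := by linarith
  have hk2 : 2 ≤ k := by
    have : (2 : ℝ) ≤ k := by linarith
    exact_mod_cast this
  obtain ⟨p, hp⟩ : ∃ p : ℝ, p = 2 ^ k := ⟨_, rfl⟩
  have hp1 : 1 ≤ p := hp ▸ one_le_pow₀ one_le_two
  have hp0 : 0 < p := by linarith
  obtain ⟨τ, hτ₀, hτ, L₀, hLIN⟩ := hL (1 / (16 * p ^ 3)) (by positivity) (16 * p)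
  obtain ⟨L, hLd⟩ : ∃ L, L = |L₀| + 1 := ⟨_, rfl⟩
  have hL1 : 1 ≤ L := by rw [hLd]; linarith [abs_nonneg L₀]
  have hL0 : 0 < L := by linarith
  have hLL : L₀ ≤ L := by rw [hLd]; linarith [le_abs_self L₀]
  obtain ⟨C, hC, hcore⟩ := Step.core B hm hk2 (by linarith) hτ.le
  have hC0 : 0 < C := by linarith
  obtain ⟨δm, hδm, hmod⟩ := B.modulation hk2 (1 / (8 * p ^ 2 * L)) (by positivity)
  refine ⟨min (1 / (16 * p * C)) (min δm 1 / (L * p)), by positivity, fun δ hδ hδ0 => ?_⟩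
  have hδ1 : δ ≤ 1 / (16 * p * C) := hδ0.trans (min_le_left _ _)
  have hδ2 : L * (p * δ) ≤ min δm 1 := by
    have h := hδ0.trans (min_le_right _ _)
    rw [le_div_iff₀ (by positivity)] at h
    linarith
  have hCδ : C * δ ≤ 1 := by
    rw [le_div_iff₀ (by positivity)] at hδ1
    have : 0 ≤ (16 * p - 1) * (C * δ) := mul_nonneg (by linarith) (by positivity)
    linarith
  obtain ⟨M, hM⟩ : ∃ M, M = 16 * p * C := ⟨_, rfl⟩
  have hM0 : 0 ≤ M := by rw [hM]; positivity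
  have hN := norm_nonneg (B.Qh k)
  obtain ⟨ε, hε⟩ : ∃ ε, ε = δ / (16 * (‖B.Qh k‖ + 1) + 16 * p * C * (1 + M)) := ⟨_, rfl⟩
  have hε0 : 0 < ε := by rw [hε]; positivity
  have hεδ : ε ≤ δ := by
    rw [hε]
    refine div_le_self hδ.le ?_
    have : 0 ≤ 16 * p * C * (1 + M) := by positivity
    linarith
  obtain ⟨lam₀, hl0, hl1, hErr⟩ := Step.exists_err B hm k hε0
  refine ⟨lam₀, hl0, hl1, fun lam hlam hle U hU h0 => ?_⟩
  have hE : ∀ s ∈ Icc 0 τ, Step.Err B k (Step.rho lam s) ε := fun s hs =>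
    hErr _ (Step.rho_pos hlam s) ((Step.rho_le hlam.le hs.1).trans hle)
  have h0' : nrm lam k (Step.resc B.Λ lam U 0 - per lam (B.Qh k)) ≤ δ := by
    unfold Step.resc Step.amp
    rw [Step.rho_zero, Step.tim_zero]
    exact h0
  obtain ⟨Z, hZ, hZ0, hz⟩ := hcore lam ε δ M _ hlam (hle.trans hl1) hM0 hδ hεδ hCδ hE
    (Step.lin_resc hm B.Λ_re hlam hU τ) h0'
  rw [← hp] at hZ0
  obtain ⟨θ, μ, y, hpar, hX⟩ := hLIN Z hZ
  have hpar' : |θ| + |μ| + ‖y‖ ≤ L * (p * δ) :=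
    hpar.trans ((mul_le_mul_of_nonneg_right hLL (norm_nonneg _)).trans
      (mul_le_mul_of_nonneg_left hZ0 hL0.le))
  have hpar1 : |θ| + |μ| + ‖y‖ ≤ 1 := hpar'.trans (hδ2.trans (min_le_right _ _))
  have hm1 := (hmod θ μ y (hpar'.trans (hδ2.trans (min_le_left _ _)))).trans
    (mul_le_mul_of_nonneg_left hpar' (by positivity))
  have hκ : 1 / (8 * p ^ 2 * L) * (L * (p * δ)) ≤ 1 := by
    refine mul_le_one₀ ?_ (by positivity) (hδ2.trans (min_le_right _ _))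
    rw [div_le_one (by positivity)]
    have h1 : 1 ≤ p ^ 2 := one_le_pow₀ hp1
    nlinarith
  have hρ : Step.rho lam τ ≤ lam / 4 := by
    have h1 : Real.exp (-(τ / 2)) ≤ 1 / 4 := Step.exp_neg_le (by norm_num) (by linarith)
    unfold Step.rho
    rw [neg_div]
    linarith [mul_le_mul_of_nonneg_left h1 hlam.le]
  have hρ0 := Step.rho_pos hlam τ
  have hfin := Step.final_mod B hm hρ0 (by linarith) (hE τ ⟨hτ.le, le_rfl⟩).sm hpar1 hm1 hκ
    (hX.trans (mul_le_mul_of_nonneg_left hZ0 (by positivity))) hz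
  rw [← hp] at hfin
  have hμ : Real.exp (-μ / 2) ≤ 2 := by
    have h1 : |μ| ≤ 1 := by linarith [abs_nonneg θ, norm_nonneg y]
    exact Step.exp_le_two (by linarith [(abs_le.1 h1).1])
  refine ⟨Step.tim lam τ, Step.tim_mem hτ.le, Step.rho lam τ * Real.exp (-μ / 2), by positivity,
    ?_, fun i => Step.rho lam τ * Real.exp (-μ / 2) * (-y) i, cexp (-I * θ),
    Step.norm_phase' θ, ?_⟩
  · linarith [mul_le_mul_of_nonneg_left hμ hρ0.le]
  · unfold dist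
    rw [smul_comm, ← map_smul, Step.amp_dil B.Λ hlam, mul_smul]
    exact hfin.trans (Step.final_real hp1 hN hC hL1 hδ hδ1 hM hε
      (Step.exp_neg_le (by positivity) hτ₀) le_rfl le_rfl)

end Bg

end Vale.Agent.P139Z
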