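import Vale.Agent.P139Z.Sym.Bgd

/-!
Block SYM: symbols of negative order are Fourier transforms of functions with all moments; the
background data of a radial profile.
-/

open Set Filter Topology MeasureTheory Complex
open scoped NNReal ENNReal ComplexConjugate ContDiff

namespace Vale.Agent.P139Z

/-- A smooth symbol of negative order is the Fourier transform of a function with all moments. -/
theorem exists_allMom_of_symbol {d : ℕ} {f : Eu d → ℂ} (hf : ContDiff ℝ ∞ f) {a : ℝ} (ha : 0 < a)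
    (hb : ∀ j : ℕ, ∃ C : ℝ, ∀ y, ‖iteratedFDeriv ℝ j f y‖ ≤ C * (1 + ‖y‖) ^ (-(a + j))) :
    ∃ F : Fq d → ℂ, AllMom F ∧ ∀ y, evf F y = f y :=
  Sym.exists_allMom hf ha hb

/-- Radial symbols. -/
theorem symbol_radial {d : ℕ} {G : ℝ → ℂ} (hG : ContDiff ℝ ∞ G) {a : ℝ}
    (hb : ∀ j : ℕ, ∃ C : ℝ, ∀ ρ : ℝ, 0 ≤ ρ → ‖iteratedDeriv j G ρ‖ ≤ C * (1 + ρ) ^ (-(a + j)))
    (j : ℕ) : ∃ C : ℝ, ∀ y : Eu d,
      ‖iteratedFDeriv ℝ j (fun z : Eu d => G (‖z‖ ^ 2)) y‖ ≤ C * (1 + ‖y‖) ^ (-(2 * a + j)) :=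
  Sym.radial hG hb j

/-- The background data of a radial profile in dimension twelve. -/
theorem exists_bg {m : ℕ} (hm : 1 ≤ m) {β : ℝ} {G : ℝ → ℂ} (h : IsProfile m β G) :
    ∃ B : Bg 12 m, B.Λ = Lam m β ∧ (∀ y, evf B.Q y = G (‖y‖ ^ 2)) ∧
      (∀ y, evf B.DQ y = DQr m β G ‖y‖) ∧
      ∀ i y, evf (fun ξ => I * ξ i * B.Q ξ) y = 2 * (y i : ℂ) * deriv G (‖y‖ ^ 2) :=
  Sym.bgd hm h

end Vale.Agent.P139Z
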