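import Vale.Agent.P139Z.HF
import Vale.Agent.P139Z.LS
import Vale.Agent.P139Z.BF
import Vale.Agent.P139Z.Lms
import Vale.Agent.P139Z.Family

/-! A mode-stable self-similar profile. -/

open Set Filter Topology MeasureTheory Complex
open scoped NNReal ENNReal ComplexConjugate ContDiff

namespace Vale.Agent.P139Z

namespace ThmA

theorem pf_nonneg (m : ℕ) (G : ℝ → ℂ) (ρ : ℝ) : 0 ≤ Pf m G ρ := by
  unfold Pf
  positivity

theorem goodInt_mono {m : ℕ} {β : ℝ} {G : ℝ → ℂ} {C₀ ε ε' ϑ ρb : ℝ} (h : GoodInt m β G C₀ ε ϑ ρb)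
    (hε : ε ≤ ε') : GoodInt m β G C₀ ε' ϑ ρb :=
  { h with
    mono := fun ρ hρ => (h.mono ρ hρ).trans
      (add_le_add (mul_le_mul_of_nonneg_right hε (pf_nonneg m G ρ)) hε) }

theorem goodExt_mono {m : ℕ} {G : ℝ → ℂ} {ε ε' ρa ρa' : ℝ} (h : GoodExt m G ε ρa) (hε : ε ≤ ε')
    (h0 : 0 ≤ ρa') (hρ : ρa ≤ ρa') : GoodExt m G ε' ρa' :=
  ⟨fun i hi ρ hρ' => (h.v1 i hi ρ (hρ.trans hρ')).trans
      (mul_le_mul_of_nonneg_right hε (Real.rpow_nonneg (h0.trans hρ') _)),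
    fun i hi ρ hρ' => (h.v2 i hi ρ (hρ.trans hρ')).trans
      (mul_le_mul_of_nonneg_right hε (Real.rpow_nonneg (h0.trans hρ') _))⟩

theorem le_Lc (l : ℕ) : (l : ℝ) ≤ Lc l := by
  unfold Lc
  have : (0 : ℝ) ≤ l := Nat.cast_nonneg l
  nlinarith

end ThmA

open ThmA

theorem modeStable_eventually {m : ℕ → ℕ} {β : ℕ → ℝ} {G : ℕ → ℝ → ℂ} {βi Z : ℝ} {U : ℝ → ℂ}
    (h : IsFamily m β G βi Z U) (hs : LimStable βi Z U) :
    ∀ᶠ j in atTop, ModeStable (m j) (β j) (G j) := by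
  obtain ⟨C₀, c, C₁, hc, hgood⟩ := h.good
  obtain ⟨σ₁, hLS⟩ := triv_large_re C₀ C₁ hc
  obtain ⟨ε₀, hε₀, ϑ₀, hϑ₀, hHF⟩ := triv_high C₀ (max σ₁ 2)
  obtain ⟨δ, hδ, hδ1, hg⟩ := hgood (min ε₀ 1) ϑ₀ (lt_min hε₀ one_pos) hϑ₀
  obtain ⟨Ω₁, hΩ⟩ := hHF δ hδ
  obtain ⟨N, hN⟩ := exists_nat_ge (max Ω₁ 100)
  have hZ1 : (2.7048 : ℝ) ≤ Z := h.lim.inZ.1
  have hZ2 : Z ≤ (2.7054 : ℝ) := h.lim.inZ.2
  have hB : ∀ᶠ j in atTop, ∀ l ∈ Finset.range (N + 1), ∀ lam : ℂ, 0 ≤ lam.re →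
      ‖lam‖ ≤ max σ₁ 2 + N → MSat (m j) (β j) (G j) l lam :=
    (Finset.eventually_all _).2 fun l _ => msat_bounded h hs l _
  filter_upwards [hg δ hδ le_rfl, hB] with j ⟨hI, hE, hF⟩ hB
  intro l lam h0
  show MSat (m j) (β j) (G j) l lam
  have hre : |lam.re| ≤ ‖lam‖ := abs_re_le_norm lam
  have him : |lam.im| ≤ ‖lam‖ := abs_im_le_norm lam
  by_cases h1 : max σ₁ 2 ≤ lam.re
  · refine msat_of_triv hI.one_le (h.prof j) (Or.inl ?_) (hLS _ _ _ ϑ₀ _ l lam (h.prof j)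
      (goodInt_mono hI (min_le_right _ _))
      (goodExt_mono hE (min_le_right _ _) (by norm_num) (by linarith)) hF
      ((le_max_left _ _).trans h1))
    exact ((le_max_right _ _).trans h1).trans ((le_abs_self _).trans hre)
  · by_cases h2 : (N : ℝ) ≤ Om l lam
    · have hI' : GoodInt (m j) (β j) (G j) C₀ ε₀ ϑ₀ (4 * Z + δ + δ) := by
        rw [show 4 * Z + δ + δ = 4 * Z + 2 * δ by ring]
        exact goodInt_mono hI (min_le_left _ _)
      refine msat_of_triv hI.one_le (h.prof j) ?_ (hΩ _ _ _ _ l lam (h.prof j) hI'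
        (goodExt_mono hE (min_le_left _ _) (by linarith) le_rfl) (by linarith) (by linarith) h0
        (not_le.1 h1).le (((le_max_left _ _).trans hN).trans h2))
      by_cases hl : 2 ≤ l
      · exact Or.inr hl
      · left
        have h100 : (100 : ℝ) ≤ Om l lam := ((le_max_right _ _).trans hN).trans h2
        have hL : Lc l ≤ 11 := by
          unfold Lc
          have : l = 0 ∨ l = 1 := by omega
          rcases this with rfl | rfl <;> norm_num
        unfold Om at h100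
        linarith
    · have h3 : Om l lam < N := not_le.1 h2
      unfold Om at h3
      have h4 := le_Lc l
      have h5 : (0 : ℝ) ≤ l := Nat.cast_nonneg l
      have h6 : 0 ≤ |lam.im| := abs_nonneg _
      have hl : l ∈ Finset.range (N + 1) := by
        rw [Finset.mem_range]
        have : (l : ℝ) < N := by linarith
        have : l < N := by exact_mod_cast this
        omega
      refine hB l hl lam h0 ((norm_le_abs_re_add_abs_im lam).trans ?_)
      rw [abs_of_nonneg h0]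
      linarith [not_le.1 h1]

theorem exists_modeStable : ∃ (m : ℕ) (β : ℝ) (G : ℝ → ℂ), 1 ≤ m ∧ IsProfile m β G ∧
    ModeStable m β G := by
  obtain ⟨m, β, G, βi, Z, U, h⟩ := exists_family
  obtain ⟨j, hj, hm⟩ := ((modeStable_eventually h (limStable_of_isLimProf h.lim)).and
    (h.m_tendsto.eventually_ge_atTop 1)).exists
  exact ⟨m j, β j, G j, hm, h.prof j, hj⟩

end Vale.Agent.P139Z
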