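import Vale.Agent.P139Z.Blow
import Vale.Agent.P139Z.Prob
import Vale.Agent.P139Z.Lin
import Vale.Agent.P139Z.Sph
import Vale.Agent.P139Z.Sym

/-! From a mode-stable profile to blow-up with positive probability. -/

open Set Filter Topology MeasureTheory ProbabilityTheory Complex
open scoped NNReal ENNReal ComplexConjugate

namespace Vale.Agent.P139Z

open Vale.Agent.P139.A

theorem blowup_of_modeStable {m : ℕ} {β : ℝ} {G : ℝ → ℂ} (hm : 1 ≤ m) (hG : IsProfile m β G)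
    (hs : ModeStable m β G) :
    ∃ α₁ T₀ : ℝ, ∀ α : ℝ, α₁ < α → ∀ (Ω : Type) [MeasurableSpace Ω] (P : Measure Ω)
      [IsProbabilityMeasure P] (g : (Fin 12 → ℤ) → Ω → ℂ), (∀ n, Measurable (g n)) →
      iIndepFun g P → (∀ n, P.map (g n) = stdComplexGaussian) →
      ∃ E : Set Ω, MeasurableSet E ∧ 0 < P E ∧ ∀ ω ∈ E, ∀ k : ℕ, 12 < 2 * k →
        lifespan 12 (2 * m + 1) k (datum g α ω) ≤ ENNReal.ofReal T₀ := by
  obtain ⟨B, hΛ, hQ, hD, hX⟩ := exists_bg hm hG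
  have hP : B.PMS 30 := pms_of_modeStable hG.smooth hs B hΛ hQ hD hX
  obtain ⟨k₀, hk₀⟩ := exists_nat_ge (8 * B.K0 + 8)
  have hk : 8 * B.K0 + 8 ≤ ((max 30 k₀ : ℕ) : ℝ) :=
    hk₀.trans (by exact_mod_cast le_max_right 30 k₀)
  have hL : B.LIN (max 30 k₀) := B.lin_of_pms hm hP (le_max_left _ _) hk
  obtain ⟨φ, ε, T₀, hε, -, hφ, H⟩ := B.blowup_set hm hk hL
  refine ⟨((max 30 k₀ : ℕ) : ℝ) + 1 + (12 : ℕ), T₀, fun α hα Ω _ P _ g hg hind hlaw => ?_⟩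
  obtain ⟨E, hE, hP, hω⟩ := ball_pos P g hg hind hlaw hα φ hφ hε
  exact ⟨E, hE, hP, fun ω h k hk' => H _ (hω ω h).1 (hω ω h).2 k hk'⟩

end Vale.Agent.P139Z
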