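import Vale.Agent.P139Z.Defs

/-!
Block XBASE: basic interface of the weighted Fourier spaces and construction of the operators.
-/

open Set Filter Topology MeasureTheory Complex
open scoped NNReal ENNReal ComplexConjugate ContDiff

namespace Vale.Agent.P139Z

open Vale.Agent.P139.A

variable {d k : ℕ}

namespace XBase

theorem one_le_wt (k : ℕ) (ξ : Fq d) : 1 ≤ wt k ξ :=
  one_le_pow₀ (le_add_of_nonneg_right (norm_nonneg _))

theorem wt_pos (k : ℕ) (ξ : Fq d) : 0 < wt k ξ := lt_of_lt_of_le one_pos (one_le_wt k ξ)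

theorem wt_ne (k : ℕ) (ξ : Fq d) : (wt k ξ : ℂ) ≠ 0 := by
  exact_mod_cast (wt_pos k ξ).ne'

theorem norm_wt (k : ℕ) (ξ : Fq d) : ‖(wt k ξ : ℂ)‖ = wt k ξ := by
  rw [Complex.norm_real, Real.norm_of_nonneg (wt_pos k ξ).le]

theorem norm_wt_mul (k : ℕ) (ξ : Fq d) (z : ℂ) : ‖(wt k ξ : ℂ) * z‖ = wt k ξ * ‖z‖ := by
  rw [norm_mul, norm_wt]

theorem continuous_wt (k : ℕ) : Continuous fun ξ : Fq d => wt k ξ := by
  unfold wt
  fun_prop

theorem continuous_wtC (k : ℕ) : Continuous fun ξ : Fq d => (wt k ξ : ℂ) :=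
  Complex.continuous_ofReal.comp (continuous_wt k)

theorem wt_mono {i j : ℕ} (h : i ≤ j) (ξ : Fq d) : wt i ξ ≤ wt j ξ :=
  pow_le_pow_right₀ (le_add_of_nonneg_right (norm_nonneg _)) h

theorem wt_neg (k : ℕ) (ξ : Fq d) : wt k (-ξ) = wt k ξ := by
  unfold wt
  rw [norm_neg]

theorem wt_add_le (k : ℕ) (ξ η : Fq d) : wt k (ξ + η) ≤ wt k ξ * wt k η := by
  unfold wt
  rw [← mul_pow]
  refine pow_le_pow_left₀ (by positivity) ?_ k
  have h1 := norm_add_le ξ η
  have h2 := mul_nonneg (norm_nonneg ξ) (norm_nonneg η)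
  nlinarith

theorem wt_le_mul_sub (k : ℕ) (ξ η : Fq d) : wt k ξ ≤ wt k η * wt k (ξ - η) := by
  have h := wt_add_le k η (ξ - η)
  rwa [add_sub_cancel] at h

theorem wt_le_smul (k : ℕ) {a : ℝ} (ha : 0 < a) (ξ : Fq d) :
    wt k ξ ≤ (1 + a⁻¹) ^ k * wt k (a • ξ) := by
  unfold wt
  rw [← mul_pow]
  refine pow_le_pow_left₀ (by positivity) ?_ k
  rw [norm_smul, Real.norm_of_nonneg ha.le]
  have h1 : a⁻¹ * (a * ‖ξ‖) = ‖ξ‖ := by
    rw [← mul_assoc, inv_mul_cancel₀ ha.ne', one_mul]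
  have h2 : 0 ≤ a * ‖ξ‖ := mul_nonneg ha.le (norm_nonneg _)
  have h3 : 0 ≤ a⁻¹ := inv_nonneg.2 ha.le
  nlinarith

/-- The underlying integrable function. -/
def toL (F : XW d k) : Lp ℂ 1 (volume : Measure (Fq d)) := F

theorem fn_eq (F : XW d k) (ξ : Fq d) : XW.fn F ξ = toL F ξ / (wt k ξ : ℂ) := rfl

theorem wt_mul_fn (F : XW d k) (ξ : Fq d) : (wt k ξ : ℂ) * XW.fn F ξ = toL F ξ := by
  rw [fn_eq, mul_div_cancel₀ _ (wt_ne k ξ)]

theorem aesm_fn (F : XW d k) : AEStronglyMeasurable (XW.fn F) volume := by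
  have h : XW.fn F = fun ξ => toL F ξ * ((wt k ξ : ℂ))⁻¹ := by
    funext ξ
    rw [fn_eq, div_eq_mul_inv]
  rw [h]
  exact (Lp.aestronglyMeasurable (toL F)).mul
    ((continuous_wtC k).inv₀ (wt_ne k)).aestronglyMeasurable

theorem continuous_dot (y : Eu d) : Continuous fun ξ : Fq d => dot ξ y := by
  unfold dot
  fun_prop

theorem continuous_sq : Continuous fun ξ : Fq d => sq ξ := by
  unfold sq
  fun_prop

theorem norm_cexp_dot (ξ : Fq d) (y : Eu d) : ‖cexp (I * dot ξ y)‖ = 1 := by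
  rw [mul_comm]
  exact Complex.norm_exp_ofReal_mul_I _

theorem continuous_cexp_dot (y : Eu d) : Continuous fun ξ : Fq d => cexp (I * dot ξ y) :=
  Complex.continuous_exp.comp
    (continuous_const.mul (Complex.continuous_ofReal.comp (continuous_dot y)))

end XBase

open XBase

namespace XW

theorem fn_mk (f : Fq d → ℂ) (h : Integrable fun ξ => (wt k ξ : ℂ) * f ξ) :
    fn (mk f h : XW d k) =ᵐ[volume] f := by
  filter_upwards [h.coeFn_toL1] with ξ hξ
  have h1 : toL (mk f h : XW d k) ξ = (wt k ξ : ℂ) * f ξ := hξ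
  rw [fn_eq, h1, mul_div_cancel_left₀ _ (wt_ne k ξ)]

theorem integrable_wt (F : XW d k) {j : ℕ} (hj : j ≤ k) :
    Integrable fun ξ => (wt j ξ : ℂ) * fn F ξ := by
  refine (L1.integrable_coeFn (toL F)).mono
    ((continuous_wtC j).aestronglyMeasurable.mul (aesm_fn F)) (Eventually.of_forall fun ξ => ?_)
  rw [← wt_mul_fn, norm_wt_mul, norm_wt_mul]
  exact mul_le_mul_of_nonneg_right (wt_mono hj ξ) (norm_nonneg _)

theorem integrable_fn (F : XW d k) : Integrable (fn F) := by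
  have h := integrable_wt F (Nat.zero_le k)
  simpa [wt] using h

theorem norm_eq (F : XW d k) : ‖F‖ = nrmX k F := by
  have h : ‖F‖ = ∫ ξ, ‖toL F ξ‖ := L1.norm_eq_integral_norm (toL F)
  rw [h]
  unfold nrmX
  refine integral_congr_ae (Eventually.of_forall fun ξ => ?_)
  simp only
  rw [← wt_mul_fn, norm_wt_mul]

theorem nrmX_nonneg (j : ℕ) (F : XW d k) : 0 ≤ nrmX j F :=
  integral_nonneg fun ξ => mul_nonneg (wt_pos j ξ).le (norm_nonneg _)

theorem integrable_wt_norm (F : XW d k) {j : ℕ} (hj : j ≤ k) :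
    Integrable fun ξ => wt j ξ * ‖fn F ξ‖ := by
  have h := (integrable_wt F hj).norm
  simpa only [norm_wt_mul] using h

theorem nrmX_mono (F : XW d k) {i j : ℕ} (hij : i ≤ j) (hj : j ≤ k) : nrmX i F ≤ nrmX j F :=
  integral_mono (integrable_wt_norm F (hij.trans hj)) (integrable_wt_norm F hj) fun ξ =>
    mul_le_mul_of_nonneg_right (wt_mono hij ξ) (norm_nonneg _)

theorem ext_ae {F G : XW d k} (h : fn F =ᵐ[volume] fn G) : F = G := by
  have h1 : toL F = toL G := by
    refine Lp.ext ?_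
    filter_upwards [h] with ξ hξ
    rw [← wt_mul_fn, ← wt_mul_fn, hξ]
  exact h1

theorem fn_add (F G : XW d k) : fn (F + G) =ᵐ[volume] fun ξ => fn F ξ + fn G ξ := by
  filter_upwards [Lp.coeFn_add (toL F) (toL G)] with ξ hξ
  have h1 : toL (F + G) ξ = toL F ξ + toL G ξ := hξ
  rw [fn_eq, fn_eq, fn_eq, h1, add_div]

theorem fn_sub (F G : XW d k) : fn (F - G) =ᵐ[volume] fun ξ => fn F ξ - fn G ξ := by
  filter_upwards [Lp.coeFn_sub (toL F) (toL G)] with ξ hξ
  have h1 : toL (F - G) ξ = toL F ξ - toL G ξ := hξ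
  rw [fn_eq, fn_eq, fn_eq, h1, sub_div]

theorem fn_neg (F : XW d k) : fn (-F) =ᵐ[volume] fun ξ => -fn F ξ := by
  filter_upwards [Lp.coeFn_neg (toL F)] with ξ hξ
  have h1 : toL (-F) ξ = -toL F ξ := hξ
  rw [fn_eq, fn_eq, h1, neg_div]

theorem fn_smul (c : ℂ) (F : XW d k) : fn (c • F) =ᵐ[volume] fun ξ => c * fn F ξ := by
  filter_upwards [Lp.coeFn_smul c (toL F)] with ξ hξ
  have h1 : toL (c • F) ξ = c * toL F ξ := hξ
  rw [fn_eq, fn_eq, h1, mul_div_assoc]

theorem fn_zero : fn (0 : XW d k) =ᵐ[volume] fun _ => 0 := by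
  filter_upwards [Lp.coeFn_zero ℂ 1 (volume : Measure (Fq d))] with ξ hξ
  have h1 : toL (0 : XW d k) ξ = 0 := hξ
  rw [fn_eq, h1, zero_div]

theorem nrmX_add_le {j : ℕ} (hj : j ≤ k) (F G : XW d k) :
    nrmX j (F + G) ≤ nrmX j F + nrmX j G := by
  unfold nrmX
  rw [← integral_add (integrable_wt_norm F hj) (integrable_wt_norm G hj)]
  refine integral_mono_ae (integrable_wt_norm _ hj)
    ((integrable_wt_norm F hj).add (integrable_wt_norm G hj)) ?_
  filter_upwards [fn_add F G] with ξ hξ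
  rw [hξ, ← mul_add]
  exact mul_le_mul_of_nonneg_left (norm_add_le _ _) (wt_pos j ξ).le

theorem nrmX_smul (j : ℕ) (c : ℂ) (F : XW d k) : nrmX j (c • F) = ‖c‖ * nrmX j F := by
  unfold nrmX
  rw [← integral_const_mul]
  refine integral_congr_ae ?_
  filter_upwards [fn_smul c F] with ξ hξ
  rw [hξ, norm_mul]
  ring

theorem ev_mk (f : Fq d → ℂ) (h : Integrable fun ξ => (wt k ξ : ℂ) * f ξ) :
    ev (mk f h : XW d k) = evf f := by
  funext y
  unfold ev evf
  refine integral_congr_ae ?_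
  filter_upwards [fn_mk f h] with ξ hξ
  rw [hξ]

theorem norm_mk (f : Fq d → ℂ) (h : Integrable fun ξ => (wt k ξ : ℂ) * f ξ) :
    ‖(mk f h : XW d k)‖ = ∫ ξ, wt k ξ * ‖f ξ‖ := by
  rw [norm_eq]
  unfold nrmX
  refine integral_congr_ae ?_
  filter_upwards [fn_mk f h] with ξ hξ
  rw [hξ]

theorem fn_real_smul (c : ℝ) (F : XW d k) :
    fn (c • F) =ᵐ[volume] fun ξ => (c : ℂ) * fn F ξ := by
  rw [← Complex.coe_smul]
  exact fn_smul (c : ℂ) F

theorem mk_add {f g h : Fq d → ℂ} (hf : Integrable fun ξ => (wt k ξ : ℂ) * f ξ)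
    (hg : Integrable fun ξ => (wt k ξ : ℂ) * g ξ) (hh : Integrable fun ξ => (wt k ξ : ℂ) * h ξ)
    (e : h =ᵐ[volume] fun ξ => f ξ + g ξ) : (mk h hh : XW d k) = mk f hf + mk g hg := by
  refine ext_ae ?_
  filter_upwards [fn_mk h hh, fn_mk f hf, fn_mk g hg, fn_add (mk f hf : XW d k) (mk g hg), e]
    with ξ h1 h2 h3 h4 h5
  rw [h1, h4, h2, h3, h5]

theorem mk_smul {f h : Fq d → ℂ} (c : ℂ) (hf : Integrable fun ξ => (wt k ξ : ℂ) * f ξ)
    (hh : Integrable fun ξ => (wt k ξ : ℂ) * h ξ)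
    (e : h =ᵐ[volume] fun ξ => c * f ξ) : (mk h hh : XW d k) = c • mk f hf := by
  refine ext_ae ?_
  filter_upwards [fn_mk h hh, fn_mk f hf, fn_smul c (mk f hf : XW d k), e]
    with ξ h1 h2 h4 h5
  rw [h1, h4, h2, h5]

/-- Builder of complex-linear operators with values in the weighted space. -/
theorem exists_clm {E : Type*} [NormedAddCommGroup E] [NormedSpace ℂ E] (Φ : E → Fq d → ℂ)
    (C : ℝ) (hint : ∀ F, Integrable fun ξ => (wt k ξ : ℂ) * Φ F ξ)
    (hadd : ∀ F G, Φ (F + G) =ᵐ[volume] fun ξ => Φ F ξ + Φ G ξ)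
    (hsmul : ∀ (c : ℂ) F, Φ (c • F) =ᵐ[volume] fun ξ => c * Φ F ξ)
    (hb : ∀ F, ∫ ξ, wt k ξ * ‖Φ F ξ‖ ≤ C * ‖F‖) :
    ∃ L : E →L[ℂ] XW d k, ∀ F, fn (L F) =ᵐ[volume] Φ F := by
  let L0 : E →ₗ[ℂ] XW d k :=
    { toFun := fun F => mk (Φ F) (hint F)
      map_add' := fun F G => mk_add _ _ _ (hadd F G)
      map_smul' := fun c F => mk_smul c _ _ (hsmul c F) }
  refine ⟨L0.mkContinuous C fun F => ?_, fun F => fn_mk _ (hint F)⟩
  exact (norm_mk _ (hint F)).le.trans (hb F)

/-- Builder of real-linear operators with values in the weighted space. -/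
theorem exists_clm_real {E : Type*} [NormedAddCommGroup E] [NormedSpace ℝ E] (Φ : E → Fq d → ℂ)
    (C : ℝ) (hint : ∀ F, Integrable fun ξ => (wt k ξ : ℂ) * Φ F ξ)
    (hadd : ∀ F G, Φ (F + G) =ᵐ[volume] fun ξ => Φ F ξ + Φ G ξ)
    (hsmul : ∀ (c : ℝ) F, Φ (c • F) =ᵐ[volume] fun ξ => (c : ℂ) * Φ F ξ)
    (hb : ∀ F, ∫ ξ, wt k ξ * ‖Φ F ξ‖ ≤ C * ‖F‖) :
    ∃ L : E →L[ℝ] XW d k, ∀ F, fn (L F) =ᵐ[volume] Φ F := by
  let L0 : E →ₗ[ℝ] XW d k :=
    { toFun := fun F => mk (Φ F) (hint F)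
      map_add' := fun F G => mk_add _ _ _ (hadd F G)
      map_smul' := fun c F => by
        rw [RingHom.id_apply, ← Complex.coe_smul]
        exact mk_smul (c : ℂ) _ _ (hsmul c F) }
  refine ⟨L0.mkContinuous C fun F => ?_, fun F => fn_mk _ (hint F)⟩
  exact (norm_mk _ (hint F)).le.trans (hb F)

theorem integrable_cexp_fn (F : XW d k) (y : Eu d) :
    Integrable fun ξ => cexp (I * dot ξ y) * fn F ξ := by
  refine (integrable_fn F).mono ((continuous_cexp_dot y).aestronglyMeasurable.mul (aesm_fn F))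
    (Eventually.of_forall fun ξ => ?_)
  rw [norm_mul, norm_cexp_dot, one_mul]

/-! #### the operators -/

theorem exists_evCLM (d k : ℕ) (y : Eu d) :
    ∃ L : XW d k →L[ℂ] ℂ, (∀ F, L F = ev F y) ∧ ‖L‖ ≤ 1 := by
  let L0 : XW d k →ₗ[ℂ] ℂ :=
    { toFun := fun F => ev F y
      map_add' := fun F G => by
        unfold ev evf
        rw [← integral_add (integrable_cexp_fn F y) (integrable_cexp_fn G y)]
        refine integral_congr_ae ?_
        filter_upwards [fn_add F G] with ξ hξ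
        rw [hξ, mul_add]
      map_smul' := fun c F => by
        unfold ev evf
        rw [RingHom.id_apply, smul_eq_mul, ← integral_const_mul]
        refine integral_congr_ae ?_
        filter_upwards [fn_smul c F] with ξ hξ
        rw [hξ]
        ring }
  have hb : ∀ F, ‖L0 F‖ ≤ 1 * ‖F‖ := by
    intro F
    rw [one_mul, norm_eq]
    refine (norm_integral_le_integral_norm _).trans ?_
    refine integral_mono (integrable_cexp_fn F y).norm (integrable_wt_norm F le_rfl) fun ξ => ?_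
    simp only
    rw [norm_mul, norm_cexp_dot]
    exact mul_le_mul_of_nonneg_right (one_le_wt k ξ) (norm_nonneg _)
  exact ⟨L0.mkContinuous 1 hb, fun F => rfl, L0.mkContinuous_norm_le zero_le_one hb⟩

/-- Evaluation at a point of physical space. -/
noncomputable def evCLM (y : Eu d) : XW d k →L[ℂ] ℂ := (exists_evCLM d k y).choose

theorem evCLM_apply (y : Eu d) (F : XW d k) : evCLM y F = ev F y :=
  (exists_evCLM d k y).choose_spec.1 F

theorem norm_Tfun (Λ : ℂ) (σ s : ℝ) (f : Fq d → ℂ) (ξ : Fq d) :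
    ‖Tfun Λ σ s f ξ‖ = Real.exp (-Λ.re * s + d * s / 2) * ‖f (Real.exp (s / 2) • ξ)‖ := by
  unfold Tfun
  rw [norm_mul, Complex.norm_exp]
  congr 2
  simp only [sub_re, add_re, mul_re, neg_re, ofReal_re, ofReal_im, mul_zero, sub_zero, I_re,
    zero_mul, I_im, one_mul, mul_im, zero_add, div_ofNat_re,
    natCast_re, natCast_im]

theorem aesm_Tfun (Λ : ℂ) (σ s : ℝ) {f : Fq d → ℂ} (hf : AEStronglyMeasurable f volume) :
    AEStronglyMeasurable (Tfun Λ σ s f) volume := by
  have h1 : Continuous fun ξ : Fq d =>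
      cexp (-Λ * s + (d : ℂ) * s / 2 - I * σ * ((Real.exp s - 1) * sq ξ : ℝ)) :=
    Complex.continuous_exp.comp (continuous_const.sub (continuous_const.mul
      (Complex.continuous_ofReal.comp (continuous_const.mul continuous_sq))))
  exact h1.aestronglyMeasurable.mul (hf.comp_quasiMeasurePreserving
    (Measure.quasiMeasurePreserving_smul volume (Real.exp_pos (s / 2)).ne'))

theorem exists_T (d k : ℕ) (Λ : ℂ) (σ s : ℝ) :
    ∃ L : XW d k →L[ℂ] XW d k, ∀ F, fn (L F) =ᵐ[volume] Tfun Λ σ s (fn F) := by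
  set a : ℝ := Real.exp (s / 2) with ha
  have ha0 : 0 < a := Real.exp_pos _
  have hq := Measure.quasiMeasurePreserving_smul (volume : Measure (Fq d)) ha0.ne'
  set c : ℝ := Real.exp (-Λ.re * s + d * s / 2) * (1 + a⁻¹) ^ k with hc
  have hpt : ∀ (F : XW d k) ξ, wt k ξ * ‖Tfun Λ σ s (fn F) ξ‖ ≤
      c * (wt k (a • ξ) * ‖fn F (a • ξ)‖) := by
    intro F ξ
    rw [norm_Tfun, ← ha, hc]
    have h1 := mul_le_mul_of_nonneg_right (wt_le_smul k ha0 ξ)
      (mul_nonneg (Real.exp_pos (-Λ.re * s + d * s / 2)).le (norm_nonneg (fn F (a • ξ))))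
    refine h1.trans (le_of_eq ?_)
    ring
  have hI : ∀ F : XW d k, Integrable fun ξ => c * (wt k (a • ξ) * ‖fn F (a • ξ)‖) := fun F =>
    ((integrable_wt_norm F le_rfl).comp_smul ha0.ne').const_mul c
  have hint : ∀ F : XW d k, Integrable fun ξ => (wt k ξ : ℂ) * Tfun Λ σ s (fn F) ξ := by
    intro F
    refine (hI F).mono' ((continuous_wtC k).aestronglyMeasurable.mul
      (aesm_Tfun Λ σ s (aesm_fn F))) (Eventually.of_forall fun ξ => ?_)
    rw [norm_wt_mul]
    exact hpt F ξ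
  refine exists_clm (fun F => Tfun Λ σ s (fn F)) (c * |(a ^ Module.finrank ℝ (Fq d))⁻¹|) hint
    (fun F G => ?_) (fun z F => ?_) (fun F => ?_)
  · filter_upwards [hq.ae (fn_add F G)] with ξ hξ
    unfold Tfun
    rw [← ha, hξ, mul_add]
  · filter_upwards [hq.ae (fn_smul z F)] with ξ hξ
    unfold Tfun
    rw [← ha, hξ]
    ring
  · have h1 : Integrable fun ξ => wt k ξ * ‖Tfun Λ σ s (fn F) ξ‖ := by
      simpa only [norm_wt_mul] using (hint F).norm
    refine (integral_mono h1 (hI F) (hpt F)).trans (le_of_eq ?_)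
    rw [integral_const_mul, Measure.integral_comp_smul volume
      (fun ξ => wt k ξ * ‖fn F ξ‖) a, norm_eq, smul_eq_mul]
    exact (mul_assoc c _ _).symm

/-- The free flow in self-similar variables. -/
noncomputable def T (Λ : ℂ) (σ s : ℝ) : XW d k →L[ℂ] XW d k := (exists_T d k Λ σ s).choose

theorem fn_T (Λ : ℂ) (σ s : ℝ) (F : XW d k) : fn (T Λ σ s F) =ᵐ[volume] Tfun Λ σ s (fn F) :=
  (exists_T d k Λ σ s).choose_spec F

theorem ae_conv_exists (F G : XW d k) :
    ∀ᵐ ξ, Integrable fun η => fn F η * fn G (ξ - η) :=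
  (integrable_fn F).ae_convolution_exists (ContinuousLinearMap.mul ℂ ℂ) (integrable_fn G)

theorem integrable_conv_fn (F G : XW d k) :
    Integrable fun ξ => ∫ η, fn F η * fn G (ξ - η) :=
  (integrable_fn F).integrable_convolution (ContinuousLinearMap.mul ℂ ℂ) (integrable_fn G)

theorem conv_wt_le (F G : XW d k) : ∀ᵐ ξ, wt k ξ * ‖∫ η, fn F η * fn G (ξ - η)‖ ≤
    ∫ η, (wt k η * ‖fn F η‖) * (wt k (ξ - η) * ‖fn G (ξ - η)‖) := by
  filter_upwards [(integrable_wt_norm F le_rfl).ae_convolution_exists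
    (ContinuousLinearMap.mul ℝ ℝ) (integrable_wt_norm G le_rfl)] with ξ hξ
  refine (mul_le_mul_of_nonneg_left (norm_integral_le_integral_norm _) (wt_pos k ξ).le).trans ?_
  rw [← integral_const_mul]
  refine integral_mono_of_nonneg (Eventually.of_forall fun η =>
    mul_nonneg (wt_pos k ξ).le (norm_nonneg _)) hξ (Eventually.of_forall fun η => ?_)
  simp only
  rw [norm_mul]
  have h1 := mul_le_mul_of_nonneg_right (wt_le_mul_sub k ξ η)
    (mul_nonneg (norm_nonneg (fn F η)) (norm_nonneg (fn G (ξ - η))))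
  refine h1.trans (le_of_eq ?_)
  ring

theorem integrable_conv_wt_norm (F G : XW d k) : Integrable fun ξ =>
    ∫ η, (wt k η * ‖fn F η‖) * (wt k (ξ - η) * ‖fn G (ξ - η)‖) :=
  (integrable_wt_norm F le_rfl).integrable_convolution (ContinuousLinearMap.mul ℝ ℝ)
    (integrable_wt_norm G le_rfl)

theorem integrable_wt_conv (F G : XW d k) :
    Integrable fun ξ => (wt k ξ : ℂ) * ∫ η, fn F η * fn G (ξ - η) := by
  refine (integrable_conv_wt_norm F G).mono' ((continuous_wtC k).aestronglyMeasurable.mul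
    (integrable_conv_fn F G).aestronglyMeasurable) ?_
  filter_upwards [conv_wt_le F G] with ξ hξ
  rw [norm_wt_mul]
  exact hξ

theorem integral_wt_conv_le (F G : XW d k) :
    ∫ ξ, wt k ξ * ‖∫ η, fn F η * fn G (ξ - η)‖ ≤ ‖F‖ * ‖G‖ := by
  have h1 : Integrable fun ξ => wt k ξ * ‖∫ η, fn F η * fn G (ξ - η)‖ := by
    simpa only [norm_wt_mul] using (integrable_wt_conv F G).norm
  refine (integral_mono_ae h1 (integrable_conv_wt_norm F G) (conv_wt_le F G)).trans (le_of_eq ?_)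
  rw [norm_eq, norm_eq]
  exact integral_convolution (ContinuousLinearMap.mul ℝ ℝ) (integrable_wt_norm F le_rfl)
    (integrable_wt_norm G le_rfl)

theorem ae_sub_left {p : Fq d → Prop} (h : ∀ᵐ η, p η) (ξ : Fq d) : ∀ᵐ η, p (ξ - η) :=
  (Measure.measurePreserving_sub_left volume ξ).quasiMeasurePreserving.ae h

theorem exists_conv (d k : ℕ) : ∃ L : XW d k →L[ℂ] XW d k →L[ℂ] XW d k,
    ∀ F G, fn (L F G) =ᵐ[volume] fun ξ => ∫ η, fn F η * fn G (ξ - η) := by
  let L0 : XW d k →ₗ[ℂ] XW d k →ₗ[ℂ] XW d k := LinearMap.mk₂ ℂ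
    (fun F G => mk (fun ξ => ∫ η, fn F η * fn G (ξ - η)) (integrable_wt_conv F G))
    (fun F F' G => mk_add _ _ _ (by
      filter_upwards [ae_conv_exists F G, ae_conv_exists F' G] with ξ h1 h2
      rw [← integral_add h1 h2]
      refine integral_congr_ae ?_
      filter_upwards [fn_add F F'] with η hη
      rw [hη, add_mul]))
    (fun c F G => mk_smul c _ _ (Eventually.of_forall fun ξ => by
      simp only
      rw [← integral_const_mul]
      refine integral_congr_ae ?_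
      filter_upwards [fn_smul c F] with η hη
      rw [hη, mul_assoc]))
    (fun F G G' => mk_add _ _ _ (by
      filter_upwards [ae_conv_exists F G, ae_conv_exists F G'] with ξ h1 h2
      rw [← integral_add h1 h2]
      refine integral_congr_ae ?_
      filter_upwards [ae_sub_left (fn_add G G') ξ] with η hη
      rw [hη, mul_add]))
    (fun c F G => mk_smul c _ _ (Eventually.of_forall fun ξ => by
      simp only
      rw [← integral_const_mul]
      refine integral_congr_ae ?_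
      filter_upwards [ae_sub_left (fn_smul c G) ξ] with η hη
      rw [hη]
      ring))
  refine ⟨L0.mkContinuous₂ 1 fun F G => ?_, fun F G => fn_mk _ (integrable_wt_conv F G)⟩
  rw [one_mul]
  exact (norm_mk _ (integrable_wt_conv F G)).le.trans (integral_wt_conv_le F G)

/-- Convolution. -/
noncomputable def conv : XW d k →L[ℂ] XW d k →L[ℂ] XW d k := (exists_conv d k).choose

theorem fn_conv (F G : XW d k) :
    fn (conv F G) =ᵐ[volume] fun ξ => ∫ η, fn F η * fn G (ξ - η) :=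
  (exists_conv d k).choose_spec F G

theorem ae_neg {p : Fq d → Prop} (h : ∀ᵐ η, p η) : ∀ᵐ η, p (-η) :=
  (Measure.measurePreserving_neg volume).quasiMeasurePreserving.ae h

theorem exists_st (d k : ℕ) : ∃ L : XW d k →L[ℝ] XW d k,
    ∀ F, fn (L F) =ᵐ[volume] fun ξ => conj (fn F (-ξ)) := by
  refine exists_clm_real (fun F ξ => conj (fn F (-ξ))) 1 (fun F => ?_) (fun F G => ?_)
    (fun c F => ?_) (fun F => ?_)
  · have h1 := (integrable_wt F le_rfl).comp_neg
    refine h1.mono ((continuous_wtC k).aestronglyMeasurable.mul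
      (Complex.continuous_conj.comp_aestronglyMeasurable
        ((aesm_fn F).comp_quasiMeasurePreserving
          (Measure.measurePreserving_neg volume).quasiMeasurePreserving)))
      (Eventually.of_forall fun ξ => ?_)
    rw [norm_wt_mul, norm_wt_mul, wt_neg, Complex.norm_conj]
  · filter_upwards [ae_neg (fn_add F G)] with ξ hξ
    rw [hξ, map_add]
  · filter_upwards [ae_neg (fn_real_smul c F)] with ξ hξ
    rw [hξ, map_mul, Complex.conj_ofReal]
  · rw [one_mul, norm_eq]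
    unfold nrmX
    rw [← integral_neg_eq_self (fun ξ => wt k ξ * ‖fn F ξ‖) volume]
    refine le_of_eq (integral_congr_ae (Eventually.of_forall fun ξ => ?_))
    simp only
    rw [wt_neg, Complex.norm_conj]

/-- Complex conjugation of the physical-space function. -/
noncomputable def st : XW d k →L[ℝ] XW d k := (exists_st d k).choose

theorem fn_st (F : XW d k) : fn (st F) =ᵐ[volume] fun ξ => conj (fn F (-ξ)) :=
  (exists_st d k).choose_spec F

theorem exists_incl (d k : ℕ) : ∃ L : XW d (k + 1) →L[ℂ] XW d k,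
    ∀ F, fn (L F) =ᵐ[volume] fn F := by
  refine exists_clm (fun F => fn F) 1 (fun F => integrable_wt F (Nat.le_succ k)) fn_add fn_smul
    (fun F => ?_)
  rw [one_mul, norm_eq]
  exact nrmX_mono F (Nat.le_succ k) le_rfl

/-- Inclusion of the space of order `k+1` into the space of order `k`. -/
noncomputable def incl : XW d (k + 1) →L[ℂ] XW d k := (exists_incl d k).choose

theorem fn_incl (F : XW d (k + 1)) : fn (incl F) =ᵐ[volume] fn F :=
  (exists_incl d k).choose_spec F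

theorem exists_transl (d k : ℕ) (y : Eu d) : ∃ L : XW d k →L[ℂ] XW d k,
    ∀ F, fn (L F) =ᵐ[volume] fun ξ => cexp (I * dot ξ y) * fn F ξ := by
  refine exists_clm (fun F ξ => cexp (I * dot ξ y) * fn F ξ) 1 (fun F => ?_) (fun F G => ?_)
    (fun c F => ?_) (fun F => ?_)
  · refine (integrable_wt F le_rfl).mono ((continuous_wtC k).aestronglyMeasurable.mul
      ((continuous_cexp_dot y).aestronglyMeasurable.mul (aesm_fn F)))
      (Eventually.of_forall fun ξ => ?_)
    rw [norm_wt_mul, norm_wt_mul, norm_mul, norm_cexp_dot, one_mul]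
  · filter_upwards [fn_add F G] with ξ hξ
    rw [hξ, mul_add]
  · filter_upwards [fn_smul c F] with ξ hξ
    rw [hξ]
    ring
  · rw [one_mul, norm_eq]
    refine le_of_eq (integral_congr_ae (Eventually.of_forall fun ξ => ?_))
    simp only
    rw [norm_mul, norm_cexp_dot, one_mul]

/-- Translation of the physical-space function. -/
noncomputable def transl (y : Eu d) : XW d k →L[ℂ] XW d k := (exists_transl d k y).choose

theorem fn_transl (y : Eu d) (F : XW d k) :
    fn (transl y F) =ᵐ[volume] fun ξ => cexp (I * dot ξ y) * fn F ξ :=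
  (exists_transl d k y).choose_spec F

/-- Iterated convolution with a fixed kernel. -/
noncomputable def cpow (V : XW d k) (n : ℕ) (F : XW d k) : XW d k := (fun G => conv V G)^[n] F

end XW

open XW

namespace Bg

variable {m : ℕ} (B : Bg d m)

/-- `|Q|²` on the Fourier side. -/
noncomputable def Sh (k : ℕ) : XW d k := conv (B.Qh k) (st (B.Qh k))

/-- `(m+1)|Q|^(2m)` on the Fourier side. -/
noncomputable def V1h (k : ℕ) : XW d k := ((m : ℂ) + 1) • cpow (B.Sh k) (m - 1) (B.Sh k)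

/-- `m|Q|^(2m-2)Q²` on the Fourier side. -/
noncomputable def V2h (k : ℕ) : XW d k :=
  (m : ℂ) • cpow (B.Sh k) (m - 1) (conv (B.Qh k) (B.Qh k))

/-- `|Q|^(2m)Q` on the Fourier side. -/
noncomputable def Nh (k : ℕ) : XW d k := cpow (B.Sh k) m (B.Qh k)

/-- The real-linear potential term of the linearized equation. -/
noncomputable def Bop (k : ℕ) (F : XW d k) : XW d k :=
  (-I) • (conv (B.V1h k) F + conv (B.V2h k) (st F))

/-- `s ↦ T(s) Z(s)` solves the linearized equation on `[0,τ]` (interaction picture). -/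
def IsMild (k : ℕ) (τ : ℝ) (Z : ℝ → XW d k) : Prop :=
  ∀ s ∈ Icc 0 τ, HasDerivWithinAt Z (T B.Λ 1 (-s) (B.Bop k (T B.Λ 1 s (Z s)))) (Icc 0 τ) s

/-- A real combination of the symmetry modes. -/
noncomputable def mode (k : ℕ) (θ μ : ℝ) (y : Eu d) : XW d k :=
  (θ : ℂ) • (I • B.Qh k) + (μ : ℂ) • B.DQh k + ∑ i, (y i : ℂ) • B.Xh k i

/-- Linear decay modulo the symmetry modes. -/
def LIN (k : ℕ) : Prop :=
  ∀ η : ℝ, 0 < η → ∀ τ₀ : ℝ, ∃ τ : ℝ, τ₀ ≤ τ ∧ 0 < τ ∧ ∃ C : ℝ, ∀ Z : ℝ → XW d k, B.IsMild k τ Z →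
    ∃ (θ μ : ℝ) (y : Eu d), |θ| + |μ| + ‖y‖ ≤ C * ‖Z 0‖ ∧
      ‖T B.Λ 1 τ (Z τ) - B.mode k θ μ y‖ ≤ η * ‖Z 0‖

/-- The size of the potentials without weights. -/
noncomputable def K0 : ℝ := (2 * (m : ℝ) + 1) * (∫ ξ, ‖B.Q ξ‖) ^ (2 * m)

end Bg

end Vale.Agent.P139Z
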