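import Vale.Agent.P139Z.XBase

/-!
Block XCONV: convolution, conjugation, inclusion, translation.
-/

open Set Filter Topology MeasureTheory Complex
open scoped NNReal ENNReal ComplexConjugate ContDiff

namespace Vale.Agent.P139Z

open Vale.Agent.P139.A

variable {d k : ℕ}

namespace XConv

theorem w_nonneg (j : ℕ) (ξ : Fq d) : 0 ≤ wt j ξ := by
  unfold wt
  positivity

theorem w_neg (j : ℕ) (ξ : Fq d) : wt j (-ξ) = wt j ξ := by simp [wt]

theorem norm_le_add (ξ η : Fq d) : ‖ξ‖ ≤ ‖η‖ + ‖ξ - η‖ := by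
  simpa using norm_add_le η (ξ - η)

theorem w_le (j : ℕ) (ξ η : Fq d) : wt j ξ ≤ wt j η * wt j (ξ - η) := by
  unfold wt
  rw [← mul_pow]
  refine pow_le_pow_left₀ (by positivity) ?_ j
  nlinarith [norm_le_add ξ η, mul_nonneg (norm_nonneg η) (norm_nonneg (ξ - η))]

theorem w_le_LY (k : ℕ) (ξ η : Fq d) :
    wt k ξ ≤ wt k (ξ - η) + k * wt k η * wt (k - 1) (ξ - η) := by
  unfold wt
  have h0 := norm_le_add ξ η
  have ht := norm_nonneg η
  have ha := norm_nonneg (ξ - η)
  generalize ‖η‖ = t at *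
  generalize ‖ξ - η‖ = a at *
  refine (pow_le_pow_left₀ (by positivity) (show 1 + ‖ξ‖ ≤ 1 + a + t by linarith) k).trans ?_
  have h := abs_pow_sub_pow_le (1 + a + t) (1 + a) k
  rw [add_sub_cancel_left, abs_of_nonneg ht, abs_of_nonneg (by positivity : 0 ≤ 1 + a + t),
    abs_of_nonneg (by positivity : 0 ≤ 1 + a), max_eq_left (by linarith)] at h
  have h1 : t * (1 + a + t) ^ (k - 1) * k ≤ (1 + t) ^ k * (1 + a) ^ (k - 1) * k := by
    rcases k with _ | k
    · simp
    refine mul_le_mul_of_nonneg_right ?_ (by positivity)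
    rw [Nat.add_sub_cancel, pow_succ', mul_assoc, ← mul_pow]
    exact mul_le_mul (by linarith) (pow_le_pow_left₀ (by positivity) (by nlinarith) k)
      (by positivity) (by positivity)
  linarith [le_abs_self ((1 + a + t) ^ k - (1 + a) ^ k)]

theorem int_w (F : XW d k) {j : ℕ} (hj : j ≤ k) : Integrable fun ξ => wt j ξ * ‖F.fn ξ‖ := by
  refine (F.integrable_wt hj).norm.congr (Eventually.of_forall fun ξ => ?_)
  simp [abs_of_nonneg (w_nonneg j ξ)]

theorem young {w a₁ b₁ a₂ b₂ : Fq d → ℝ} {f g : Fq d → ℂ} (hw : ∀ ξ, 0 ≤ w ξ)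
    (ha₁ : Integrable a₁) (hb₁ : Integrable b₁) (ha₂ : Integrable a₂) (hb₂ : Integrable b₂)
    (h : ∀ ξ η, w ξ * (‖f η‖ * ‖g (ξ - η)‖) ≤ a₁ η * b₁ (ξ - η) + a₂ η * b₂ (ξ - η)) :
    ∫ ξ, w ξ * ‖∫ η, f η * g (ξ - η)‖ ≤
      (∫ ξ, a₁ ξ) * (∫ ξ, b₁ ξ) + (∫ ξ, a₂ ξ) * ∫ ξ, b₂ ξ := by
  have i₁ := ha₁.integrable_convolution (ContinuousLinearMap.mul ℝ ℝ) hb₁
  have i₂ := ha₂.integrable_convolution (ContinuousLinearMap.mul ℝ ℝ) hb₂
  have e₁ := integral_convolution (ContinuousLinearMap.mul ℝ ℝ) ha₁ hb₁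
  have e₂ := integral_convolution (ContinuousLinearMap.mul ℝ ℝ) ha₂ hb₂
  rw [ContinuousLinearMap.mul_apply'] at e₁ e₂
  rw [← e₁, ← e₂, ← integral_add i₁ i₂]
  refine integral_mono_of_nonneg
    (Eventually.of_forall fun ξ => mul_nonneg (hw ξ) (norm_nonneg _)) (i₁.add i₂) ?_
  filter_upwards [ha₁.ae_convolution_exists (ContinuousLinearMap.mul ℝ ℝ) hb₁,
    ha₂.ae_convolution_exists (ContinuousLinearMap.mul ℝ ℝ) hb₂] with ξ h₁ h₂
  refine (mul_le_mul_of_nonneg_left (norm_integral_le_integral_norm _) (hw ξ)).trans ?_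
  rw [← integral_const_mul, convolution_def, convolution_def, ← integral_add h₁ h₂]
  refine integral_mono_of_nonneg
    (Eventually.of_forall fun η => mul_nonneg (hw ξ) (norm_nonneg _)) (h₁.add h₂)
    (Eventually.of_forall fun η => ?_)
  simpa using h ξ η

theorem nrmX_congr (j : ℕ) {F : XW d k} {f : Fq d → ℂ} (h : F.fn =ᵐ[volume] f) :
    XW.nrmX j F = ∫ ξ, wt j ξ * ‖f ξ‖ :=
  integral_congr_ae (h.mono fun ξ hξ => by simp only [hξ])

theorem evf_congr {f g : Fq d → ℂ} (h : f =ᵐ[volume] g) : evf f = evf g :=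
  funext fun y => integral_congr_ae (h.mono fun ξ hξ => by simp only [hξ])

theorem ae_neg {f g : Fq d → ℂ} (h : f =ᵐ[volume] g) : ∀ᵐ ξ, f (-ξ) = g (-ξ) :=
  (Measure.measurePreserving_neg volume).quasiMeasurePreserving.ae h

theorem conv_congr {f f' g g' : Fq d → ℂ} (hf : f =ᵐ[volume] f') (hg : g =ᵐ[volume] g') (ξ : Fq d) :
    ∫ η, f η * g (ξ - η) = ∫ η, f' η * g' (ξ - η) := by
  refine integral_congr_ae ?_
  filter_upwards [hf, (Measure.measurePreserving_sub_left volume ξ).quasiMeasurePreserving.ae hg]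
    with η h₁ h₂
  rw [h₁, h₂]

theorem norm_e (ξ : Fq d) (y : Eu d) : ‖cexp (I * dot ξ y)‖ = 1 := by
  rw [mul_comm, norm_exp_ofReal_mul_I]

theorem cont_e : Continuous fun p : Fq d × Eu d => cexp (I * dot p.1 p.2) := by
  unfold dot
  fun_prop

theorem int_e {f : Fq d → ℂ} (hf : Integrable f) (y : Eu d) :
    Integrable fun ξ => cexp (I * dot ξ y) * f ξ :=
  hf.bdd_mul (c := 1) (cont_e.comp (by fun_prop : Continuous fun ξ : Fq d => (ξ, y))).aestronglyMeasurable
    (Eventually.of_forall fun ξ => (norm_e ξ y).le)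

theorem e_add (ξ η : Fq d) (y : Eu d) :
    cexp (I * dot ξ y) = cexp (I * dot η y) * cexp (I * dot (ξ - η) y) := by
  rw [← Complex.exp_add, ← mul_add, ← ofReal_add]
  congr 3
  simp only [dot, ← Finset.sum_add_distrib, Pi.sub_apply]
  exact Finset.sum_congr rfl fun i _ => by ring

theorem conj_e (ξ : Fq d) (y : Eu d) : conj (cexp (I * dot (-ξ) y)) = cexp (I * dot ξ y) := by
  have : dot (-ξ) y = -dot ξ y := by simp [dot]
  rw [← exp_conj, this]
  simp

end XConv

open XConv

namespace XW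

/-! #### convolution, conjugation, inclusion, translation -/

theorem nrmX_conv_le {j : ℕ} (hj : j ≤ k) (F G : XW d k) :
    nrmX j (conv F G) ≤ nrmX j F * nrmX j G := by
  rw [nrmX_congr j (fn_conv F G)]
  have := young (f := fn F) (g := fn G) (a₂ := fun _ => 0) (b₂ := fun _ => 0) (w_nonneg j)
    (int_w F hj) (int_w G hj) (integrable_zero _ _ _) (integrable_zero _ _ _) fun ξ η => by
      nlinarith [mul_le_mul_of_nonneg_right (w_le j ξ η)
        (mul_nonneg (norm_nonneg (fn F η)) (norm_nonneg (fn G (ξ - η))))]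
  simpa [nrmX] using this

theorem norm_conv_le_LY (F G : XW d k) :
    ‖conv F G‖ ≤ nrmX 0 F * ‖G‖ + k * ‖F‖ * nrmX (k - 1) G := by
  rw [norm_eq, norm_eq, norm_eq, nrmX_congr k (fn_conv F G)]
  have := young (f := fn F) (g := fn G) (w_nonneg k) (int_w F (Nat.zero_le k)) (int_w G le_rfl)
    ((int_w F le_rfl).const_mul k) (int_w G (Nat.sub_le k 1)) fun ξ η => by
      have h0 : wt 0 η = 1 := pow_zero _
      rw [h0]
      nlinarith [mul_le_mul_of_nonneg_right (w_le_LY k ξ η)
        (mul_nonneg (norm_nonneg (fn F η)) (norm_nonneg (fn G (ξ - η))))]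
  rw [integral_const_mul] at this
  exact this

theorem conv_comm (F G : XW d k) : conv F G = conv G F := by
  refine ext_ae ((fn_conv F G).trans (EventuallyEq.trans (Eventually.of_forall fun ξ => ?_)
    (fn_conv G F).symm))
  have := integral_sub_left_eq_self (fun η => fn G η * fn F (ξ - η)) volume ξ
  simp only [sub_sub_cancel] at this
  simp only [← this, mul_comm]

theorem ev_conv (F G : XW d k) (y : Eu d) : ev (conv F G) y = ev F y * ev G y := by
  have e := integral_convolution (ContinuousLinearMap.mul ℝ ℂ) (int_e F.integrable_fn y)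
    (int_e G.integrable_fn y)
  rw [ContinuousLinearMap.mul_apply'] at e
  rw [ev, evf_congr (fn_conv F G), ev, ev, evf, evf, evf, ← e]
  refine integral_congr_ae (Eventually.of_forall fun ξ => ?_)
  simp only [convolution_def, ContinuousLinearMap.mul_apply']
  rw [← integral_const_mul]
  refine integral_congr_ae (Eventually.of_forall fun η => ?_)
  simp only [e_add ξ η y]
  ring

theorem ev_st (F : XW d k) (y : Eu d) : ev (st F) y = conj (ev F y) := by
  rw [ev, evf_congr (fn_st F), ev, evf, evf, ← integral_neg_eq_self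
    (fun ξ => cexp (I * dot ξ y) * fn F ξ), ← integral_conj]
  simp only [map_mul, conj_e]

theorem st_st (F : XW d k) : st (st F) = F := by
  refine ext_ae ?_
  filter_upwards [fn_st (st F), ae_neg (fn_st F)] with ξ h₁ h₂
  rw [h₁, h₂, neg_neg, conj_conj]

theorem st_smul (c : ℂ) (F : XW d k) : st (c • F) = conj c • st F := by
  refine ext_ae ?_
  filter_upwards [fn_st (c • F), ae_neg (fn_smul c F), fn_smul (conj c) (st F), fn_st F]
    with ξ h₁ h₂ h₃ h₄
  rw [h₁, h₂, h₃, h₄, map_mul]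

theorem st_conv (F G : XW d k) : st (conv F G) = conv (st F) (st G) := by
  refine ext_ae ?_
  filter_upwards [fn_st (conv F G), ae_neg (fn_conv F G), fn_conv (st F) (st G)] with ξ h₁ h₂ h₃
  rw [h₁, h₂, h₃, conv_congr (fn_st F) (fn_st G), ← integral_neg_eq_self
    (fun η => fn F η * fn G (-ξ - η)), ← integral_conj]
  refine integral_congr_ae (Eventually.of_forall fun η => ?_)
  simp only [map_mul, neg_sub_neg, neg_sub]

theorem nrmX_st (j : ℕ) (F : XW d k) : nrmX j (st F) = nrmX j F := by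
  rw [nrmX_congr j (fn_st F), nrmX, ← integral_neg_eq_self (fun ξ => wt j ξ * ‖fn F ξ‖)]
  simp only [w_neg, RCLike.norm_conj]

theorem ev_incl (F : XW d (k + 1)) : ev (incl F) = ev F := evf_congr (fn_incl F)

theorem nrmX_incl (j : ℕ) (F : XW d (k + 1)) : nrmX j (incl F) = nrmX j F :=
  nrmX_congr j (fn_incl F)

theorem incl_conv (F G : XW d (k + 1)) : incl (conv F G) = conv (incl F) (incl G) := by
  refine ext_ae ?_
  filter_upwards [fn_incl (conv F G), fn_conv F G, fn_conv (incl F) (incl G)] with ξ h₁ h₂ h₃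
  rw [h₁, h₂, h₃, conv_congr (fn_incl F) (fn_incl G)]

theorem incl_st (F : XW d (k + 1)) : incl (st F) = st (incl F) := by
  refine ext_ae ?_
  filter_upwards [fn_incl (st F), fn_st F, fn_st (incl F), ae_neg (fn_incl F)] with ξ h₁ h₂ h₃ h₄
  rw [h₁, h₂, h₃, h₄]

theorem incl_mk (f : Fq d → ℂ) (h : Integrable fun ξ => (wt (k + 1) ξ : ℂ) * f ξ)
    (h' : Integrable fun ξ => (wt k ξ : ℂ) * f ξ) : incl (mk f h : XW d (k + 1)) = mk f h' :=
  ext_ae (((fn_incl _).trans (fn_mk f h)).trans (fn_mk f h').symm)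

theorem norm_transl (y : Eu d) (F : XW d k) : ‖transl y F‖ = ‖F‖ := by
  rw [norm_eq, norm_eq, nrmX_congr k (fn_transl y F), nrmX]
  simp only [norm_mul, norm_e, one_mul]

theorem continuous_transl (F : XW d k) : Continuous fun y : Eu d => transl y F := by
  refine continuous_iff_continuousAt.2 fun y₀ => tendsto_iff_norm_sub_tendsto_zero.2 ?_
  have e : ∀ y : Eu d, ‖transl y F - transl y₀ F‖ =
      ∫ ξ, ‖cexp (I * dot ξ y) - cexp (I * dot ξ y₀)‖ * (wt k ξ * ‖fn F ξ‖) := fun y => by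
    rw [norm_eq]
    refine integral_congr_ae ?_
    filter_upwards [fn_sub (transl y F) (transl y₀ F), fn_transl y F, fn_transl y₀ F]
      with ξ h₁ h₂ h₃
    rw [h₁, h₂, h₃, ← sub_mul, norm_mul]
    ring
  have c : Continuous fun y : Eu d =>
      ∫ ξ, ‖cexp (I * dot ξ y) - cexp (I * dot ξ y₀)‖ * (wt k ξ * ‖fn F ξ‖) := by
    refine continuous_of_dominated (bound := fun ξ => 2 * (wt k ξ * ‖fn F ξ‖)) (fun y => ?_)
      (fun y => Eventually.of_forall fun ξ => ?_) ((int_w F le_rfl).const_mul 2)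
      (Eventually.of_forall fun ξ => ?_)
    · exact ((cont_e.comp (by fun_prop : Continuous fun ξ : Fq d => (ξ, y))).sub
        (cont_e.comp (by fun_prop : Continuous fun ξ : Fq d => (ξ, y₀)))).norm.aestronglyMeasurable.mul
        (int_w F le_rfl).aestronglyMeasurable
    · have h0 := mul_nonneg (w_nonneg k ξ) (norm_nonneg (fn F ξ))
      rw [Real.norm_eq_abs, abs_of_nonneg (mul_nonneg (norm_nonneg _) h0)]
      refine mul_le_mul_of_nonneg_right ((norm_sub_le _ _).trans ?_) h0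
      rw [norm_e, norm_e]
      norm_num
    · exact ((cont_e.comp (by fun_prop : Continuous fun y : Eu d => (ξ, y))).sub
        continuous_const).norm.mul continuous_const
  simp only [e]
  simpa using c.tendsto y₀

end XW

end Vale.Agent.P139Z
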