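import Vale.Agent.P139Z.XBasic
import Vale.Agent.P139Z.XEv.Gauss

/-!
Block XEV: the physical-space function, injectivity, generator of the free flow.
-/

open Set Filter Topology MeasureTheory Complex
open scoped NNReal ENNReal ComplexConjugate ContDiff

namespace Vale.Agent.P139Z

variable {d k : ℕ}

namespace XEv

open XW

theorem int_wt (F : XW d k) {j : ℕ} (hj : j ≤ k) :
    Integrable fun ξ => (1 + ‖ξ‖) ^ j * ‖fn F ξ‖ := by
  refine (integrable_wt F hj).norm.congr (Eventually.of_forall fun ξ => ?_)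
  simp only [norm_mul, norm_real, wt]
  rw [Real.norm_of_nonneg (by positivity)]

theorem integrable_mom (F : XW d k) {j : ℕ} (hj : j ≤ k) :
    Integrable fun ξ => ‖ξ‖ ^ j * ‖fn F ξ‖ := by
  refine (int_wt F hj).mono'
    (AEStronglyMeasurable.mul (by fun_prop) (integrable_fn F).1.norm)
    (Eventually.of_forall fun ξ => ?_)
  rw [Real.norm_of_nonneg (by positivity)]
  gcongr
  linarith

/-- multipliers of quadratic growth -/
theorem integrable_quad {F : Fq d → ℂ} (hm : AEStronglyMeasurable F)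
    (hF : Integrable fun ξ => (1 + ‖ξ‖) ^ 2 * ‖F ξ‖) {m : Fq d → ℂ} (hc : Continuous m) (C : ℝ)
    (hb : ∀ ξ, ‖m ξ‖ ≤ C * (1 + ‖ξ‖) ^ 2) : Integrable fun ξ => m ξ * F ξ := by
  refine (hF.const_mul C).mono' (hc.aestronglyMeasurable.mul hm) (Eventually.of_forall fun ξ => ?_)
  rw [norm_mul, ← mul_assoc]
  gcongr
  exact hb ξ

theorem norm_sq_le' (ξ : Fq d) : ‖((sq ξ : ℝ) : ℂ)‖ ≤ d * (1 + ‖ξ‖) ^ 2 := by
  rw [norm_real, Real.norm_of_nonneg (sq_nonneg' ξ)]
  refine (sq_le ξ).trans ?_
  gcongr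
  linarith

theorem norm_dot_le' (ξ : Fq d) (y : Eu d) :
    ‖((dot ξ y : ℝ) : ℂ)‖ ≤ d * ‖y‖ * (1 + ‖ξ‖) ^ 2 := by
  rw [norm_real, Real.norm_eq_abs]
  refine (abs_dot_le ξ y).trans ?_
  rw [mul_right_comm]
  gcongr
  nlinarith [norm_nonneg ξ]

theorem integrable_of_wt {F : Fq d → ℂ} (hm : AEStronglyMeasurable F)
    (hF : Integrable fun ξ => (1 + ‖ξ‖) ^ 2 * ‖F ξ‖) : Integrable F := by
  simpa using integrable_quad hm hF (m := fun _ => 1) continuous_const 1 fun ξ => by
    rw [norm_one, one_mul]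
    exact one_le_pow₀ (by linarith [norm_nonneg ξ])

theorem integrable_sq {F : Fq d → ℂ} (hm : AEStronglyMeasurable F)
    (hF : Integrable fun ξ => (1 + ‖ξ‖) ^ 2 * ‖F ξ‖) : Integrable fun ξ => (sq ξ : ℂ) * F ξ :=
  integrable_quad hm hF (by fun_prop) d norm_sq_le'

theorem integrable_dot {F : Fq d → ℂ} (hm : AEStronglyMeasurable F)
    (hF : Integrable fun ξ => (1 + ‖ξ‖) ^ 2 * ‖F ξ‖) (y : Eu d) :
    Integrable fun ξ => (dot ξ y : ℂ) * F ξ :=
  integrable_quad hm hF (by fun_prop) _ fun ξ => norm_dot_le' ξ y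

theorem integrable_norm_mul {F : Fq d → ℂ} (hm : AEStronglyMeasurable F)
    (hF : Integrable fun ξ => (1 + ‖ξ‖) ^ 2 * ‖F ξ‖) : Integrable fun ξ => ‖ξ‖ * ‖F ξ‖ := by
  refine hF.mono' (AEStronglyMeasurable.mul (by fun_prop) hm.norm)
    (Eventually.of_forall fun ξ => ?_)
  rw [Real.norm_of_nonneg (by positivity)]
  gcongr
  nlinarith [norm_nonneg ξ]

/-- splitting of an integral with a quadratic multiplier -/
theorem integral_quad {G : Fq d → ℂ} (hm : AEStronglyMeasurable G)
    (hG : Integrable fun ξ => (1 + ‖ξ‖) ^ 2 * ‖G ξ‖) (a b c : ℂ) (y : Eu d) :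
    ∫ ξ, (a * sq ξ + b + c * dot ξ y) * G ξ =
      a * (∫ ξ, sq ξ * G ξ) + b * (∫ ξ, G ξ) + c * ∫ ξ, dot ξ y * G ξ := by
  have h1 := (integrable_sq hm hG).const_mul a
  have h2 := (integrable_of_wt hm hG).const_mul b
  have h3 := (integrable_dot hm hG y).const_mul c
  rw [← integral_const_mul, ← integral_const_mul, ← integral_const_mul, ← integral_add h1 h2,
    ← integral_add (h1.fun_add h2) h3]
  refine integral_congr_ae (Eventually.of_forall fun ξ => ?_)
  simp only
  ring

theorem unit_mul {F : Fq d → ℂ} (hm : AEStronglyMeasurable F)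
    (hF : Integrable fun ξ => (1 + ‖ξ‖) ^ 2 * ‖F ξ‖) {u : Fq d → ℂ} (hc : Continuous u)
    (hu : ∀ ξ, ‖u ξ‖ = 1) : AEStronglyMeasurable (fun ξ => u ξ * F ξ) ∧
      Integrable fun ξ => (1 + ‖ξ‖) ^ 2 * ‖u ξ * F ξ‖ :=
  ⟨hc.aestronglyMeasurable.mul hm, by simpa only [norm_mul, hu, one_mul] using hF⟩

theorem norm_gs_I (τ : ℝ) (ξ : Fq d) : ‖gs (I * τ) ξ‖ = 1 := by
  rw [norm_gs]
  simp

/-- the generator tested against chirped plane waves -/
theorem weak {F H : Fq d → ℂ} (hm : AEStronglyMeasurable F)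
    (hF : Integrable fun ξ => (1 + ‖ξ‖) ^ 2 * ‖F ξ‖) (hH : Integrable H) {Λ : ℂ} {σ : ℝ}
    (h : ∀ y, evL Λ σ F y = evf H y) (τ : ℝ) (y : Eu d) :
    ∫ ξ, gs (I * τ) ξ * (cexp (I * dot ξ y) * H ξ) =
      ∫ ξ, (I * (τ - σ) * sq ξ + -Λ + -(I / 2) * dot ξ y) *
        (gs (I * τ) ξ * (cexp (I * dot ξ y) * F ξ)) := by
  obtain ⟨gm, gF⟩ := unit_mul hm hF (u := fun ξ => cexp (I * dot ξ y)) (by fun_prop)
    fun ξ => norm_char _
  set G : Fq d → ℂ := fun ξ => cexp (I * dot ξ y) * F ξ with hG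
  have hP : Integrable fun ξ => (-I * σ * sq ξ + -Λ + -(I / 2) * dot ξ y) * G ξ := by
    refine ((((integrable_sq gm gF).const_mul (-I * σ)).add
      ((integrable_of_wt gm gF).const_mul (-Λ))).add
      ((integrable_dot gm gF y).const_mul (-(I / 2)))).congr (Eventually.of_forall fun ξ => ?_)
    simp only [Pi.add_apply]
    ring
  have hHy := integrable_char hH y
  have key := chirp (K := fun ξ => cexp (I * dot ξ y) * H ξ -
      (-I * σ * sq ξ + -Λ + -(I / 2) * dot ξ y) * G ξ) (G := G) (hHy.sub hP) gm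
    (integrable_norm_mul gm gF) (integrable_sq gm gF) (fun w => ?_) τ
  · obtain ⟨gm', gF'⟩ := unit_mul gm gF (continuous_gs (I * τ)) (norm_gs_I τ)
    have hb : ∀ {K : Fq d → ℂ}, Integrable K → Integrable fun ξ => gs (I * τ) ξ * K ξ :=
      fun hK => hK.bdd_mul (c := 1) (by fun_prop)
        (Eventually.of_forall fun ξ => (norm_gs_I τ ξ).le)
    simp only [mul_sub] at key
    rw [integral_sub (hb hHy) (hb hP), sub_eq_iff_eq_add, ← integral_const_mul,
      ← integral_add ((hb (integrable_sq gm gF)).const_mul _) (hb hP)] at key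
    rw [key]
    refine integral_congr_ae (Eventually.of_forall fun ξ => ?_)
    simp only [hG]
    ring
  · have e1 : evf H (w + y) = ∫ ξ, cexp (I * dot ξ w) * (cexp (I * dot ξ y) * H ξ) := by
      refine integral_congr_ae (Eventually.of_forall fun ξ => ?_)
      simp only [dot_add, ofReal_add, mul_add, Complex.exp_add, mul_assoc]
    have hD : Integrable fun ξ => I * dot ξ w * G ξ := by
      simpa only [mul_assoc] using (integrable_dot gm gF w).const_mul I
    have e2 : evL Λ σ F (w + y) =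
        (∫ ξ, cexp (I * dot ξ w) * ((-I * σ * sq ξ + -Λ + -(I / 2) * dot ξ y) * G ξ)) +
          -(1 / 2) * evf (fun ξ => I * dot ξ w * G ξ) w := by
      rw [evf, ← integral_const_mul,
        ← integral_add (integrable_char hP w) ((integrable_char hD w).const_mul _)]
      refine integral_congr_ae (Eventually.of_forall fun ξ => ?_)
      simp only [dot_add, ofReal_add, mul_add, Complex.exp_add, hG]
      ring
    rw [evf]
    simp only [mul_sub]
    rw [integral_sub (integrable_char hHy w) (integrable_char hP w), ← e1, ← h, e2]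
    ring

/-- the phase of the free flow -/
noncomputable def ph (σ t : ℝ) (y : Eu d) (η : Fq d) : ℂ :=
  cexp (-I * σ * ((1 - Real.exp (-t)) * sq η : ℝ)) * cexp (I * (Real.exp (-t / 2) * dot η y : ℝ))

theorem norm_ph (σ t : ℝ) (y : Eu d) (η : Fq d) : ‖ph σ t y η‖ = 1 := by
  rw [ph, norm_mul, norm_char, mul_one, Complex.norm_exp]
  simp [-ofReal_exp]

theorem continuous_ph (σ t : ℝ) (y : Eu d) : Continuous (ph σ t y) := by
  unfold ph
  fun_prop

theorem hasDerivAt_ph (σ t : ℝ) (y : Eu d) (η : Fq d) :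
    HasDerivAt (fun t => ph σ t y η) ((-I * σ * Real.exp (-t) * sq η +
      -(I / 2) * Real.exp (-t / 2) * dot η y) * ph σ t y η) t := by
  have h1 : HasDerivAt (fun t : ℝ => (1 - Real.exp (-t)) * sq η) (Real.exp (-t) * sq η) t := by
    simpa using (((hasDerivAt_neg t).exp).const_sub 1).mul_const (sq η)
  have h2 : HasDerivAt (fun t : ℝ => Real.exp (-t / 2) * dot η y)
      (Real.exp (-t / 2) * (-1 / 2) * dot η y) t :=
    (((hasDerivAt_neg t).div_const 2).exp).mul_const (dot η y)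
  have h3 := ((h1.ofReal_comp.const_mul (-I * σ)).cexp).fun_mul (h2.ofReal_comp.const_mul I).cexp
  refine h3.congr_deriv ?_
  rw [ph]
  push_cast
  ring

theorem hasDerivAt_int {F : Fq d → ℂ} (hm : AEStronglyMeasurable F)
    (hF : Integrable fun ξ => (1 + ‖ξ‖) ^ 2 * ‖F ξ‖) (σ s : ℝ) (y : Eu d) :
    HasDerivAt (fun t => ∫ η, ph σ t y η * F η) (∫ η, (-I * σ * Real.exp (-s) * sq η +
      -(I / 2) * Real.exp (-s / 2) * dot η y) * (ph σ s y η * F η)) s := by
  set M := Real.exp (|s| + 1) with hM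
  refine (hasDerivAt_integral_of_dominated_loc_of_deriv_le (s := Metric.ball s 1)
    (F' := fun t η => (-I * σ * Real.exp (-t) * sq η +
      -(I / 2) * Real.exp (-t / 2) * dot η y) * (ph σ t y η * F η))
    (bound := fun η => (|σ| * M * d + M * (d * ‖y‖)) * ((1 + ‖η‖) ^ 2 * ‖F η‖))
    (Metric.ball_mem_nhds s one_pos) (Eventually.of_forall fun t =>
      (continuous_ph σ t y).aestronglyMeasurable.mul hm) ?_ ?_ ?_ (hF.const_mul _) ?_).2
  · exact (integrable_of_wt hm hF).bdd_mul (c := 1) (continuous_ph σ s y).aestronglyMeasurable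
      (Eventually.of_forall fun η => (norm_ph _ _ _ _).le)
  · exact AEStronglyMeasurable.mul (by fun_prop)
      ((continuous_ph σ s y).aestronglyMeasurable.mul hm)
  · refine Eventually.of_forall fun η t ht => ?_
    rw [Metric.mem_ball, Real.dist_eq, abs_lt] at ht
    have a1 : Real.exp (-t) ≤ M := Real.exp_le_exp.2 (by linarith [neg_abs_le s])
    have a2 : Real.exp (-t / 2) ≤ M :=
      Real.exp_le_exp.2 (by linarith [neg_abs_le s, abs_nonneg s])
    rw [norm_mul, norm_mul, norm_ph, one_mul, ← mul_assoc]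
    gcongr
    refine (norm_add_le _ _).trans ?_
    rw [add_mul]
    have b1 := norm_sq_le' η
    have b2 := norm_dot_le' η y
    refine add_le_add ?_ ?_
    · rw [norm_mul, norm_mul, norm_mul, norm_neg, norm_I, one_mul, norm_real, norm_real,
        Real.norm_eq_abs, Real.norm_of_nonneg (Real.exp_pos _).le, mul_assoc _ (d : ℝ)]
      gcongr
    · rw [norm_mul, norm_mul, norm_neg, norm_div, norm_I, norm_real,
        Real.norm_of_nonneg (Real.exp_pos _).le, mul_assoc M, Complex.norm_two]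
      gcongr
      linarith [Real.exp_pos (-t / 2)]
  · refine Eventually.of_forall fun η t _ => ?_
    exact ((hasDerivAt_ph σ t y η).mul_const (F η)).congr_deriv (mul_assoc _ _ _)

theorem ev_T' (Λ : ℂ) (σ s : ℝ) (F : XW d k) (y : Eu d) :
    ev (T Λ σ s F) y = cexp (-Λ * s) * ∫ η, ph σ s y η * fn F η := by
  rw [ev_T]
  simp only [ph, mul_assoc]

theorem hasDerivAt_ev_T (hk : 2 ≤ k) (Λ : ℂ) (σ s : ℝ) (F : XW d k) (y : Eu d) :
    HasDerivAt (fun t => ev (T Λ σ t F) y) (cexp (-Λ * s) * ∫ η, (-I * σ * Real.exp (-s) * sq η +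
      -Λ + -(I / 2) * Real.exp (-s / 2) * dot η y) * (ph σ s y η * fn F η)) s := by
  have hm := (integrable_fn F).1
  have hF := int_wt F hk
  have h1 : HasDerivAt (fun t : ℝ => cexp (-Λ * t)) (cexp (-Λ * s) * (-Λ * 1)) s :=
    ((Complex.ofRealCLM.hasDerivAt (x := s)).const_mul (-Λ)).cexp
  simp only [ev_T']
  refine (h1.fun_mul (hasDerivAt_int hm hF σ s y)).congr_deriv ?_
  obtain ⟨gm, gF⟩ := unit_mul hm hF (continuous_ph σ s y) (norm_ph σ s y)
  have h2 := integral_quad gm gF (-I * σ * Real.exp (-s)) 0 (-(I / 2) * Real.exp (-s / 2)) y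
  simp only [add_zero, zero_mul] at h2
  rw [integral_quad gm gF, h2]
  ring

end XEv

open XEv

namespace XW

theorem ev_injective {F G : XW d k} (h : ∀ y, ev F y = ev G y) : F = G := by
  have h1 := ae_eq_zero_of_evf ((integrable_fn F).sub (integrable_fn G)) fun y => by
    rw [evf]
    simp only [Pi.sub_apply, mul_sub]
    rw [integral_sub (integrable_char (integrable_fn F) y) (integrable_char (integrable_fn G) y)]
    exact sub_eq_zero.2 (h y)
  refine ext_ae ?_
  filter_upwards [h1] with ξ hξ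
  exact sub_eq_zero.1 hξ

theorem contDiff_ev (F : XW d k) : ContDiff ℝ k (ev F) :=
  contDiff_evf fun _ hn => integrable_mom F hn

theorem norm_iteratedFDeriv_ev_le (F : XW d k) {j : ℕ} (hj : j ≤ k) (y : Eu d) :
    ‖iteratedFDeriv ℝ j (ev F) y‖ ≤ ((d : ℝ) + 1) ^ j * ‖F‖ := by
  refine (norm_iteratedFDeriv_evf_le (integrable_fn F).1
    (fun _ hn => integrable_mom F (hn.trans hj)) y).trans ?_
  refine mul_le_mul (by gcongr; linarith) ?_ (integral_nonneg fun ξ => by positivity)
    (by positivity)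
  rw [norm_eq]
  refine le_trans ?_ (nrmX_mono F hj le_rfl)
  refine integral_mono (integrable_mom F hj) (int_wt F hj) fun ξ => ?_
  simp only [wt]
  gcongr
  linarith

theorem evL_eq (hk : 2 ≤ k) (Λ : ℂ) (σ : ℝ) (F : XW d k) (y : Eu d) :
    evL Λ σ (fn F) y = I * σ * lap (ev F) y - 1 / 2 * eul (ev F) y - Λ * ev F y := by
  have hm := (integrable_fn F).1
  have hF := int_wt F hk
  have h0 := integrable_fn F
  have h1 := integrable_norm_mul hm hF
  obtain ⟨gm, gF⟩ := unit_mul hm hF (u := fun ξ => cexp (I * dot ξ y)) (by fun_prop)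
    fun ξ => norm_char _
  have e1 : eul (ev F) y = I * ∫ ξ, dot ξ y * (cexp (I * dot ξ y) * fn F ξ) := by
    rw [eul, show ev F = evf (fn F) from rfl, fderiv_evf h0 h1, evf, ← integral_const_mul]
    refine integral_congr_ae (Eventually.of_forall fun ξ => ?_)
    simp only
    ring
  have hi : ∀ i, Integrable fun ξ : Fq d => -((ξ i : ℂ) ^ 2 * (cexp (I * dot ξ y) * fn F ξ)) := by
    intro i
    refine (integrable_quad gm gF (by fun_prop) 1 fun ξ => ?_).neg
    rw [norm_pow, norm_real, one_mul]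
    gcongr
    linarith [norm_le_pi_norm ξ i]
  have e2 : lap (ev F) y = -∫ ξ, sq ξ * (cexp (I * dot ξ y) * fn F ξ) := by
    have a1 : ∀ i, fderiv ℝ (fun z => fderiv ℝ (ev F) z (EuclideanSpace.single i 1)) y
        (EuclideanSpace.single i 1) = ∫ ξ, -((ξ i : ℂ) ^ 2 * (cexp (I * dot ξ y) * fn F ξ)) := by
      intro i
      have b1 : (fun z => fderiv ℝ (ev F) z (EuclideanSpace.single i 1)) =
          evf fun ξ => I * ξ i * fn F ξ := by
        funext z
        rw [show ev F = evf (fn F) from rfl, fderiv_evf h0 h1]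
        simp only [dot_single]
      have b2 : ∀ ξ : Fq d, ‖I * (ξ i : ℂ)‖ ≤ ‖ξ‖ := fun ξ => by
        rw [norm_mul, norm_I, one_mul, norm_real]
        exact norm_le_pi_norm ξ i
      rw [b1, fderiv_evf, evf]
      · refine integral_congr_ae (Eventually.of_forall fun ξ => ?_)
        simp only [dot_single]
        linear_combination (cexp (I * dot ξ y) * (ξ i : ℂ) ^ 2 * fn F ξ) * I_sq
      · refine integrable_quad hm hF (by fun_prop) 1 fun ξ => (b2 ξ).trans ?_
        nlinarith [norm_nonneg ξ]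
      · refine (integrable_mom F hk).mono' (AEStronglyMeasurable.mul (by fun_prop)
          (AEStronglyMeasurable.mul (Continuous.aestronglyMeasurable (by fun_prop)) hm).norm)
          (Eventually.of_forall fun ξ => ?_)
        rw [Real.norm_of_nonneg (by positivity), norm_mul, pow_two, mul_assoc]
        gcongr
        exact b2 ξ
    rw [lap]
    simp only [a1]
    rw [← integral_finsetSum _ fun i _ => hi i, ← integral_neg]
    refine integral_congr_ae (Eventually.of_forall fun ξ => ?_)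
    simp only [sq, Finset.sum_neg_distrib, ← Finset.sum_mul]
    push_cast
    rfl
  have e3 := integral_quad gm gF (-I * σ) (-Λ) (-(I / 2)) y
  rw [e1, e2, show ev F y = ∫ ξ, cexp (I * dot ξ y) * fn F ξ from rfl, evL]
  simp only [sub_eq_add_neg, ← neg_mul]
  rw [e3]
  ring

/-- Domain of the generator, read in physical space. -/
theorem hasDerivAt_T (hk : 2 ≤ k) (Λ : ℂ) (σ : ℝ) (F H : XW d k)
    (h : ∀ y, evL Λ σ (fn F) y = ev H y) (s : ℝ) :
    HasDerivAt (fun t => T Λ σ t F) (T Λ σ s H) s := by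
  have hR : ∀ t, HasDerivAt (fun t => F + ∫ r in (0 : ℝ)..t, T Λ σ r H) (T Λ σ t H) t :=
    fun t => ((continuous_T Λ σ H).integral_hasStrictDerivAt 0 t).hasDerivAt.const_add F
  have h1 : ∀ y t, HasDerivAt (fun t => ev (T Λ σ t F) y) (ev (T Λ σ t H) y) t := by
    intro y t
    refine (hasDerivAt_ev_T hk Λ σ t F y).congr_deriv ?_
    have hp : ∀ η, ph σ t y η = gs (I * (σ * (1 - Real.exp (-t)) : ℝ)) η *
        cexp (I * dot η (Real.exp (-t / 2) • y)) := fun η => by
      rw [ph, gs, dot_smul]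
      congr 2
      push_cast
      ring
    have h2 := weak (integrable_fn F).1 (int_wt F hk) (integrable_fn H) h
      (σ * (1 - Real.exp (-t))) (Real.exp (-t / 2) • y)
    rw [ev_T']
    congr 1
    simp only [hp, mul_assoc (gs _ _)]
    rw [h2]
    refine integral_congr_ae (Eventually.of_forall fun η => ?_)
    simp only [dot_smul]
    push_cast
    ring
  have h2 : (fun t => T Λ σ t F) = fun t => F + ∫ r in (0 : ℝ)..t, T Λ σ r H := by
    funext t
    refine ev_injective fun y => ?_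
    have h3 : ∀ t, HasDerivAt (fun t => ev (F + ∫ r in (0 : ℝ)..t, T Λ σ r H) y)
        (ev (T Λ σ t H) y) t := fun t => by
      simp only [← evCLM_apply]
      exact ((evCLM y).restrictScalars ℝ).hasFDerivAt.comp_hasDerivAt t (hR t)
    have h4 := is_const_of_deriv_eq_zero (fun t => ((h1 y t).fun_sub (h3 t)).differentiableAt)
      (fun t => by rw [((h1 y t).fun_sub (h3 t)).deriv, sub_self]) t 0
    rw [T_zero, intervalIntegral.integral_same, add_zero, sub_self] at h4
    exact sub_eq_zero.1 h4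
  rw [h2]
  exact hR s

/-- Pointwise time derivative of a mild solution at time zero. -/
theorem hasDerivWithinAt_ev_T (hk : 2 ≤ k) (Λ : ℂ) (σ : ℝ) {Z : ℝ → XW d k} {Z' : XW d k}
    {S : Set ℝ} (hZ : HasDerivWithinAt Z Z' S 0) (y : Eu d) :
    HasDerivWithinAt (fun s => ev (T Λ σ s (Z s)) y) (evL Λ σ (fn (Z 0)) y + ev Z' y) S 0 := by
  have h1 : HasDerivAt (fun s => ev (T Λ σ s (Z 0)) y) (evL Λ σ (fn (Z 0)) y) 0 := by
    refine (hasDerivAt_ev_T hk Λ σ 0 (Z 0) y).congr_deriv ?_
    simp only [ph, evL, ofReal_zero, mul_zero, Complex.exp_zero, one_mul, neg_zero, Real.exp_zero,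
      zero_div, sub_self, zero_mul, ofReal_one, mul_one, sub_eq_add_neg, neg_mul]
  have h2 : HasDerivWithinAt (fun s => T Λ σ s (Z s - Z 0)) Z' S 0 := by
    rw [hasDerivWithinAt_iff_tendsto_slope] at hZ ⊢
    have h3 : Tendsto (fun s : ℝ => (s, slope Z 0 s)) (𝓝[S \ {0}] 0) (𝓝 (0, Z')) :=
      (tendsto_id.mono_left nhdsWithin_le_nhds).prodMk_nhds hZ
    have h4 := ((continuous_T_uncurry Λ σ).tendsto (0, Z')).comp h3
    rw [T_zero] at h4
    refine h4.congr fun s => ?_
    simp only [Function.comp_apply, slope, vsub_eq_sub, sub_self, map_zero, sub_zero]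
    exact ((T Λ σ s).restrictScalars ℝ).map_smul _ _
  have h5 := ((evCLM y).restrictScalars ℝ).hasFDerivAt.comp_hasDerivWithinAt 0 h2
  have h6 := h1.hasDerivWithinAt.fun_add h5
  simp only [← evCLM_apply] at h6 ⊢
  refine h6.congr (fun s _ => ?_) ?_ <;> simp

end XW

end Vale.Agent.P139Z
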