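import Vale.Agent.P139Z.XBase

/-!
Block XFLOW: the free flow.
-/

open Set Filter Topology MeasureTheory Complex
open scoped NNReal ENNReal ComplexConjugate ContDiff

namespace Vale.Agent.P139Z

open Vale.Agent.P139.A

variable {d k : ℕ}

namespace XFlow

/-- Almost everywhere equalities are transported through dilations. -/
theorem ae_smul {f g : Fq d → ℂ} (h : f =ᵐ[volume] g) {c : ℝ} (hc : c ≠ 0) :
    (fun ξ => f (c • ξ)) =ᵐ[volume] fun ξ => g (c • ξ) :=
  (Measure.quasiMeasurePreserving_smul (volume : Measure (Fq d)) hc).ae_eq_comp h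

theorem ae_neg {f g : Fq d → ℂ} (h : f =ᵐ[volume] g) :
    (fun ξ => f (-ξ)) =ᵐ[volume] fun ξ => g (-ξ) := by
  have h1 := ae_smul h (c := -1) (by norm_num)
  simpa only [neg_smul, one_smul] using h1

theorem Tfun_congr (Λ : ℂ) (σ s : ℝ) {f g : Fq d → ℂ} (h : f =ᵐ[volume] g) :
    Tfun Λ σ s f =ᵐ[volume] Tfun Λ σ s g := by
  filter_upwards [ae_smul h (Real.exp_pos (s / 2)).ne'] with ξ hξ
  simp only [Tfun, hξ]

theorem sq_smul (c : ℝ) (ξ : Fq d) : sq (c • ξ) = c ^ 2 * sq ξ := by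
  simp only [sq, Pi.smul_apply, smul_eq_mul, mul_pow, Finset.mul_sum]

theorem sq_neg (ξ : Fq d) : sq (-ξ) = sq ξ := by
  simp only [sq, Pi.neg_apply, even_two, Even.neg_pow]

theorem dot_smul (c : ℝ) (ξ : Fq d) (y : Eu d) : dot (c • ξ) y = c * dot ξ y := by
  simp only [dot, Pi.smul_apply, smul_eq_mul, mul_assoc, Finset.mul_sum]

theorem exp_half_sq (s : ℝ) : Real.exp (s / 2) ^ 2 = Real.exp s := by
  rw [← Real.exp_nat_mul]; congr 1; push_cast; ring

theorem Tfun_zero (Λ : ℂ) (σ : ℝ) (f : Fq d → ℂ) : Tfun Λ σ 0 f = f := by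
  funext ξ
  simp [Tfun]

theorem Tfun_add (Λ : ℂ) (σ s t : ℝ) (f : Fq d → ℂ) :
    Tfun Λ σ s (Tfun Λ σ t f) = Tfun Λ σ (s + t) f := by
  funext ξ
  simp only [Tfun]
  rw [smul_smul, ← Real.exp_add, ← mul_assoc, ← Complex.exp_add, sq_smul, exp_half_sq]
  have h1 : t / 2 + s / 2 = (s + t) / 2 := by ring
  rw [h1, Real.exp_add s t]
  congr 2
  push_cast
  ring

theorem norm_Tfun (Λ : ℂ) (σ s : ℝ) (f : Fq d → ℂ) (ξ : Fq d) :
    ‖Tfun Λ σ s f ξ‖ = Real.exp (-Λ.re * s + d * s / 2) * ‖f (Real.exp (s / 2) • ξ)‖ := by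
  simp only [Tfun, norm_mul, Complex.norm_exp]
  congr 2
  simp [-Complex.ofReal_exp]

/-- Change of variables under the dilation by `exp (s/2)`. -/
theorem integral_dil {E : Type*} [NormedAddCommGroup E] [NormedSpace ℝ E] (s : ℝ)
    (g : Fq d → E) :
    ∫ ξ, g (Real.exp (s / 2) • ξ) = Real.exp (-(d * s / 2)) • ∫ η, g η := by
  rw [Measure.integral_comp_smul, Module.finrank_fin_fun, ← Real.exp_nat_mul, ← Real.exp_neg,
    abs_of_pos (Real.exp_pos _)]
  congr 2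
  ring

theorem smul_dil (s : ℝ) (ξ : Fq d) : Real.exp (-s / 2) • Real.exp (s / 2) • ξ = ξ := by
  rw [smul_smul, ← Real.exp_add]
  have h1 : -s / 2 + s / 2 = 0 := by ring
  rw [h1, Real.exp_zero, one_smul]

theorem wt_pos (j : ℕ) (ξ : Fq d) : 0 < wt j ξ := by
  unfold wt; positivity

theorem continuous_wt (j : ℕ) : Continuous (wt j : Fq d → ℝ) := by
  unfold wt; fun_prop

theorem wt_dil_le (j : ℕ) (s : ℝ) (ξ : Fq d) :
    wt j (Real.exp (-s / 2) • ξ) ≤ Real.exp (j * |s|) * wt j ξ := by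
  unfold wt
  rw [Real.exp_nat_mul, ← mul_pow, norm_smul, Real.norm_eq_abs, abs_of_pos (Real.exp_pos _)]
  have h1 : 1 ≤ Real.exp |s| := Real.one_le_exp (abs_nonneg s)
  have h2 : Real.exp (-s / 2) ≤ Real.exp |s| := by
    apply Real.exp_le_exp.2
    have := neg_abs_le s
    have := abs_nonneg s
    linarith
  have h3 := norm_nonneg ξ
  gcongr
  nlinarith

theorem continuous_sq : Continuous (sq : Fq d → ℝ) := by
  unfold sq; fun_prop

theorem continuous_Tfun (Λ : ℂ) (σ : ℝ) {f : Fq d → ℂ} (hf : Continuous f) :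
    Continuous fun p : ℝ × Fq d => Tfun Λ σ p.1 f p.2 := by
  have h1 : Continuous fun p : ℝ × Fq d => sq p.2 := continuous_sq.comp continuous_snd
  unfold Tfun
  fun_prop

end XFlow

open XFlow

namespace XW

/-! #### the free flow -/

theorem T_zero (Λ : ℂ) (σ : ℝ) (F : XW d k) : T Λ σ 0 F = F := by
  apply ext_ae
  have h := fn_T Λ σ 0 F
  rwa [Tfun_zero] at h

theorem T_add (Λ : ℂ) (σ s t : ℝ) (F : XW d k) : T Λ σ s (T Λ σ t F) = T Λ σ (s + t) F := by
  apply ext_ae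
  refine (fn_T Λ σ s _).trans ((Tfun_congr Λ σ s (fn_T Λ σ t F)).trans ?_)
  rw [Tfun_add]
  exact (fn_T Λ σ (s + t) F).symm

theorem nrmX_T (Λ : ℂ) (σ s : ℝ) (F : XW d k) (j : ℕ) :
    nrmX j (T Λ σ s F) = Real.exp (-Λ.re * s) *
      ∫ η, wt j (Real.exp (-s / 2) • η) * ‖fn F η‖ := by
  have h1 : nrmX j (T Λ σ s F) = ∫ ξ, Real.exp (-Λ.re * s + d * s / 2) *
      (fun η => wt j (Real.exp (-s / 2) • η) * ‖fn F η‖) (Real.exp (s / 2) • ξ) := by
    unfold nrmX
    apply integral_congr_ae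
    filter_upwards [fn_T Λ σ s F] with ξ hξ
    simp only [hξ, norm_Tfun, smul_dil]
    ring
  rw [h1, integral_const_mul, integral_dil s fun η => wt j (Real.exp (-s / 2) • η) * ‖fn F η‖,
    smul_eq_mul, ← mul_assoc, ← Real.exp_add]
  congr 2
  ring

theorem norm_T_le (Λ : ℂ) (σ s : ℝ) :
    ‖(T Λ σ s : XW d k →L[ℂ] XW d k)‖ ≤ Real.exp ((|Λ.re| + k) * |s|) := by
  refine ContinuousLinearMap.opNorm_le_bound _ (Real.exp_pos _).le fun F => ?_
  rw [norm_eq, norm_eq, nrmX_T, add_mul, Real.exp_add, mul_assoc]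
  have hI : Integrable fun η => wt k η * ‖fn F η‖ := by
    refine (integrable_wt F le_rfl).norm.congr (Eventually.of_forall fun η => ?_)
    simp only [norm_mul, Complex.norm_real, Real.norm_eq_abs, abs_of_pos (wt_pos k η)]
  have h1 : Real.exp (-Λ.re * s) ≤ Real.exp (|Λ.re| * |s|) := by
    apply Real.exp_le_exp.2
    rw [← abs_mul, neg_mul]
    exact neg_le_abs _
  have h2 : ∫ η, wt k (Real.exp (-s / 2) • η) * ‖fn F η‖ ≤ Real.exp (k * |s|) * nrmX k F := by
    unfold nrmX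
    rw [← integral_const_mul]
    refine integral_mono_of_nonneg (Eventually.of_forall fun η => ?_) (hI.const_mul _)
      (Eventually.of_forall fun η => ?_)
    · exact mul_nonneg (wt_pos k _).le (norm_nonneg _)
    · simp only [← mul_assoc]
      exact mul_le_mul_of_nonneg_right (wt_dil_le k s η) (norm_nonneg _)
  have h3 : 0 ≤ ∫ η, wt k (Real.exp (-s / 2) • η) * ‖fn F η‖ :=
    integral_nonneg fun η => mul_nonneg (wt_pos k _).le (norm_nonneg _)
  exact mul_le_mul h1 h2 h3 (Real.exp_pos _).le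

end XW

namespace XFlow

open XW

/-- Continuity at time zero for a continuous compactly supported representative. -/
theorem tendsto_T_of_compact (Λ : ℂ) (σ : ℝ) (G : XW d k) {ψ : Fq d → ℂ} (hψ : Continuous ψ)
    (hc : HasCompactSupport ψ) (hG : fn G =ᵐ[volume] ψ) :
    Tendsto (fun h => ‖T Λ σ h G - G‖) (𝓝 0) (𝓝 0) := by
  obtain ⟨R, hR0, hR⟩ : ∃ R : ℝ, 0 ≤ R ∧ ∀ ξ : Fq d, R < ‖ξ‖ → ψ ξ = 0 := by
    obtain ⟨R, hR⟩ := hc.isCompact.isBounded.subset_closedBall 0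
    refine ⟨max R 0, le_max_right _ _, fun ξ hξ => ?_⟩
    by_contra hne
    have h1 := hR (subset_tsupport ψ hne)
    rw [mem_closedBall_zero_iff] at h1
    linarith [le_max_left R 0]
  have h1 : ∀ h, ‖T Λ σ h G - G‖ = ∫ ξ, wt k ξ * ‖Tfun Λ σ h ψ ξ - ψ ξ‖ := by
    intro h
    rw [norm_eq]
    unfold nrmX
    apply integral_congr_ae
    filter_upwards [fn_sub (T Λ σ h G) G, fn_T Λ σ h G, Tfun_congr Λ σ h hG, hG]
      with ξ a1 a2 a3 a4
    rw [a1, a2, a3, a4]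
  have h2 : ContinuousOn (fun h => ∫ ξ, wt k ξ * ‖Tfun Λ σ h ψ ξ - ψ ξ‖) (Ioi (-2)) := by
    apply continuousOn_integral_of_compact_support
      (isCompact_closedBall (0 : Fq d) (Real.exp 1 * R))
    · apply Continuous.continuousOn
      exact ((continuous_wt k).comp continuous_snd).mul
        ((continuous_Tfun Λ σ hψ).sub (hψ.comp continuous_snd)).norm
    · intro h ξ hh hξ
      rw [mem_closedBall_zero_iff, not_le] at hξ
      have he : 1 ≤ Real.exp 1 := Real.one_le_exp zero_le_one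
      have a1 : ψ ξ = 0 := hR ξ (by nlinarith)
      have a2 : ψ (Real.exp (h / 2) • ξ) = 0 := by
        apply hR
        rw [norm_smul, Real.norm_eq_abs, abs_of_pos (Real.exp_pos _)]
        have b1 : 1 ≤ Real.exp (h / 2) * Real.exp 1 := by
          rw [← Real.exp_add]
          apply Real.one_le_exp
          have := mem_Ioi.1 hh
          linarith
        have b2 := Real.exp_pos (h / 2)
        nlinarith [mul_lt_mul_of_pos_left hξ b2]
      simp only [Tfun, a1, a2, mul_zero, sub_self, norm_zero]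
  have h3 := h2.continuousAt (Ioi_mem_nhds (show (-2 : ℝ) < 0 by norm_num))
  simp only [h1]
  have h4 : (∫ ξ, wt k ξ * ‖Tfun Λ σ 0 ψ ξ - ψ ξ‖) = 0 := by
    simp only [Tfun_zero, sub_self, norm_zero, mul_zero, integral_zero]
  have h5 := h3.tendsto
  rwa [h4] at h5

/-- Density of continuous compactly supported representatives. -/
theorem exists_compact (F : XW d k) {ε : ℝ} (hε : 0 < ε) :
    ∃ (G : XW d k) (ψ : Fq d → ℂ), Continuous ψ ∧ HasCompactSupport ψ ∧ fn G =ᵐ[volume] ψ ∧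
      ‖F - G‖ ≤ ε := by
  obtain ⟨g, hgc, hg, hcont, hint⟩ :=
    (integrable_wt F le_rfl).exists_hasCompactSupport_integral_sub_le hε
  have hw : ∀ ξ : Fq d, (wt k ξ : ℂ) ≠ 0 := fun ξ => Complex.ofReal_ne_zero.2 (wt_pos k ξ).ne'
  have hI : Integrable fun ξ : Fq d => (wt k ξ : ℂ) * (g ξ * (wt k ξ : ℂ)⁻¹) := by
    refine hint.congr (Eventually.of_forall fun ξ => ?_)
    have := hw ξ
    field_simp
  refine ⟨mk _ hI, fun ξ => g ξ * (wt k ξ : ℂ)⁻¹, ?_, ?_, fn_mk _ hI, ?_⟩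
  · exact hcont.mul ((Complex.continuous_ofReal.comp (continuous_wt k)).inv₀ hw)
  · exact hgc.mul_right
  · refine le_trans (le_of_eq ?_) hg
    rw [norm_eq]
    unfold nrmX
    apply integral_congr_ae
    filter_upwards [fn_sub F (mk _ hI), fn_mk (k := k) _ hI] with ξ a1 a2
    rw [a1, a2]
    have b1 : (wt k ξ : ℂ) * fn F ξ - g ξ = (wt k ξ : ℂ) * (fn F ξ - g ξ * (wt k ξ : ℂ)⁻¹) := by
      have := hw ξ
      field_simp
    rw [b1, norm_mul, Complex.norm_real, Real.norm_eq_abs, abs_of_pos (wt_pos k ξ)]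

theorem continuous_bound (Λ : ℂ) (k : ℕ) :
    Continuous fun s : ℝ => Real.exp ((|Λ.re| + k) * |s|) := by
  fun_prop

theorem tendsto_T_zero (Λ : ℂ) (σ : ℝ) (F : XW d k) :
    Tendsto (fun h => ‖T Λ σ h F - F‖) (𝓝 0) (𝓝 0) := by
  rw [Metric.tendsto_nhds]
  intro ε hε
  obtain ⟨G, ψ, hψ, hc, hG, hFG⟩ := exists_compact F (show 0 < ε / 4 by positivity)
  have h1 := (tendsto_T_of_compact Λ σ G hψ hc hG).eventually
    (gt_mem_nhds (show 0 < ε / 4 by positivity))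
  have h2 : ∀ᶠ h in 𝓝 (0 : ℝ), Real.exp ((|Λ.re| + k) * |h|) < 2 := by
    apply ((continuous_bound Λ k).tendsto 0).eventually (gt_mem_nhds _)
    simp
  filter_upwards [h1, h2] with h a1 a2
  rw [Real.dist_eq, sub_zero, abs_of_nonneg (norm_nonneg _)]
  have b1 : T Λ σ h F - F = T Λ σ h (F - G) + (T Λ σ h G - G) - (F - G) := by
    rw [map_sub]; abel
  have b2 : ‖T Λ σ h (F - G)‖ ≤ 2 * (ε / 4) :=
    ((T Λ σ h).le_opNorm _).trans
      (mul_le_mul ((norm_T_le Λ σ h).trans a2.le) hFG (norm_nonneg _) zero_le_two)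
  calc ‖T Λ σ h F - F‖ ≤ ‖T Λ σ h (F - G)‖ + ‖T Λ σ h G - G‖ + ‖F - G‖ := by
        rw [b1]
        exact (norm_sub_le _ _).trans (add_le_add_left (norm_add_le _ _) _)
    _ < ε := by linarith

end XFlow

namespace XW

theorem continuous_T (Λ : ℂ) (σ : ℝ) (F : XW d k) : Continuous fun s => T Λ σ s F := by
  rw [continuous_iff_continuousAt]
  intro s₀
  have h0 : Tendsto (fun h => T Λ σ h F) (𝓝 0) (𝓝 F) :=
    tendsto_iff_norm_sub_tendsto_zero.2 (tendsto_T_zero Λ σ F)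
  have h1 : Tendsto (fun s : ℝ => s - s₀) (𝓝 s₀) (𝓝 0) :=
    (continuous_id.sub continuous_const).tendsto' s₀ 0 (sub_self s₀)
  have h2 := ((T Λ σ s₀).continuous.tendsto F).comp (h0.comp h1)
  refine Tendsto.congr (fun s => ?_) h2
  simp only [Function.comp_apply, T_add, add_sub_cancel]

theorem continuous_T_uncurry (Λ : ℂ) (σ : ℝ) :
    Continuous fun p : ℝ × XW d k => T Λ σ p.1 p.2 := by
  rw [continuous_iff_continuousAt]
  rintro ⟨t₀, x₀⟩
  rw [ContinuousAt, tendsto_iff_norm_sub_tendsto_zero]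
  have h1 : Tendsto (fun p : ℝ × XW d k => Real.exp ((|Λ.re| + k) * |p.1|) * ‖p.2 - x₀‖
      + ‖T Λ σ p.1 x₀ - T Λ σ t₀ x₀‖) (𝓝 (t₀, x₀)) (𝓝 0) := by
    have hc : Continuous fun p : ℝ × XW d k => Real.exp ((|Λ.re| + k) * |p.1|) * ‖p.2 - x₀‖
        + ‖T Λ σ p.1 x₀ - T Λ σ t₀ x₀‖ :=
      (((continuous_bound Λ k).comp continuous_fst).mul
        (continuous_snd.sub continuous_const).norm).add
        (((continuous_T Λ σ x₀).comp continuous_fst).sub continuous_const).norm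
    apply hc.tendsto'
    simp only [sub_self, norm_zero, mul_zero, add_zero]
  refine squeeze_zero (fun _ => norm_nonneg _) (fun p => ?_) h1
  calc ‖T Λ σ p.1 p.2 - T Λ σ t₀ x₀‖
      = ‖T Λ σ p.1 (p.2 - x₀) + (T Λ σ p.1 x₀ - T Λ σ t₀ x₀)‖ := by
        rw [map_sub]; abel_nf
    _ ≤ ‖T Λ σ p.1 (p.2 - x₀)‖ + ‖T Λ σ p.1 x₀ - T Λ σ t₀ x₀‖ := norm_add_le _ _
    _ ≤ _ := by
        refine add_le_add_left ?_ _
        exact ((T Λ σ p.1).le_opNorm _).trans
          (mul_le_mul_of_nonneg_right (norm_T_le Λ σ p.1) (norm_nonneg _))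

theorem st_T (Λ : ℂ) (σ s : ℝ) (F : XW d k) :
    st (T Λ σ s F) = T (conj Λ) (-σ) s (st F) := by
  apply ext_ae
  filter_upwards [fn_st (T Λ σ s F), ae_neg (fn_T Λ σ s F), fn_T (conj Λ) (-σ) s (st F),
    Tfun_congr (conj Λ) (-σ) s (fn_st F)] with ξ a1 a2 a3 a4
  rw [a1, a2, a3, a4]
  simp only [Tfun, map_mul, smul_neg, sq_neg, ← Complex.exp_conj]
  congr 2
  simp only [map_sub, map_add, map_mul, map_neg, map_div₀, Complex.conj_ofReal, Complex.conj_I,
    map_natCast, map_ofNat, Complex.ofReal_neg]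
  ring

theorem incl_T (Λ : ℂ) (σ s : ℝ) (F : XW d (k + 1)) :
    incl (T Λ σ s F) = T Λ σ s (incl F) := by
  apply ext_ae
  exact (fn_incl _).trans ((fn_T Λ σ s F).trans
    ((Tfun_congr Λ σ s (fn_incl F).symm).trans (fn_T Λ σ s (incl F)).symm))

theorem ev_T (Λ : ℂ) (σ s : ℝ) (F : XW d k) (y : Eu d) :
    ev (T Λ σ s F) y = cexp (-Λ * s) * ∫ η, cexp (-I * σ * ((1 - Real.exp (-s)) * sq η : ℝ))
      * (cexp (I * (Real.exp (-s / 2) * dot η y : ℝ)) * fn F η) := by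
  have h1 : ev (T Λ σ s F) y = ∫ ξ, cexp (-Λ * s + d * s / 2) *
      (fun η => cexp (-I * σ * ((1 - Real.exp (-s)) * sq η : ℝ))
        * (cexp (I * (Real.exp (-s / 2) * dot η y : ℝ)) * fn F η)) (Real.exp (s / 2) • ξ) := by
    unfold ev evf
    apply integral_congr_ae
    filter_upwards [fn_T Λ σ s F] with ξ hξ
    have b1 : (1 - Real.exp (-s)) * sq (Real.exp (s / 2) • ξ) = (Real.exp s - 1) * sq ξ := by
      rw [sq_smul, exp_half_sq, Real.exp_neg]
      have := (Real.exp_pos s).ne'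
      field_simp
    have b2 : Real.exp (-s / 2) * dot (Real.exp (s / 2) • ξ) y = dot ξ y := by
      rw [← dot_smul, smul_dil]
    simp only [hξ, Tfun, b1, b2]
    rw [sub_eq_add_neg, Complex.exp_add]
    have b3 : -(I * σ * ((Real.exp s - 1) * sq ξ : ℝ)) = -I * σ * ((Real.exp s - 1) * sq ξ : ℝ) := by
      ring
    rw [b3]
    ring
  rw [h1, integral_const_mul, integral_dil s fun η =>
    cexp (-I * σ * ((1 - Real.exp (-s)) * sq η : ℝ))
      * (cexp (I * (Real.exp (-s / 2) * dot η y : ℝ)) * fn F η), Complex.real_smul, ← mul_assoc,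
    Complex.ofReal_exp, ← Complex.exp_add]
  congr 2
  push_cast
  ring

end XW

end Vale.Agent.P139Z
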